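import Vale.Agent.P098.Reg.High.Hodograph

/-!
Higher order reflection: a function of class `C^k` up to the flat side extends across it.
-/

noncomputable section

namespace Vale.Agent.P098.Reg.High

open MeasureTheory Set Filter Topology Metric
open scoped ContDiff InnerProductSpace NNReal Matrix

variable {n : ℕ}

/-- The reflection factors. -/
def rs (j : Fin 9) : ℝ := -((j : ℕ) + 1 : ℝ)

theorem abs_rs (j : Fin 9) : |rs j| ≤ 9 := by
  rw [rs, abs_neg, abs_of_nonneg (by positivity)]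
  exact_mod_cast j.isLt

theorem exists_coeff : ∃ c : Fin 9 → ℝ, ∀ m : ℕ, m ≤ 8 → ∑ j, c j * rs j ^ m = 1 := by
  let V : Matrix (Fin 9) (Fin 9) ℝ := Matrix.vandermonde rs
  have hV : V.det ≠ 0 := Matrix.det_vandermonde_ne_zero_iff.2 fun a b h => by
    simpa [rs, Fin.val_inj] using h
  refine ⟨(fun _ => (1 : ℝ)) ᵥ* V⁻¹, fun m hm => ?_⟩
  have h : ((fun _ : Fin 9 => (1 : ℝ)) ᵥ* V⁻¹) ᵥ* V = fun _ => (1 : ℝ) := by
    rw [Matrix.vecMul_vecMul, Matrix.nonsing_inv_mul _ (isUnit_iff_ne_zero.2 hV), Matrix.vecMul_one]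
  have h' := congrFun h (⟨m, by omega⟩ : Fin 9)
  simpa [Matrix.vecMul, dotProduct, V, Matrix.vandermonde_apply] using h'

/-- The normal projection. -/
def piN (n : ℕ) : Pt (n + 1) →L[ℝ] Pt (n + 1) :=
  (EuclideanSpace.proj (𝕜 := ℝ) (ι := Fin (n + 1)) (Fin.last n)).smulRight (eL n)

/-- The tangential projection. -/
def piT (n : ℕ) : Pt (n + 1) →L[ℝ] Pt (n + 1) := ContinuousLinearMap.id ℝ _ - piN n

/-- Scaling of the last coordinate. -/
def scaleL (n : ℕ) (s : ℝ) : Pt (n + 1) →L[ℝ] Pt (n + 1) := piT n + s • piN n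

theorem scaleL_apply (s : ℝ) (y : Pt (n + 1)) : scaleL n s y = lift y (s * y (Fin.last n)) := by
  simp [scaleL, piT, piN, lift]
  module

theorem norm_scaleL_le (j : Fin 9) (y : Pt (n + 1)) : ‖scaleL n (rs j) y‖ ≤ 11 * ‖y‖ := by
  rw [scaleL_apply]
  refine (norm_lift_le _ _).trans ?_
  rw [abs_mul]
  have h : |y (Fin.last n)| ≤ ‖y‖ := by simpa using PiLp.norm_apply_le y (Fin.last n)
  nlinarith [mul_le_mul (abs_rs j) h (abs_nonneg _) (by norm_num), abs_nonneg (y (Fin.last n))]

/-- The reflected extension. -/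
def ext9 (c : Fin 9 → ℝ) {F : Type*} [AddCommGroup F] [Module ℝ F] (f : Pt (n + 1) → F)
    (y : Pt (n + 1)) : F :=
  if 0 ≤ y (Fin.last n) then f y else ∑ j, c j • f (scaleL n (rs j) y)

/-- The lower side. -/
def Hm (n : ℕ) : Set (Pt (n + 1)) := {y | y (Fin.last n) ≤ 0}

section

variable {F : Type} [NormedAddCommGroup F] [NormedSpace ℝ F] {c : Fin 9 → ℝ} {f : Pt (n + 1) → F}
  {r : ℝ}

theorem ext9_upper {y : Pt (n + 1)} (hy : y ∈ Hc n 0) : ext9 c f y = f y :=
  if_pos (by simpa [Hc] using hy)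

theorem ext9_lower (hc : ∑ j, c j = 1) {y : Pt (n + 1)} (hy : y ∈ Hm n) :
    ext9 c f y = ∑ j, c j • f (scaleL n (rs j) y) := by
  rcases (show y (Fin.last n) ≤ 0 from hy).eq_or_lt with h | h
  · rw [ext9, if_pos h.ge]
    have e : ∀ j, scaleL n (rs j) y = y := fun j => by
      rw [scaleL_apply, h, mul_zero, ← h, lift_self]
    simp only [e, ← Finset.sum_smul, hc, one_smul]
  · exact if_neg (not_le.2 h)

theorem scaleL_mapsTo (j : Fin 9) : MapsTo (scaleL n (rs j))
    (Hm n ∩ ball (0 : Pt (n + 1)) (r / 20)) (Hc n 0 ∩ ball 0 r) := by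
  intro y hy
  refine ⟨?_, mem_ball_zero_iff.2 ?_⟩
  · have h1 : y (Fin.last n) ≤ 0 := hy.1
    show -0 ≤ scaleL n (rs j) y (Fin.last n)
    rw [scaleL_apply, lift_last, neg_zero]
    exact mul_nonneg_of_nonpos_of_nonpos (by rw [rs]; linarith [(j : ℕ).cast_nonneg (α := ℝ)]) h1
  · have := mem_ball_zero_iff.1 hy.2
    linarith [norm_scaleL_le j y, norm_nonneg y]

theorem isClosed_Hm : IsClosed (Hm n) := isClosed_le continuous_last continuous_const

theorem split_ball (r : ℝ) :
    ball (0 : Pt (n + 1)) (r / 20) = (Hc n 0 ∩ ball 0 (r / 20)) ∪ (Hm n ∩ ball 0 (r / 20)) := by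
  rw [← union_inter_distrib_right, eq_comm, inter_eq_right]
  intro y _
  rcases le_total 0 (y (Fin.last n)) with h | h
  · exact Or.inl (show (-0:ℝ) ≤ y (Fin.last n) by simpa using h)
  · exact Or.inr h

theorem uniqueDiffOn_half (hr : 0 < r) : UniqueDiffOn ℝ (Hc n 0 ∩ ball (0 : Pt (n + 1)) r) := by
  refine uniqueDiffOn_convex ((convex_Hc 0).inter (convex_ball _ _)) ⟨(r / 2) • eL n, ?_⟩
  refine interior_mono (inter_subset_inter_left _ (Ho_subset_Hc 0)) ?_
  rw [((isOpen_Ho 0).inter isOpen_ball).interior_eq]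
  refine ⟨by simp [Ho, hr], mem_ball_zero_iff.2 ?_⟩
  rw [norm_smul, norm_eL, mul_one, Real.norm_of_nonneg (by positivity)]
  linarith

theorem ext9_continuousOn (hc : ∑ j, c j = 1) (hr : 0 < r)
    (hf : ContinuousOn f (Hc n 0 ∩ ball 0 r)) :
    ContinuousOn (ext9 c f) (ball (0 : Pt (n + 1)) (r / 20)) := by
  intro y hy
  have hsub : ball (0 : Pt (n + 1)) (r / 20) ⊆ ball 0 r := ball_subset_ball (by linarith)
  refine (?_ : ContinuousWithinAt (ext9 c f) _ y).mono (split_ball r).subset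
  refine ContinuousWithinAt.union ?_ ?_
  · by_cases h : y ∈ Hc n 0
    · exact ((hf y ⟨h, hsub hy⟩).mono (inter_subset_inter_right _ hsub)).congr
        (fun z hz => ext9_upper hz.1) (ext9_upper h)
    · exact continuousWithinAt_of_notMem_closure fun h' =>
        h ((isClosed_Hc 0).closure_subset (closure_mono inter_subset_left h'))
  · by_cases h : y ∈ Hm n
    · refine ContinuousWithinAt.congr ?_ (fun z hz => ext9_lower hc hz.1) (ext9_lower hc h)
      refine tendsto_finsetSum _ fun j _ => ContinuousWithinAt.const_smul ?_ _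
      exact (hf _ (scaleL_mapsTo j ⟨h, hy⟩)).comp (scaleL n (rs j)).continuous.continuousWithinAt
        (scaleL_mapsTo j)
    · exact continuousWithinAt_of_notMem_closure fun h' =>
        h (isClosed_Hm.closure_subset (closure_mono inter_subset_left h'))

/-- The derivative of the extension. -/
def dExt (c : Fin 9 → ℝ) (f' : Pt (n + 1) → (Pt (n + 1) →L[ℝ] F)) (y : Pt (n + 1)) :
    Pt (n + 1) →L[ℝ] F :=
  ext9 c (fun z => (f' z).comp (piT n)) y + ext9 (fun j => c j * rs j) (fun z => (f' z).comp (piN n)) y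

theorem ext9_hasFDerivAt (hc : ∑ j, c j = 1) (hc1 : ∑ j, c j * rs j = 1) (hr : 0 < r)
    {f' : Pt (n + 1) → (Pt (n + 1) →L[ℝ] F)}
    (hf : ∀ z ∈ Hc n 0 ∩ ball 0 r, HasFDerivWithinAt f (f' z) (Hc n 0 ∩ ball 0 r) z)
    {y : Pt (n + 1)} (hy : y ∈ ball (0 : Pt (n + 1)) (r / 20)) :
    HasFDerivAt (ext9 c f) (dExt c f' y) y := by
  have hsub : ball (0 : Pt (n + 1)) (r / 20) ⊆ ball 0 r := ball_subset_ball (by linarith)
  refine ((HasFDerivWithinAt.union ?_ ?_).mono (split_ball r).subset).hasFDerivAt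
    (isOpen_ball.mem_nhds hy)
  · by_cases h : y ∈ Hc n 0
    · have e : dExt c f' y = f' y := by
        simp only [dExt, ext9_upper h]
        ext w
        simp [piT]
      rw [e]
      exact ((hf y ⟨h, hsub hy⟩).mono (inter_subset_inter_right _ hsub)).congr
        (fun z hz => ext9_upper hz.1) (ext9_upper h)
    · exact .of_notMem_closure fun h' =>
        h ((isClosed_Hc 0).closure_subset (closure_mono inter_subset_left h'))
  · by_cases h : y ∈ Hm n
    · have e : dExt c f' y = ∑ j, c j • (f' (scaleL n (rs j) y)).comp (scaleL n (rs j)) := by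
        simp only [dExt, ext9_lower hc h, ext9_lower hc1 h, ← Finset.sum_add_distrib]
        refine Finset.sum_congr rfl fun j _ => ?_
        ext w
        simp [scaleL, smul_smul, smul_add]
      rw [e]
      refine HasFDerivWithinAt.congr ?_ (fun z hz => ext9_lower hc hz.1) (ext9_lower hc h)
      exact HasFDerivWithinAt.fun_sum fun j _ => ((hf _ (scaleL_mapsTo j ⟨h, hy⟩)).comp y
        (scaleL n (rs j)).hasFDerivWithinAt (scaleL_mapsTo j)).const_smul (c j)
    · exact .of_notMem_closure fun h' =>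
        h (isClosed_Hm.closure_subset (closure_mono inter_subset_left h'))

end

/-- Reflection of order `k`. -/
theorem ext9_contDiffOn : ∀ (k : ℕ) {F : Type} [NormedAddCommGroup F] [NormedSpace ℝ F]
    (f : Pt (n + 1) → F) (c : Fin 9 → ℝ) {r : ℝ}, 0 < r →
    (∀ m, m ≤ k → ∑ j, c j * rs j ^ m = 1) → ContDiffOn ℝ k f (Hc n 0 ∩ ball 0 r) →
    ContDiffOn ℝ k (ext9 c f) (ball (0 : Pt (n + 1)) (r / 20)) := by
  intro k
  induction k with
  | zero =>
    intro F _ _ f c r hr hm hf
    exact contDiffOn_zero.2 (ext9_continuousOn (by simpa using hm 0 le_rfl) hr hf.continuousOn)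
  | succ k ih =>
    intro F _ _ f c r hr hm hf
    set f' := fderivWithin ℝ f (Hc n 0 ∩ ball 0 r) with hf'def
    have hf' : ∀ z ∈ Hc n 0 ∩ ball (0 : Pt (n + 1)) r,
        HasFDerivWithinAt f (f' z) (Hc n 0 ∩ ball 0 r) z := fun z hz =>
      ((hf z hz).differentiableWithinAt (by norm_cast)).hasFDerivWithinAt
    have hd : ∀ y ∈ ball (0 : Pt (n + 1)) (r / 20), HasFDerivAt (ext9 c f) (dExt c f' y) y :=
      fun y hy => ext9_hasFDerivAt (by simpa using hm 0 (by omega)) (by simpa using hm 1 (by omega))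
        hr hf' hy
    rw [show ((k + 1 : ℕ) : ℕ∞ω) = (k : ℕ∞ω) + 1 by norm_cast,
      contDiffOn_succ_iff_fderiv_of_isOpen isOpen_ball]
    refine ⟨fun y hy => (hd y hy).differentiableAt.differentiableWithinAt, by simp, ?_⟩
    have hs : ContDiffOn ℝ k f' (Hc n 0 ∩ ball 0 r) :=
      hf.fderivWithin (uniqueDiffOn_half hr) (by norm_cast)
    refine ContDiffOn.congr (ContDiffOn.add
      (ih (fun z => (f' z).comp (piT n)) c hr (fun m hm' => hm m (by omega))
        (hs.clm_comp contDiffOn_const))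
      (ih (fun z => (f' z).comp (piN n)) (fun j => c j * rs j) hr (fun m hm' => ?_)
        (hs.clm_comp contDiffOn_const))) fun y hy => (hd y hy).fderiv
    have := hm (m + 1) (by omega)
    simpa [pow_succ, mul_assoc, mul_comm, mul_left_comm] using this

end Vale.Agent.P098.Reg.High
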