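import Vale.Agent.P098.Reg.High.Hodograph
import Vale.Agent.P098.Reg.High.Reflect

/-!
Higher regularity of the free boundary from regularity up to the flat side of the hodograph
equation: the extension of a homogeneous minimiser across its free boundary away from the origin.
-/

noncomputable section

namespace Vale.Agent.P098.Reg.High

open MeasureTheory Set Filter Topology Metric
open scoped ContDiff InnerProductSpace NNReal

variable {d n : ℕ}

/-- The extension at a free boundary point in normal form. -/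
theorem Front.local_ext {v : Pt (n + 1) → ℝ} {α C r : ℝ} {P : Pt (n + 1) → Pt (n + 1)}
    (F : Front v α C r P) (hB : Boot n) :
    ∃ (V : Pt (n + 1) → ℝ) (W : Set (Pt (n + 1))), IsOpen W ∧ (0 : Pt (n + 1)) ∈ W ∧
      ContDiffOn ℝ 8 V W ∧ ∀ x ∈ W, 0 < v x → V x = v x := by
  obtain ⟨M, r1, g, G, hr1, hjet, hG0, hgs, hdiv, hweak, hg0, hev⟩ := F.hodograph
  obtain ⟨r', hr', hg8⟩ := hB α M r1 g G F.alpha F.alpha_lt hr1 hjet hG0 hgs hdiv hweak
  set R := min r' r1 with hRdef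
  have hR : 0 < R := lt_min hr' hr1
  set S := Hc n 0 ∩ ball (0 : Pt (n + 1)) R with hSdef
  have hgS : ContDiffOn ℝ 8 g S :=
    hg8.mono (inter_subset_inter_right _ (ball_subset_ball (min_le_left _ _)))
  obtain ⟨c, hc⟩ := exists_coeff
  have hext : ContDiffOn ℝ 8 (ext9 c g) (ball (0 : Pt (n + 1)) (R / 20)) :=
    ext9_contDiffOn 8 g c hR hc hgS
  have hext0 : ContDiffAt ℝ 8 (ext9 c g) (0 : Pt (n + 1)) :=
    hext.contDiffAt (ball_mem_nhds _ (by positivity))
  have h0S : (0 : Pt (n + 1)) ∈ S := ⟨by simp [Hc], mem_ball_self hR⟩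
  have hd0 : HasFDerivAt (ext9 c g) (innerSL ℝ (eL n)) (0 : Pt (n + 1)) := by
    have h1 : HasFDerivAt (ext9 c g) (fderiv ℝ (ext9 c g) (0 : Pt (n + 1))) 0 :=
      (hext0.differentiableAt (by norm_num)).hasFDerivAt
    have h2 : HasFDerivWithinAt g (innerSL ℝ (G 0)) S 0 :=
      (hjet.hasFDerivWithinAt F.alpha ⟨h0S.1, mem_closedBall_self hr1.le⟩).mono fun z hz =>
        ⟨hz.1, mem_closedBall.2 ((mem_ball.1 hz.2).le.trans (min_le_right _ _))⟩
    have h3 : HasFDerivWithinAt g (fderiv ℝ (ext9 c g) (0 : Pt (n + 1))) S 0 :=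
      h1.hasFDerivWithinAt.congr (fun z hz => (ext9_upper hz.1).symm) (ext9_upper h0S.1).symm
    have h4 := ((uniqueDiffOn_half hR) 0 h0S).eq h3 h2
    rw [h4, hG0] at h1
    exact h1
  obtain ⟨Φ, hΦdef⟩ : ∃ Φ : Pt (n + 1) → Pt (n + 1), Φ = fun y => lift y (ext9 c g y) := ⟨_, rfl⟩
  have hΦs : ContDiffAt ℝ 8 Φ (0 : Pt (n + 1)) := by
    rw [hΦdef]; unfold lift
    exact contDiffAt_id.add ((hext0.sub
      (EuclideanSpace.proj (𝕜 := ℝ) (ι := Fin (n + 1)) (Fin.last n)).contDiff.contDiffAt).smul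
      contDiffAt_const)
  have hΦd : HasFDerivAt Φ
      ((ContinuousLinearEquiv.refl ℝ (Pt (n + 1)) : Pt (n + 1) →L[ℝ] Pt (n + 1))) 0 := by
    rw [hΦdef]; unfold lift
    refine ((hasFDerivAt_id (0 : Pt (n + 1))).add ((hd0.sub
      (EuclideanSpace.proj (𝕜 := ℝ) (ι := Fin (n + 1)) (Fin.last n)).hasFDerivAt).smul_const
      (eL n))).congr_fderiv ?_
    ext w
    simp [inner_eL]
  have hΦ0 : Φ 0 = 0 := by
    rw [hΦdef]; simp [lift, ext9_upper h0S.1, hg0]
  have hn8 : (8 : ℕ∞ω) ≠ 0 := by norm_num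
  set inv := hΦs.localInverse hΦd hn8 with hinv
  have hinvs : ContDiffAt ℝ 8 inv (0 : Pt (n + 1)) := by
    have := hΦs.to_localInverse hΦd hn8
    rwa [hΦ0] at this
  have hleft : ∀ᶠ y in 𝓝 (0 : Pt (n + 1)), inv (Φ y) = y :=
    (hΦs.hasStrictFDerivAt' hΦd hn8).eventually_left_inverse
  have hVs : ContDiffAt ℝ 8 (fun z => inv z (Fin.last n)) (0 : Pt (n + 1)) :=
    (EuclideanSpace.proj (𝕜 := ℝ) (ι := Fin (n + 1)) (Fin.last n)).contDiff.contDiffAt.comp 0 hinvs
  have hpsi : Tendsto (psi v) (𝓝 (0 : Pt (n + 1))) (𝓝 0) := by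
    have hc : Continuous (psi v) := by
      unfold psi lift
      exact continuous_id.add ((F.lmin.continuous.sub continuous_last).smul continuous_const)
    simpa [psi, lift, F.v_zero] using hc.tendsto (0 : Pt (n + 1))
  have heq : ∀ᶠ x in 𝓝 (0 : Pt (n + 1)), 0 < v x → inv x (Fin.last n) = v x := by
    filter_upwards [hev, hpsi.eventually hleft] with x hx hl hpos
    have hH : psi v x ∈ Hc n 0 := by simp [Hc, psi]; linarith
    have e : Φ (psi v x) = x := by rw [hΦdef]; simp only [ext9_upper hH]; exact hx hpos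
    rw [e] at hl
    rw [hl, psi, lift_last]
  obtain ⟨W, hW, hWo, hW0⟩ := _root_.eventually_nhds_iff.1 ((hVs.eventually (by simp)).and heq)
  exact ⟨fun z => inv z (Fin.last n), W, hWo, hW0, fun x hx => (hW x hx).1.contDiffWithinAt,
    fun x hx => (hW x hx).2⟩

/-- The extension near a point of the closure of the positivity set. -/
theorem exists_local_ext {u : Pt (n + 1) → ℝ} (hB : Boot n) (hu : LMin u) (hC : C1Boundary u)
    {x0 : Pt (n + 1)} (hx0 : x0 ∈ closure {x | 0 < u x}) (hne : x0 ≠ 0) :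
    ∃ (V : Pt (n + 1) → ℝ) (W : Set (Pt (n + 1))), IsOpen W ∧ x0 ∈ W ∧
      ContDiffOn ℝ 8 V W ∧ ∀ x ∈ W, 0 < u x → V x = u x := by
  by_cases hpos : 0 < u x0
  · exact ⟨u, {x | 0 < u x}, hu.isOpen_pos, hpos,
      ((basics _).smooth u hu).of_le (WithTop.coe_le_coe.2 le_top), fun _ _ _ => rfl⟩
  have hf : x0 ∈ free u := by rw [free, hu.isOpen_pos.frontier_eq]; exact ⟨hx0, hpos⟩
  obtain ⟨T, α, C, r, P, F⟩ := exists_front hu hC hf hne
  obtain ⟨V, W, hWo, hW0, hVs, hVe⟩ := F.local_ext hB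
  have hc : ContDiff ℝ 8 fun x : Pt (n + 1) => T.symm (x - x0) :=
    T.symm.toContinuousLinearEquiv.contDiff.comp (contDiff_id.sub contDiff_const)
  refine ⟨fun x => V (T.symm (x - x0)), (fun x => T.symm (x - x0)) ⁻¹' W,
    hWo.preimage hc.continuous, by simpa using hW0, hVs.comp hc.contDiffOn (mapsTo_preimage _ _),
    fun x hx hux => ?_⟩
  have e : x0 + T (T.symm (x - x0)) = x := by simp
  simpa only [e] using hVe _ hx (by simpa only [e] using hux)

/-- Gluing the local extensions on the sphere. -/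
theorem exists_sphere_ext {u : Pt (n + 1) → ℝ} (hB : Boot n) (hu : LMin u) (hC : C1Boundary u) :
    ∃ U1 D : Pt (n + 1) → ℝ, ContDiff ℝ 8 D ∧ ContDiffOn ℝ 8 U1 {x | 0 < D x} ∧
      (∀ x ∈ closure {x | 0 < u x}, ‖x‖ = 1 → 0 < D x) ∧
      ∀ x, 0 < u x → 0 < D x → U1 x = u x := by
  classical
  set K := closure {x | 0 < u x} ∩ sphere (0 : Pt (n + 1)) 1 with hKdef
  have hK : IsCompact K := (isCompact_sphere _ _).inter_left isClosed_closure
  have hloc : ∀ x : K, ∃ (V : Pt (n + 1) → ℝ) (W : Set (Pt (n + 1))) (φ : Pt (n + 1) → ℝ),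
      IsOpen W ∧ ContDiffOn ℝ 8 V W ∧ (∀ y ∈ W, 0 < u y → V y = u y) ∧
      ContDiff ℝ 8 φ ∧ (∀ y, 0 ≤ φ y) ∧ 0 < φ x ∧ tsupport φ ⊆ W := by
    rintro ⟨x, hx, hx1⟩
    have hne : x ≠ 0 := fun h => by simp [h] at hx1
    obtain ⟨V, W, hWo, hxW, hVs, hVe⟩ := exists_local_ext hB hu hC hx hne
    obtain ⟨φ, hφs, -, hφc, hφr, hφ1⟩ := exists_contDiff_tsupport_subset (n := (⊤ : ℕ∞))
      (hWo.mem_nhds hxW)
    exact ⟨V, W, φ, hWo, hVs, hVe, hφc.of_le (WithTop.coe_le_coe.2 le_top),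
      fun y => (hφr ⟨y, rfl⟩).1, by simp [hφ1], hφs⟩
  choose V W φ hWo hVs hVe hφc hφ0 hφx hφW using hloc
  obtain ⟨t, ht⟩ := hK.elim_finite_subcover (fun x : K => {y | 0 < φ x y})
    (fun x => isOpen_lt continuous_const (hφc x).continuous)
    (fun y hy => mem_iUnion.2 ⟨⟨y, hy⟩, hφx ⟨y, hy⟩⟩)
  have hterm : ∀ i : K, ContDiff ℝ 8 fun y => φ i y * V i y := fun i =>
    contDiff_iff_contDiffAt.2 fun y => by
      by_cases hy : y ∈ W i
      · exact (hφc i).contDiffAt.mul ((hVs i).contDiffAt ((hWo i).mem_nhds hy))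
      · have hev : (fun y => φ i y * V i y) =ᶠ[𝓝 y] fun _ => 0 := by
          filter_upwards [(isClosed_tsupport (φ i)).isOpen_compl.mem_nhds fun h => hy (hφW i h)]
            with z hz
          rw [image_eq_zero_of_notMem_tsupport hz, zero_mul]
        exact contDiffAt_const.congr_of_eventuallyEq hev
  have hD : ContDiff ℝ 8 fun y => ∑ i ∈ t, φ i y := ContDiff.sum fun i _ => hφc i
  refine ⟨fun y => (∑ i ∈ t, φ i y * V i y) / ∑ i ∈ t, φ i y, fun y => ∑ i ∈ t, φ i y, hD,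
    (ContDiff.sum fun i _ => hterm i).contDiffOn.div hD.contDiffOn fun y hy => ne_of_gt hy,
    fun x hx hx1 => ?_, fun x hx hDx => ?_⟩
  · obtain ⟨i, hi, hix⟩ := mem_iUnion₂.1 (ht (show x ∈ K from ⟨hx, by simpa using hx1⟩))
    exact lt_of_lt_of_le hix (Finset.single_le_sum (fun j _ => hφ0 j x) hi)
  · have e : ∀ i ∈ t, φ i x * V i x = φ i x * u x := fun i _ => by
      rcases eq_or_ne (φ i x) 0 with h | h
      · simp [h]
      · rw [hVe i x (hφW i (subset_tsupport _ h)) hx]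
    simp only [Finset.sum_congr rfl e, ← Finset.sum_mul]
    exact mul_div_cancel_left₀ _ (ne_of_gt hDx)

/-- The extension satisfies the free boundary condition. -/
theorem gradSq_eq_one {u U : Pt d → ℝ} (hu : LMin u) (hC : C1Boundary u) {N : Set (Pt d)}
    (hN : IsOpen N) (hU : ContDiffOn ℝ 8 U N) (he : ∀ x, 0 < u x → U x = u x) {x : Pt d}
    (hx : x ∈ free u) (hne : x ≠ 0) (hxN : x ∈ N) : gradSq U x = 1 := by
  obtain ⟨r, hr, α, hα, -, C0, ν0, -, hA, hB⟩ := hC x hx hne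
  obtain ⟨ν, hν, htr⟩ := hA x hx (mem_ball_self hr)
  have hle : ∀ s : ℝ, 0 ≤ s → C0 * s ^ α ≤ |C0| * s ^ α := fun s hs =>
    mul_le_mul_of_nonneg_right (le_abs_self _) (Real.rpow_nonneg hs _)
  have htr' : ∀ s : ℝ, 0 < s → s ≤ r → Trapped u x s (|C0| * s ^ α) ν := fun s hs hsr y hy => by
    obtain ⟨t1, t2⟩ := htr s hs hsr y hy
    have hmul := mul_le_mul_of_nonneg_right (hle s hs.le) hs.le
    exact ⟨(max_le_max (by linarith) le_rfl).trans t1, t2.trans (max_le_max (by linarith) le_rfl)⟩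
  obtain ⟨l1, l2⟩ := grad_limit hu isOpen_ball (mem_ball_self hr) hν hα (abs_nonneg C0) hr htr'
    fun p hp hp0 q hq hq0 => by
      rw [norm_gradV_sub]
      exact ((hB p hp hp0).2 q hq hq0).trans
        (mul_le_mul_of_nonneg_right (le_abs_self _) (Real.rpow_nonneg dist_nonneg _))
  have hcont : ContinuousAt (fderiv ℝ U) x :=
    (hU.continuousOn_fderiv_of_isOpen hN (by norm_num)).continuousAt (hN.mem_nhds hxN)
  have hcurve : Tendsto (fun s : ℝ => x + s • ν) (𝓝[>] 0) (𝓝 x) := by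
    have := ((tendsto_id (x := 𝓝 (0 : ℝ))).smul_const ν).const_add x
    simpa using this.mono_left (nhdsWithin_le_nhds (s := Ioi (0 : ℝ)))
  have heq : fderiv ℝ U x = innerSL ℝ ν := by
    refine tendsto_nhds_unique_of_eventuallyEq (hcont.tendsto.comp hcurve)
      (((innerSL ℝ).continuous.tendsto ν).comp l2) ?_
    filter_upwards [l1] with s hs
    simp only [Function.comp_apply, ← fderiv_eq_gradV]
    refine Filter.EventuallyEq.fderiv_eq ?_
    filter_upwards [hu.isOpen_pos.mem_nhds hs.2] with z hz using he z hz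
  rw [gradSq_eq_norm_sq, heq, innerSL_apply_norm, hν, one_pow]

/-- Module E in positive dimension, given regularity up to the flat side. -/
theorem highReg_of_boot (n : ℕ) (hB : Boot n) : HighReg (n + 1) := by
  intro u hu hh hC
  obtain ⟨U1, D, hD, hU1, hDpos, hU1e⟩ := exists_sphere_ext hB hu hC
  obtain ⟨nz, hnz⟩ : ∃ nz : Pt (n + 1) → Pt (n + 1), nz = fun x => ‖x‖⁻¹ • x := ⟨_, rfl⟩
  have hnzs : ContDiffOn ℝ 8 nz {x | x ≠ 0} := fun x hx => by
    rw [hnz]
    exact (((contDiffAt_norm ℝ hx).inv (norm_ne_zero_iff.2 hx)).smul contDiffAt_id).contDiffWithinAt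
  obtain ⟨N, hN⟩ : ∃ N : Set (Pt (n + 1)), N = {x | x ≠ 0} ∩ nz ⁻¹' {x | 0 < D x} := ⟨_, rfl⟩
  have hNo : IsOpen N := hN ▸ hnzs.continuousOn.isOpen_inter_preimage isOpen_ne
    (isOpen_lt continuous_const hD.continuous)
  have hu0 : u 0 = 0 := by
    have h := hh 2 two_pos 0
    rw [smul_zero] at h
    linarith
  have hunit : ∀ x : Pt (n + 1), x ≠ 0 → ‖nz x‖ = 1 := fun x hx => by
    rw [hnz, norm_smul, norm_inv, norm_norm, inv_mul_cancel₀ (norm_ne_zero_iff.2 hx)]
  have hscale : ∀ x : Pt (n + 1), x ≠ 0 → u (nz x) = ‖x‖⁻¹ * u x := fun x hx => by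
    rw [hnz]; exact hh _ (by positivity) x
  have hcl : ∀ x ∈ closure {x | 0 < u x}, x ≠ 0 → x ∈ N := fun x hx hxne => by
    rw [hN]
    refine ⟨hxne, hDpos _ ?_ (hunit x hxne)⟩
    have hpos : (0 : ℝ) < ‖x‖⁻¹ := inv_pos.2 (norm_pos_iff.2 hxne)
    have hcl' : ‖x‖⁻¹ • x ∈ closure {x | 0 < u x} :=
      map_mem_closure (continuous_const_smul ‖x‖⁻¹) hx fun z (hz : 0 < u z) => by
        show 0 < u (‖x‖⁻¹ • z)
        rw [hh _ hpos z]; positivity
    rw [hnz]; exact hcl'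
  have hUs : ContDiffOn ℝ 8 (fun x => ‖x‖ * U1 (nz x)) N := fun x hx => by
    rw [hN] at hx
    refine ((contDiffAt_norm ℝ hx.1).mul ?_).contDiffWithinAt
    exact (hU1.contDiffAt ((isOpen_lt continuous_const hD.continuous).mem_nhds hx.2)).comp x
      (hnzs.contDiffAt (isOpen_ne.mem_nhds hx.1))
  have hUe : ∀ x, 0 < u x → ‖x‖ * U1 (nz x) = u x := fun x hx => by
    have hxne : x ≠ 0 := fun h => by rw [h, hu0] at hx; exact lt_irrefl _ hx
    have hpx : 0 < u (nz x) := by rw [hscale x hxne]; positivity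
    rw [hU1e _ hpx (hDpos _ (subset_closure hpx) (hunit x hxne)), hscale x hxne]
    field_simp
  exact ⟨_, N, hNo, hcl, hUs, hUe, fun x hx hxne =>
    gradSq_eq_one hu hC hNo hUs hUe hx hxne (hcl x (frontier_subset_closure hx) hxne)⟩

/-- Module E in dimension zero. -/
theorem highReg_zero : HighReg 0 := fun u _ _ _ =>
  ⟨u, univ, isOpen_univ, fun _ _ _ => mem_univ _, (contDiff_const (c := u 0)).contDiffOn.congr fun x _ => by rw [Subsingleton.elim x 0],
    fun _ _ => rfl, fun x _ hne => absurd (Subsingleton.elim x 0) hne⟩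

/-- Module E in every dimension, given regularity up to the flat side. -/
theorem highReg_all (hB : ∀ n, Boot n) : ∀ d, HighReg d
  | 0 => highReg_zero
  | n + 1 => highReg_of_boot n (hB n)

end Vale.Agent.P098.Reg.High
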