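import Vale.Agent.P098.Reg.High.Boot
import Vale.Agent.P098.Reg.High.HighOfBoot

/-! Module E: higher regularity of `C^{1,α}` free boundaries. -/

noncomputable section

namespace Vale.Agent.P098.Reg.High

/-- Higher regularity, in every dimension. -/
theorem highReg : ∀ d, HighReg d := highReg_all boot

end Vale.Agent.P098.Reg.High
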