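import Vale.Agent.P098.Reg.High.Taylor

/-! The boundary of the hodograph part and the regularity part of module E. -/

noncomputable section

namespace Vale.Agent.P098.Reg.High

open MeasureTheory Set Filter Topology Metric
open scoped ContDiff

variable {n : ℕ}

/-- The flux of the hodograph equation. -/
def hodoFlux (p : EuclideanSpace ℝ (Fin (n + 1))) : EuclideanSpace ℝ (Fin (n + 1)) :=
  WithLp.toLp 2 fun i => if i = Fin.last n then
      1 - (1 + ∑ j : Fin n, p j.castSucc ^ 2) / p (Fin.last n) ^ 2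
    else 2 * p i / p (Fin.last n)

/-- A `C^{1,α}` solution of the hodograph equation with natural boundary condition on the flat side
is `C^8` up to the flat side. -/
def Boot (n : ℕ) : Prop :=
  ∀ (α M r : ℝ) (g : EuclideanSpace ℝ (Fin (n + 1)) → ℝ)
    (G : EuclideanSpace ℝ (Fin (n + 1)) → EuclideanSpace ℝ (Fin (n + 1))),
    0 < α → α < 1 → 0 < r → Jet1 α M (Hc n 0 ∩ closedBall 0 r) g G →
    G 0 = EuclideanSpace.single (Fin.last n) 1 →
    ContDiffOn ℝ ∞ g (Ho n 0 ∩ ball 0 r) →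
    (∀ x ∈ Ho n 0 ∩ ball 0 r, ∑ a, pd a (fun y => hodoFlux (G y) a) x = 0) →
    (∀ φ : EuclideanSpace ℝ (Fin (n + 1)) → ℝ, ContDiff ℝ ∞ φ → HasCompactSupport φ →
      tsupport φ ⊆ ball 0 r → ∫ x in Ho n 0, fderiv ℝ φ x (hodoFlux (G x)) = 0) →
    ∃ r' > 0, ContDiffOn ℝ 8 g (Hc n 0 ∩ ball 0 r')

end Vale.Agent.P098.Reg.High
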