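import Vale.Agent.P098.Reg.High.Tang

/-! Gaining one normal derivative: a function with tangential derivatives of class `C^j` and normal
derivative of class `C^j` is `C^(j+1)` up to the flat side. -/

noncomputable section

namespace Vale.Agent.P098.Reg.High

open MeasureTheory Set Filter Topology Metric
open scoped ContDiff InnerProductSpace

variable {n : ℕ} {α ρ : ℝ} {j : ℕ}

variable {V : Type*} [NormedAddCommGroup V] [NormedSpace ℝ V]

theorem TC.pi {k : ℕ} {ι : Type*} [Fintype ι] {f : ι → (EuclideanSpace ℝ (Fin (n + 1))) → V} (h : ∀ i, TC α ρ j k (f i)) :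
    TC α ρ j k (fun x i => f i x) := by
  have hbase : ∀ {g : ι → (EuclideanSpace ℝ (Fin (n + 1))) → V}, (∀ i, Base α ρ j (g i)) → Base α ρ j (fun x i => g i x) := by
    intro g hg
    choose hc K hK using hg
    refine ⟨contDiffOn_pi.2 hc, ∑ i, |K i|, fun x hx => ⟨?_, fun y hy => ?_⟩⟩
    · refine (pi_norm_le_iff_of_nonneg (by positivity)).2 fun i => (hK i x hx).1.trans ?_
      exact (le_abs_self _).trans (Finset.single_le_sum (fun i _ => abs_nonneg (K i)) (Finset.mem_univ i))
    · refine (pi_norm_le_iff_of_nonneg (by positivity)).2 fun i => ((hK i x hx).2 y hy).trans ?_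
      exact mul_le_mul_of_nonneg_right ((le_abs_self _).trans
        (Finset.single_le_sum (fun i _ => abs_nonneg (K i)) (Finset.mem_univ i))) (by positivity)
  induction k generalizing f with
  | zero => exact hbase h
  | succ k ih =>
    refine ⟨hbase fun i => (h i).1, fun l => ?_⟩
    choose f' hf' hd using fun i => (h i).2 l
    exact ⟨fun x i => f' i x, ih hf', fun x hx => hasDerivAt_pi.2 fun i => hd i x hx⟩

theorem convex_hi (s : ℝ) : Convex ℝ (hi n s) :=
  (convex_halfSpace_gt ((EuclideanSpace.proj (𝕜 := ℝ) (ι := Fin (n + 1)) (Fin.last n)).toLinearMap.isLinear) (-0)).inter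
    (convex_ball _ _)

theorem uniqueDiffOn_halfBall {s : ℝ} (hs : 0 < s) : UniqueDiffOn ℝ (half n s) := by
  refine uniqueDiffOn_convex ((convex_Hc 0).inter (convex_ball _ _)) ?_
  have h := push_mem (n := n) (x := 0) (t := s / 2) (s := s) (by simp [Hc]) (by positivity) (by simp; linarith)
  exact ⟨_, interior_maximal (hi_subset_half s) (isOpen_hi s) h⟩

/-- The derivative assembled from the tangential and normal derivatives. -/
def assemble (v : (Fin n → V) × V) : (EuclideanSpace ℝ (Fin (n + 1))) →L[ℝ] V :=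
  ∑ i : Fin n, (EuclideanSpace.proj (𝕜 := ℝ) (ι := Fin (n + 1)) i.castSucc).smulRight (v.1 i) +
    (EuclideanSpace.proj (𝕜 := ℝ) (ι := Fin (n + 1)) (Fin.last n)).smulRight v.2

theorem contDiff_assemble : ContDiff ℝ ∞ (assemble : (Fin n → V) × V → ((EuclideanSpace ℝ (Fin (n + 1))) →L[ℝ] V)) := by
  refine ContDiff.add (ContDiff.sum fun i _ => ?_) ?_
  · exact (ContinuousLinearMap.smulRightL ℝ (EuclideanSpace ℝ (Fin (n + 1))) V _).contDiff.comp
      ((contDiff_apply ℝ V i).comp contDiff_fst)
  · exact (ContinuousLinearMap.smulRightL ℝ (EuclideanSpace ℝ (Fin (n + 1))) V _).contDiff.comp contDiff_snd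

theorem assemble_eq (L : (EuclideanSpace ℝ (Fin (n + 1))) →L[ℝ] V) :
    assemble (fun i => L (tang i), L (EuclideanSpace.single (Fin.last n) 1)) = L := by
  refine ContinuousLinearMap.ext fun v => ?_
  have hv : v = ∑ a, v a • EuclideanSpace.single a (1 : ℝ) := by
    ext a; simp [Pi.single_apply]
  conv_rhs => rw [hv, map_sum, Fin.sum_univ_castSucc]
  simp [assemble, tang]

theorem line_unique {f : (EuclideanSpace ℝ (Fin (n + 1))) → V} {s : ℝ} (hf : ContDiffOn ℝ ∞ f (hi n s)) {x : (EuclideanSpace ℝ (Fin (n + 1)))} (hx : x ∈ hi n s)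
    {v : V} {e : (EuclideanSpace ℝ (Fin (n + 1)))} (h : HasLineDerivAt ℝ f v x e) : fderiv ℝ f x e = v :=
  (((hf.differentiableOn (by simp)).differentiableAt ((isOpen_hi s).mem_nhds hx)).hasFDerivAt.hasLineDerivAt e).unique h

/-- Gaining one derivative. -/
theorem raise [FiniteDimensional ℝ V] {s : ℝ} (hs : 0 < s) :
    ∀ (k : ℕ) (f fn : (EuclideanSpace ℝ (Fin (n + 1))) → V), ContDiffOn ℝ ∞ f (hi n s) → TC α s j (k + 1) f → TC α s j k fn →
      (∀ x ∈ hi n s, HasLineDerivAt ℝ f (fn x) x (EuclideanSpace.single (Fin.last n) 1)) →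
      TC α s (j + 1) k f := by
  have hbase : ∀ (f fn : (EuclideanSpace ℝ (Fin (n + 1))) → V), ContDiffOn ℝ ∞ f (hi n s) → TC α s j 1 f → Base α s j fn →
      (∀ x ∈ hi n s, HasLineDerivAt ℝ f (fn x) x (EuclideanSpace.single (Fin.last n) 1)) →
      Base α s (j + 1) f := by
    intro f fn hf hT hfn hd
    refine ⟨?_, hT.1.2⟩
    choose f' hf' hd' using hT.2
    have hD : ContDiffOn ℝ j (fun x => assemble (fun i => f' i x, fn x)) (half n s) :=
      (contDiff_assemble.of_le (by exact_mod_cast le_top)).comp_contDiffOn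
        ((contDiffOn_pi.2 fun i => (hf' i).1).prodMk hfn.1)
    have hin : ∀ x ∈ hi n s, fderiv ℝ f x = assemble (fun i => f' i x, fn x) := fun x hx => by
      refine (assemble_eq _).symm.trans (congrArg assemble (Prod.ext (funext fun i => ?_) ?_))
      · exact line_unique hf hx (hd' i x hx)
      · exact line_unique hf hx (hd x hx)
    have hall : ∀ x ∈ half n s, HasFDerivWithinAt f (assemble (fun i => f' i x, fn x)) (half n s) x := by
      intro x hx
      obtain ⟨s', hs'1, hs'2⟩ := exists_between (mem_ball_zero_iff.1 hx.2)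
      have hsub : closure (hi n s') ⊆ half n s := by
        refine (closure_inter_subset_inter_closure _ _).trans (fun y hy => ⟨?_, ?_⟩)
        · exact closure_minimal (Ho_subset_Hc 0) (isClosed_Hc 0) hy.1
        · exact closedBall_subset_ball hs'2 (closure_ball_subset_closedBall hy.2)
      have hmem : half n s' ⊆ closure (hi n s') := fun y hy => by
        refine mem_closure_of_tendsto (tendsto_push y) ?_
        filter_upwards [tendsto_one_div_add_atTop_nhds_zero_nat.eventually
          (gt_mem_nhds (show (0:ℝ) < s' - ‖y‖ by linarith [mem_ball_zero_iff.1 hy.2]))] with m hm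
        exact push_mem hy.1 (by positivity) (by linarith)
      have h := hasFDerivWithinAt_closure_of_tendsto_fderiv (s := hi n s') (x := x)
        ((hf.differentiableOn (by simp)).mono (hi_mono hs'2.le)) (convex_hi s') (isOpen_hi s')
        (fun y hy => ((hT.1.continuousOn y (hsub hy)).mono ((hi_subset_half s').trans (half_mono hs'2.le))))
        (f' := assemble (fun i => f' i x, fn x)) ?_
      · refine (h.mono hmem).mono_of_mem_nhdsWithin ?_
        exact inter_mem (mem_of_superset self_mem_nhdsWithin inter_subset_left)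
          (nhdsWithin_le_nhds (isOpen_ball.mem_nhds (mem_ball_zero_iff.2 hs'1)))
      · refine ((hD.continuousOn x hx).tendsto.mono_left
          (nhdsWithin_mono x ((hi_subset_half s').trans (half_mono hs'2.le)))).congr' ?_
        filter_upwards [self_mem_nhdsWithin] with y hy
        exact (hin y (hi_mono hs'2.le hy)).symm
    have hu := uniqueDiffOn_halfBall (n := n) hs
    rw [show ((j + 1 : ℕ) : ℕ∞ω) = (j : ℕ∞ω) + 1 by push_cast; rfl]
    exact contDiffOn_succ_of_fderivWithin (fun x hx => (hall x hx).differentiableWithinAt)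
      (fun h => absurd h (by exact_mod_cast WithTop.coe_ne_top))
      (hD.congr fun x hx => (hall x hx).fderivWithin (hu x hx))
  intro k
  induction k with
  | zero => exact fun f fn hf hT hfn hd => hbase f fn hf hT hfn hd
  | succ k ih =>
    intro f fn hf hT hfn hd
    refine ⟨hbase f fn hf ⟨hT.1, fun i => ?_⟩ hfn.base hd, fun i => ?_⟩
    · obtain ⟨f', hf', hd'⟩ := hT.2 i
      exact ⟨f', hf'.base, hd'⟩
    obtain ⟨f', hf', hd'⟩ := hT.2 i
    obtain ⟨fn', hfn', hdn'⟩ := hfn.2 i
    have hop := isOpen_hi (n := n) s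
    have he : ∀ x ∈ hi n s, f' x = fderiv ℝ f x (tang i) := fun x hx => (line_unique hf hx (hd' x hx)).symm
    have hfd : ContDiffOn ℝ ∞ (fderiv ℝ f) (hi n s) := hf.fderiv_of_isOpen hop (by simp)
    have hf's : ContDiffOn ℝ ∞ f' (hi n s) := (hfd.clm_apply contDiffOn_const).congr he
    refine ⟨f', ih f' fn' hf's hf' hfn' fun x hx => ?_, hd'⟩
    have hd2 : DifferentiableAt ℝ (fderiv ℝ f) x :=
      (hfd.differentiableOn (by simp)).differentiableAt (hop.mem_nhds hx)
    have hD2 : ∀ e : (EuclideanSpace ℝ (Fin (n + 1))), HasFDerivAt (fun y => fderiv ℝ f y e)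
        ((ContinuousLinearMap.apply ℝ V e).comp (fderiv ℝ (fderiv ℝ f) x)) x := fun e =>
      (ContinuousLinearMap.apply ℝ V e).hasFDerivAt.comp x hd2.hasFDerivAt
    have hn : fn' x = fderiv ℝ (fderiv ℝ f) x (tang i) (EuclideanSpace.single (Fin.last n) 1) := by
      refine ((hdn' x hx).congr_of_eventuallyEq ?_).unique ((hD2 _).hasLineDerivAt (tang i))
      exact eventually_of_mem (hop.mem_nhds hx) fun y hy => line_unique hf hy (hd y hy)
    rw [hn, ((hf.contDiffAt (hop.mem_nhds hx)).isSymmSndFDerivAt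
      (by simpa using (WithTop.coe_le_coe.2 le_top : ((2 : ℕ∞) : ℕ∞ω) ≤ ∞)) (tang i) (EuclideanSpace.single (Fin.last n) 1))]
    exact ((hD2 (tang i)).hasLineDerivAt _).congr_of_eventuallyEq
      (eventually_of_mem (hop.mem_nhds hx) he)

end Vale.Agent.P098.Reg.High
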