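import Vale.Agent.P098.Reg.High.LinReg
import Vale.Agent.P098.Reg.High.Normal
import Vale.Agent.P098.Reg.High.Iface

/-! A `C^{1,α}` solution of the hodograph equation is `C^8` up to the flat side. -/

noncomputable section

namespace Vale.Agent.P098.Reg.High

open MeasureTheory Set Filter Topology Metric
open scoped ContDiff InnerProductSpace

variable {n : ℕ} {α r : ℝ}

/-- Half the difference quotient of the hodograph flux, as a linear map. -/
def hodoQuot (z : (EuclideanSpace ℝ (Fin (n + 1))) × (EuclideanSpace ℝ (Fin (n + 1)))) : (EuclideanSpace ℝ (Fin (n + 1))) →L[ℝ] (EuclideanSpace ℝ (Fin (n + 1))) :=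
  ∑ i : Fin n, (((z.2 (Fin.last n))⁻¹ • EuclideanSpace.proj (𝕜 := ℝ) (ι := Fin (n + 1)) i.castSucc) -
      (z.1 i.castSucc * (z.1 (Fin.last n) * z.2 (Fin.last n))⁻¹) •
        EuclideanSpace.proj (𝕜 := ℝ) (ι := Fin (n + 1)) (Fin.last n)).smulRight
      (EuclideanSpace.single i.castSucc 1) +
    ((((1 + ∑ j : Fin n, z.1 j.castSucc ^ 2) * (z.2 (Fin.last n) + z.1 (Fin.last n))) *
          (2 * z.1 (Fin.last n) ^ 2 * z.2 (Fin.last n) ^ 2)⁻¹) •
        EuclideanSpace.proj (𝕜 := ℝ) (ι := Fin (n + 1)) (Fin.last n) -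
      ∑ j : Fin n, ((z.2 j.castSucc + z.1 j.castSucc) * (2 * z.2 (Fin.last n) ^ 2)⁻¹) •
        EuclideanSpace.proj (𝕜 := ℝ) (ι := Fin (n + 1)) j.castSucc).smulRight (EuclideanSpace.single (Fin.last n) (1 : ℝ) : EuclideanSpace ℝ (Fin (n + 1)))

/-- Where the quotient is smooth. -/
def hodoDom (n : ℕ) : Set (EuclideanSpace ℝ (Fin (n + 1)) × EuclideanSpace ℝ (Fin (n + 1))) :=
  {z | z.1 (Fin.last n) ≠ 0 ∧ z.2 (Fin.last n) ≠ 0}

theorem isOpen_hodoDom : IsOpen (hodoDom n) :=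
  ((isOpen_ne (x := (0 : ℝ))).preimage ((continuous_last (n := n)).comp continuous_fst)).inter
    ((isOpen_ne (x := (0 : ℝ))).preimage ((continuous_last (n := n)).comp continuous_snd))

theorem contDiffOn_hodoQuot : ContDiffOn ℝ ∞ (hodoQuot : (EuclideanSpace ℝ (Fin (n + 1))) × (EuclideanSpace ℝ (Fin (n + 1))) → ((EuclideanSpace ℝ (Fin (n + 1))) →L[ℝ] (EuclideanSpace ℝ (Fin (n + 1))))) (hodoDom n) := by
  intro z hz
  refine ContDiffAt.contDiffWithinAt ?_
  have hp : ∀ a, ContDiffAt ℝ ∞ (fun z : (EuclideanSpace ℝ (Fin (n + 1))) × (EuclideanSpace ℝ (Fin (n + 1))) => z.1 a) z := fun a =>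
    ((EuclideanSpace.proj (𝕜 := ℝ) (ι := Fin (n + 1)) a).contDiff.comp contDiff_fst).contDiffAt
  have hq : ∀ a, ContDiffAt ℝ ∞ (fun z : (EuclideanSpace ℝ (Fin (n + 1))) × (EuclideanSpace ℝ (Fin (n + 1))) => z.2 a) z := fun a =>
    ((EuclideanSpace.proj (𝕜 := ℝ) (ι := Fin (n + 1)) a).contDiff.comp contDiff_snd).contDiffAt
  have h1 : z.1 (Fin.last n) ≠ 0 := hz.1
  have h2 : z.2 (Fin.last n) ≠ 0 := hz.2
  have hsr : ∀ {l : (EuclideanSpace ℝ (Fin (n + 1))) × (EuclideanSpace ℝ (Fin (n + 1))) → ((EuclideanSpace ℝ (Fin (n + 1))) →L[ℝ] ℝ)} (v : (EuclideanSpace ℝ (Fin (n + 1)))), ContDiffAt ℝ ∞ l z →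
      ContDiffAt ℝ ∞ (fun z => (l z).smulRight v) z := fun {l} v hl =>
    ((ContinuousLinearMap.smulRightL ℝ (EuclideanSpace ℝ (Fin (n + 1))) (EuclideanSpace ℝ (Fin (n + 1)))).flip v).contDiff.contDiffAt.comp z hl
  have hc : ∀ {c : (EuclideanSpace ℝ (Fin (n + 1))) × (EuclideanSpace ℝ (Fin (n + 1))) → ℝ} (L : (EuclideanSpace ℝ (Fin (n + 1))) →L[ℝ] ℝ), ContDiffAt ℝ ∞ c z → ContDiffAt ℝ ∞ (fun z => c z • L) z :=
    fun L h => h.smul contDiffAt_const
  have k1 : ContDiffAt ℝ ∞ (fun z : (EuclideanSpace ℝ (Fin (n + 1))) × (EuclideanSpace ℝ (Fin (n + 1))) => (z.1 (Fin.last n) * z.2 (Fin.last n))⁻¹) z :=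
    ((hp _).mul (hq _)).inv (mul_ne_zero h1 h2)
  have k2 : ContDiffAt ℝ ∞ (fun z : (EuclideanSpace ℝ (Fin (n + 1))) × (EuclideanSpace ℝ (Fin (n + 1))) => (2 * z.1 (Fin.last n) ^ 2 * z.2 (Fin.last n) ^ 2)⁻¹) z :=
    ((contDiffAt_const.mul ((hp _).pow 2)).mul ((hq _).pow 2)).inv
      (mul_ne_zero (mul_ne_zero two_ne_zero (pow_ne_zero 2 h1)) (pow_ne_zero 2 h2))
  have k3 : ContDiffAt ℝ ∞ (fun z : (EuclideanSpace ℝ (Fin (n + 1))) × (EuclideanSpace ℝ (Fin (n + 1))) => (2 * z.2 (Fin.last n) ^ 2)⁻¹) z :=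
    (contDiffAt_const.mul ((hq _).pow 2)).inv (mul_ne_zero two_ne_zero (pow_ne_zero 2 h2))
  have k4 : ContDiffAt ℝ ∞ (fun z : (EuclideanSpace ℝ (Fin (n + 1))) × (EuclideanSpace ℝ (Fin (n + 1))) => 1 + ∑ j : Fin n, z.1 j.castSucc ^ 2) z :=
    contDiffAt_const.add (ContDiffAt.sum fun j _ => (hp _).pow 2)
  exact (ContDiffAt.sum fun i _ => hsr _ ((hc _ ((hq _).inv h2)).sub (hc _ ((hp _).mul k1)))).add
    (hsr _ ((hc _ ((k4.mul ((hq _).add (hp _))).mul k2)).sub
      (ContDiffAt.sum fun j _ => hc _ (((hq _).add (hp _)).mul k3))))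

theorem hodoQuot_spec {p q : (EuclideanSpace ℝ (Fin (n + 1)))} (hp : p (Fin.last n) ≠ 0) (hq : q (Fin.last n) ≠ 0) :
    hodoQuot (p, q) (q - p) = (2 : ℝ)⁻¹ • (hodoFlux q - hodoFlux p) := by
  ext a
  induction a using Fin.lastCases with
  | last =>
    simp [hodoQuot, hodoFlux, (Fin.castSucc_ne_last _).symm]
    rw [show ∑ j : Fin n, (q j.castSucc + p j.castSucc) * ((q (Fin.last n) ^ 2)⁻¹ * 2⁻¹) * (q j.castSucc - p j.castSucc)
        = (∑ j : Fin n, q j.castSucc ^ 2 - ∑ j : Fin n, p j.castSucc ^ 2) * ((q (Fin.last n) ^ 2)⁻¹ * 2⁻¹) from by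
      rw [sub_mul, Finset.sum_mul, Finset.sum_mul, ← Finset.sum_sub_distrib]
      exact Finset.sum_congr rfl fun j _ => by ring]
    field_simp
    ring
  | cast i =>
    simp [hodoQuot, hodoFlux, (Fin.castSucc_ne_last _).symm, Pi.single_apply]
    field_simp
    ring

theorem hodoQuot_base : hodoQuot ((EuclideanSpace.single (Fin.last n) (1 : ℝ) : EuclideanSpace ℝ (Fin (n + 1))), (EuclideanSpace.single (Fin.last n) (1 : ℝ) : EuclideanSpace ℝ (Fin (n + 1)))) = ContinuousLinearMap.id ℝ (EuclideanSpace ℝ (Fin (n + 1))) := by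
  refine ContinuousLinearMap.ext fun v => ?_
  ext a
  induction a using Fin.lastCases with
  | last => simp [hodoQuot, (Fin.castSucc_ne_last _).symm]; ring
  | cast i => simp [hodoQuot, (Fin.castSucc_ne_last _).symm, Pi.single_apply]

/-- The second normal derivative, from the equation. -/
def hodoNormal (z : (EuclideanSpace ℝ (Fin (n + 1))) × (Fin n → (EuclideanSpace ℝ (Fin (n + 1))))) : (EuclideanSpace ℝ (Fin (n + 1))) :=
  ∑ i : Fin n, z.2 i (Fin.last n) • EuclideanSpace.single i.castSucc (1 : ℝ) +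
    ((2 * z.1 (Fin.last n) * ∑ j : Fin n, z.1 j.castSucc * z.2 j (Fin.last n) -
        z.1 (Fin.last n) ^ 2 * ∑ j : Fin n, z.2 j j.castSucc) *
      (1 + ∑ j : Fin n, z.1 j.castSucc ^ 2)⁻¹) • (EuclideanSpace.single (Fin.last n) (1 : ℝ) : EuclideanSpace ℝ (Fin (n + 1)))

theorem contDiff_hodoNormal : ContDiff ℝ ∞ (hodoNormal : (EuclideanSpace ℝ (Fin (n + 1))) × (Fin n → (EuclideanSpace ℝ (Fin (n + 1)))) → (EuclideanSpace ℝ (Fin (n + 1)))) := by
  have hp : ∀ a, ContDiff ℝ ∞ (fun z : (EuclideanSpace ℝ (Fin (n + 1))) × (Fin n → (EuclideanSpace ℝ (Fin (n + 1)))) => z.1 a) := fun a =>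
    (EuclideanSpace.proj (𝕜 := ℝ) (ι := Fin (n + 1)) a).contDiff.comp contDiff_fst
  have hP : ∀ i a, ContDiff ℝ ∞ (fun z : (EuclideanSpace ℝ (Fin (n + 1))) × (Fin n → (EuclideanSpace ℝ (Fin (n + 1)))) => z.2 i a) := fun i a =>
    (EuclideanSpace.proj (𝕜 := ℝ) (ι := Fin (n + 1)) a).contDiff.comp ((contDiff_apply ℝ (EuclideanSpace ℝ (Fin (n + 1))) i).comp contDiff_snd)
  have hcoef : ∀ {c : (EuclideanSpace ℝ (Fin (n + 1))) × (Fin n → (EuclideanSpace ℝ (Fin (n + 1)))) → ℝ} (v : (EuclideanSpace ℝ (Fin (n + 1)))), ContDiff ℝ ∞ c → ContDiff ℝ ∞ (fun z => c z • v) :=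
    fun v h => h.smul contDiff_const
  have hne : ∀ z : (EuclideanSpace ℝ (Fin (n + 1))) × (Fin n → (EuclideanSpace ℝ (Fin (n + 1)))), 1 + ∑ j : Fin n, z.1 j.castSucc ^ 2 ≠ 0 := fun z => by
    have : (0 : ℝ) ≤ ∑ j : Fin n, z.1 j.castSucc ^ 2 := Finset.sum_nonneg fun j _ => sq_nonneg _
    linarith
  have k : ContDiff ℝ ∞ (fun z : (EuclideanSpace ℝ (Fin (n + 1))) × (Fin n → (EuclideanSpace ℝ (Fin (n + 1)))) => (1 + ∑ j : Fin n, z.1 j.castSucc ^ 2)⁻¹) :=
    (show ContDiff ℝ ∞ (fun z : (EuclideanSpace ℝ (Fin (n + 1))) × (Fin n → (EuclideanSpace ℝ (Fin (n + 1)))) => 1 + ∑ j : Fin n, z.1 j.castSucc ^ 2) from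
      contDiff_const.add (ContDiff.sum fun j _ => (hp _).pow 2)).inv hne
  exact (ContDiff.sum fun i _ => hcoef _ (hP i _)).add (hcoef _ ((((contDiff_const.mul (hp _)).mul
    (ContDiff.sum fun j _ => (hp _).mul (hP j _))).sub (((hp _).pow 2).mul (ContDiff.sum fun j _ => hP j _))).mul k))

/-- The normalised situation on a small half ball. -/
structure Start (α δ M ρ ε : ℝ) (g : (EuclideanSpace ℝ (Fin (n + 1))) → ℝ) (G : (EuclideanSpace ℝ (Fin (n + 1))) → (EuclideanSpace ℝ (Fin (n + 1)))) : Prop where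
  rho_pos : 0 < ρ
  rho_le : ρ ≤ 1
  eps_le : ε ≤ 1 / 2
  jet : Jet1 α M (Hc n 0 ∩ closedBall 0 ρ) g G
  near : ∀ x ∈ Hc n 0 ∩ closedBall (0 : (EuclideanSpace ℝ (Fin (n + 1)))) ρ, dist (G x) (EuclideanSpace.single (Fin.last n) (1 : ℝ) : EuclideanSpace ℝ (Fin (n + 1))) ≤ ε
  quot : ∀ p ∈ closedBall ((EuclideanSpace.single (Fin.last n) (1 : ℝ) : EuclideanSpace ℝ (Fin (n + 1))), (EuclideanSpace.single (Fin.last n) (1 : ℝ) : EuclideanSpace ℝ (Fin (n + 1)))) ε, ‖hodoQuot p - ContinuousLinearMap.id ℝ (EuclideanSpace ℝ (Fin (n + 1)))‖ ≤ δ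
  smooth : ContDiffOn ℝ ∞ g (hi n ρ)
  eq : ∀ x ∈ hi n ρ, ∑ a, pd a (fun y => hodoFlux (G y) a) x = 0
  weak : ∀ φ : (EuclideanSpace ℝ (Fin (n + 1))) → ℝ, ContDiff ℝ ∞ φ → HasCompactSupport φ → tsupport φ ⊆ ball 0 ρ →
    ∫ x in Ho n 0, fderiv ℝ φ x (hodoFlux (G x)) = 0

variable {δ M ρ ε : ℝ} {g : EuclideanSpace ℝ (Fin (n + 1)) → ℝ}
  {G : EuclideanSpace ℝ (Fin (n + 1)) → EuclideanSpace ℝ (Fin (n + 1))}

theorem last_ne {q : (EuclideanSpace ℝ (Fin (n + 1)))} (hε : ε ≤ 1 / 2) (hq : dist q (EuclideanSpace.single (Fin.last n) (1 : ℝ) : EuclideanSpace ℝ (Fin (n + 1))) ≤ ε) : q (Fin.last n) ≠ 0 := fun h0 => by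
  have h := (PiLp.norm_apply_le (q - (EuclideanSpace.single (Fin.last n) (1 : ℝ) : EuclideanSpace ℝ (Fin (n + 1)))) (Fin.last n)).trans (dist_eq_norm q (EuclideanSpace.single (Fin.last n) (1 : ℝ) : EuclideanSpace ℝ (Fin (n + 1))) ▸ hq)
  norm_num [h0] at h
  linarith

theorem closedBall_dom (hε : ε ≤ 1 / 2) : closedBall ((EuclideanSpace.single (Fin.last n) (1 : ℝ) : EuclideanSpace ℝ (Fin (n + 1))), (EuclideanSpace.single (Fin.last n) (1 : ℝ) : EuclideanSpace ℝ (Fin (n + 1)))) ε ⊆ hodoDom n := fun p hp => by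
  rw [mem_closedBall, Prod.dist_eq, max_le_iff] at hp
  exact ⟨last_ne hε hp.1, last_ne hε hp.2⟩

theorem Start.memK (S : Start α δ M ρ ε g G) {x y : (EuclideanSpace ℝ (Fin (n + 1)))} (hx : x ∈ Hc n 0 ∩ closedBall (0 : (EuclideanSpace ℝ (Fin (n + 1)))) ρ)
    (hy : y ∈ Hc n 0 ∩ closedBall (0 : (EuclideanSpace ℝ (Fin (n + 1)))) ρ) : (G x, G y) ∈ closedBall ((EuclideanSpace.single (Fin.last n) (1 : ℝ) : EuclideanSpace ℝ (Fin (n + 1))), (EuclideanSpace.single (Fin.last n) (1 : ℝ) : EuclideanSpace ℝ (Fin (n + 1)))) ε := by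
  rw [mem_closedBall, Prod.dist_eq]; exact max_le (S.near x hx) (S.near y hy)

theorem hi_subset_cball (s : ℝ) : hi n s ⊆ Hc n 0 ∩ closedBall (0 : (EuclideanSpace ℝ (Fin (n + 1)))) s :=
  fun _ hx => ⟨Ho_subset_Hc 0 hx.1, ball_subset_closedBall hx.2⟩

theorem Start.grad (hα : 0 < α) (S : Start α δ M ρ ε g G) {x : (EuclideanSpace ℝ (Fin (n + 1)))} (hx : x ∈ hi n ρ) (a : Fin (n + 1)) :
    G x a = pd a g x := by
  have h := ((S.jet.hasFDerivWithinAt hα (hi_subset_cball ρ hx)).hasFDerivAt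
    (mem_of_superset ((isOpen_hi ρ).mem_nhds hx) (hi_subset_cball ρ))).fderiv
  rw [pd, h, innerSL_apply_apply, EuclideanSpace.inner_single_right]; simp

theorem Start.smoothG (hα : 0 < α) (S : Start α δ M ρ ε g G) : ContDiffOn ℝ ∞ G (hi n ρ) :=
  (contDiffOn_piLp 2).2 fun a =>
    ((S.smooth.fderiv_of_isOpen (m := ∞) (isOpen_hi ρ) (by simp)).clm_apply contDiffOn_const).congr
      fun _ hx => S.grad hα hx a

theorem contDiffAt_hodoFlux {p : EuclideanSpace ℝ (Fin (n + 1))} (hp : p (Fin.last n) ≠ 0) :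
    ContDiffAt ℝ ∞ (hodoFlux : (EuclideanSpace ℝ (Fin (n + 1))) → (EuclideanSpace ℝ (Fin (n + 1)))) p := by
  have hc : ∀ a, ContDiffAt ℝ ∞ (fun q : (EuclideanSpace ℝ (Fin (n + 1))) => q a) p := fun a =>
    (EuclideanSpace.proj (𝕜 := ℝ) (ι := Fin (n + 1)) a).contDiff.contDiffAt
  refine (contDiffAt_piLp 2).2 fun a => ?_
  by_cases ha : a = Fin.last n
  · simp only [hodoFlux, ha, if_true]
    have h1 : ContDiffAt ℝ ∞ (fun q : (EuclideanSpace ℝ (Fin (n + 1))) => 1 + ∑ j : Fin n, q j.castSucc ^ 2) p :=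
      contDiffAt_const.add (ContDiffAt.sum fun j _ => (hc _).pow 2)
    have h2 : ContDiffAt ℝ ∞ (fun q : (EuclideanSpace ℝ (Fin (n + 1))) => (q (Fin.last n) ^ 2)⁻¹) p :=
      ((hc (Fin.last n)).pow 2).inv (pow_ne_zero 2 hp)
    simp only [div_eq_mul_inv]
    exact contDiffAt_const.sub (h1.mul h2)
  · simp only [hodoFlux, ha, if_false]
    simp only [div_eq_mul_inv]
    exact (contDiffAt_const.mul (hc a)).mul ((hc (Fin.last n)).inv hp)

theorem Start.contFlux (hα : 0 < α) (S : Start α δ M ρ ε g G) :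
    ContinuousOn (fun x => hodoFlux (G x)) (Hc n 0 ∩ closedBall (0 : (EuclideanSpace ℝ (Fin (n + 1)))) ρ) := fun x hx =>
  (contDiffAt_hodoFlux (last_ne S.eps_le (S.near x hx))).continuousAt.comp_continuousWithinAt
    ((S.jet.continuousOn hα) x hx)

theorem integrable_test {φ : (EuclideanSpace ℝ (Fin (n + 1))) → ℝ} {Φ : (EuclideanSpace ℝ (Fin (n + 1))) → (EuclideanSpace ℝ (Fin (n + 1)))} {s : ℝ} (hφ : ContDiff ℝ ∞ φ) (hφc : HasCompactSupport φ)
    (hφs : tsupport φ ⊆ ball 0 s) (hΦ : ContinuousOn Φ (half n s)) :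
    IntegrableOn (fun x => fderiv ℝ φ x (Φ x)) (Ho n 0) := by
  refine integrableOn_Ho (fun x hx => ?_) hφc fun x _ hxK => by simp [fderiv_test_zero hxK]
  by_cases hxs : x ∈ tsupport φ
  · exact ((hφ.continuous_fderiv (by simp)).continuousWithinAt).clm_apply
      ((hΦ x ⟨hx, hφs hxs⟩).mono_of_mem_nhdsWithin (inter_mem self_mem_nhdsWithin
        (nhdsWithin_le_nhds (isOpen_ball.mem_nhds (hφs hxs)))))
  · refine ((continuousAt_const (y := (0 : ℝ))).congr ?_).continuousWithinAt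
    filter_upwards [(isClosed_tsupport φ).isOpen_compl.mem_nhds hxs] with y hy
    simp [fderiv_test_zero hy]

/-- The quotient of the nonlinear equation is a linear equation. -/
theorem Start.quot_flux (hα : 0 < α) (S : Start α δ M ρ ε g G) (i : Fin n) {h : ℝ} (hhr : |h| ≤ ρ / 4)
    {φ : (EuclideanSpace ℝ (Fin (n + 1))) → ℝ} (hφ : ContDiff ℝ ∞ φ) (hφc : HasCompactSupport φ) (hφs : tsupport φ ⊆ ball 0 (ρ / 4)) :
    ∫ x in Ho n 0, fderiv ℝ φ x
      (hodoQuot (G x, G (x + h • tang i)) (h⁻¹ • (G (x + h • tang i) - G x)) + 0) = 0 := by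
  have hρ := S.rho_pos
  have hs4 : half n (ρ / 4) ⊆ Hc n 0 ∩ closedBall (0 : (EuclideanSpace ℝ (Fin (n + 1)))) ρ :=
    inter_subset_inter_right _ (ball_subset_closedBall.trans (closedBall_subset_closedBall (by linarith)))
  have hsh : ∀ x ∈ half n (ρ / 4), x + h • tang i ∈ Hc n 0 ∩ closedBall (0 : (EuclideanSpace ℝ (Fin (n + 1)))) ρ := fun x hx => by
    have := (add_tang_mem i h (s := ρ) (by linarith [mem_ball_zero_iff.1 hx.2])).1 hx.1
    exact ⟨this.1, ball_subset_closedBall this.2⟩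
  have h1 := flux_shift (r := ρ) (Φ := fun x => hodoFlux (G x)) S.weak i (t := h) (s := ρ / 4) (by linarith) hφ hφc hφs
  have h2 := S.weak φ hφ hφc (hφs.trans (ball_subset_ball (by linarith)))
  have hi1 := integrable_test (Φ := fun x => hodoFlux (G (x + h • tang i))) hφ hφc hφs
    ((S.contFlux hα).comp (Continuous.continuousOn (f := fun x : (EuclideanSpace ℝ (Fin (n + 1))) => x + h • tang i) (by fun_prop)) hsh)
  have hi2 := integrable_test (Φ := fun x => hodoFlux (G x)) hφ hφc hφs ((S.contFlux hα).mono hs4)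
  calc _ = ∫ x in Ho n 0, h⁻¹ * 2⁻¹ * (fderiv ℝ φ x (hodoFlux (G (x + h • tang i)))
          - fderiv ℝ φ x (hodoFlux (G x))) := setIntegral_congr_fun (isOpen_Ho 0).measurableSet fun x hx => by
        by_cases hxs : x ∈ tsupport φ
        · have hx4 : x ∈ half n (ρ / 4) := ⟨Ho_subset_Hc 0 hx, hφs hxs⟩
          have hd := closedBall_dom S.eps_le (S.memK (hs4 hx4) (hsh x hx4))
          simp only [map_smul, hodoQuot_spec hd.1 hd.2, add_zero, map_sub, smul_eq_mul]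
          ring
        · simp [fderiv_test_zero hxs]
    _ = 0 := by rw [integral_const_mul, integral_sub hi1 hi2, h1, h2]; simp

/-- The first tangential derivatives solve the linearised equation. -/
theorem Start.first (hα : 0 < α) (hE : Est n α δ) (hδ : 0 ≤ δ) (S : Start α δ M ρ ε g G) (i : Fin n) :
    ∃ W' : (EuclideanSpace ℝ (Fin (n + 1))) → (EuclideanSpace ℝ (Fin (n + 1))), Sol α δ (ρ / 32) (fun x => hodoQuot (G x, G x)) (fun _ => 0)
      (fun x => ⟪G x, tang i⟫_ℝ) W' ∧ ∀ x ∈ hi n (ρ / 32), HasLineDerivAt ℝ G (W' x) x (tang i) := by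
  have hρ := S.rho_pos
  obtain ⟨L, hL0, hL⟩ := exists_lip_bound isOpen_hodoDom (isCompact_closedBall ((EuclideanSpace.single (Fin.last n) (1 : ℝ) : EuclideanSpace ℝ (Fin (n + 1))), (EuclideanSpace.single (Fin.last n) (1 : ℝ) : EuclideanSpace ℝ (Fin (n + 1)))) ε) (closedBall_dom S.eps_le)
    contDiffOn_hodoQuot
  have hhol : ∀ {x y x' y' : (EuclideanSpace ℝ (Fin (n + 1)))}, x ∈ Hc n 0 ∩ closedBall (0 : (EuclideanSpace ℝ (Fin (n + 1)))) ρ → x' ∈ Hc n 0 ∩ closedBall (0 : (EuclideanSpace ℝ (Fin (n + 1)))) ρ →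
      y ∈ Hc n 0 ∩ closedBall (0 : (EuclideanSpace ℝ (Fin (n + 1)))) ρ → y' ∈ Hc n 0 ∩ closedBall (0 : (EuclideanSpace ℝ (Fin (n + 1)))) ρ → dist x' y' = dist x y →
      ‖hodoQuot (G x, G x') - hodoQuot (G y, G y')‖ ≤ L * |M| * dist x y ^ α := fun {x y x' y'} hx hx' hy hy' hd => by
    refine ((hL _ (S.memK hx hx')).2 _ (S.memK hy hy')).trans ?_
    rw [mul_assoc]
    refine mul_le_mul_of_nonneg_left ?_ hL0
    refine max_le ((S.jet.hol x hx y hy).trans ?_) ((S.jet.hol x' hx' y' hy').trans ?_)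
    · exact mul_le_mul_of_nonneg_right (le_abs_self M) (by positivity)
    · rw [hd]; exact mul_le_mul_of_nonneg_right (le_abs_self M) (by positivity)
  have hGb : ∀ x ∈ Hc n 0 ∩ closedBall (0 : (EuclideanSpace ℝ (Fin (n + 1)))) ρ, ‖G x‖ ≤ 2 := fun x hx => by
    have h1 := S.near x hx
    have h2 : ‖(EuclideanSpace.single (Fin.last n) (1 : ℝ) : EuclideanSpace ℝ (Fin (n + 1)))‖ = 1 := by simp
    have h3 := S.eps_le
    rw [dist_eq_norm] at h1
    linarith [norm_le_norm_add_norm_sub' (G x) (EuclideanSpace.single (Fin.last n) (1 : ℝ) : EuclideanSpace ℝ (Fin (n + 1)))]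
  have h32 : Hc n 0 ∩ closedBall (0 : (EuclideanSpace ℝ (Fin (n + 1)))) (ρ / 32) ⊆ Hc n 0 ∩ closedBall 0 ρ :=
    inter_subset_inter_right _ (closedBall_subset_closedBall (by linarith))
  refine quot_limit hα hE hδ hρ S.rho_le (MA := L * |M|) (MF := 0) (B := 2) (by positivity) i S.jet
    (S.smoothG hα) (Ah := fun h x => hodoQuot (G x, G (x + h • tang i))) (Fh := fun _ _ => 0)
    (fun h hh hhr => ?_) (fun x hx => ?_) (fun x _ => tendsto_const_nhds) (MA' := L * |M|) (by positivity)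
    (fun x hx => S.quot _ (S.memK (h32 hx) (h32 hx))) (fun x hx y hy => hhol (h32 hx) (h32 hx) (h32 hy) (h32 hy) rfl)
    (MF' := 0) (fun x _ => by simp) (fun x _ y _ => by simp)
  · have hb4 : Hc n 0 ∩ closedBall (0 : (EuclideanSpace ℝ (Fin (n + 1)))) (ρ / 4) ⊆ Hc n 0 ∩ closedBall 0 ρ :=
      inter_subset_inter_right _ (closedBall_subset_closedBall (by linarith))
    have hsh : ∀ x ∈ Hc n 0 ∩ closedBall (0 : (EuclideanSpace ℝ (Fin (n + 1)))) (ρ / 4), x + h • tang i ∈ Hc n 0 ∩ closedBall 0 ρ := fun x hx => by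
      have := (add_tang_mem i h (s := ρ) (by linarith [mem_closedBall_zero_iff.1 hx.2])).1 hx.1
      exact ⟨this.1, ball_subset_closedBall this.2⟩
    exact ⟨2 * |M| / |h|, by positivity, by linarith [S.rho_le], quot_jet S.jet (by linarith),
      fun x hx => S.quot _ (S.memK (hb4 hx) (hsh x hx)),
      fun x hx y hy => hhol (hb4 hx) (hsh x hx) (hb4 hy) (hsh y hy) (dist_add_right _ _ _),
      fun x _ => by simp, fun x _ y _ => by simp,
      fun x hx => quot_sup hα S.jet hGb hh (hb4 hx) (hsh x hx), fun φ hφ hφc hφs => S.quot_flux hα i hhr hφ hφc hφs⟩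
  · have hxr : x ∈ hi n ρ := hi_mono (by linarith) hx
    have ht : Tendsto (fun h : ℝ => x + h • tang i) (𝓝[≠] 0) (𝓝 x) := by
      have : Continuous fun h : ℝ => x + h • tang i := by fun_prop
      simpa using (this.tendsto 0).mono_left (nhdsWithin_le_nhds (s := {0}ᶜ))
    have hGx : ContinuousAt G x := ((S.smoothG hα).continuousOn).continuousAt ((isOpen_hi ρ).mem_nhds hxr)
    exact (((contDiffOn_hodoQuot (n := n)).continuousOn.continuousAt (isOpen_hodoDom.mem_nhds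
      (closedBall_dom S.eps_le (S.memK (hi_subset_cball ρ hxr) (hi_subset_cball ρ hxr))))).tendsto).comp
        (tendsto_const_nhds.prodMk_nhds (hGx.tendsto.comp ht))

/-- All tangential derivatives are Hölder up to the flat side. -/
theorem Start.tangential (hα : 0 < α) (hE : Est n α δ) (hδ : 0 ≤ δ) (S : Start α δ M ρ ε g G) (k : ℕ) :
    ∀ᶠ s in 𝓝[>] 0, TC α s 0 k G := by
  have hρ := S.rho_pos
  choose W hW hWd using fun i => S.first hα hE hδ i
  induction k with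
  | zero =>
    filter_upwards [eventually_small hρ] with s hs
    exact (base_of_jet hα hρ S.jet).mono hs.2
  | succ k ih =>
    obtain ⟨s0, hG, hs0, hs0ρ⟩ := (ih.and (eventually_small (show (0:ℝ) < ρ / 32 by positivity))).exists
    have hsub : half n s0 ⊆ Hc n 0 ∩ closedBall (0 : (EuclideanSpace ℝ (Fin (n + 1)))) ρ :=
      inter_subset_inter_right _ (ball_subset_closedBall.trans (closedBall_subset_closedBall (by linarith)))
    have hA : TC α s0 0 k (fun x => hodoQuot (G x, G x)) :=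
      (hG.prod hG).comp isOpen_hodoDom (isCompact_closedBall ((EuclideanSpace.single (Fin.last n) (1 : ℝ) : EuclideanSpace ℝ (Fin (n + 1))), (EuclideanSpace.single (Fin.last n) (1 : ℝ) : EuclideanSpace ℝ (Fin (n + 1)))) ε) (closedBall_dom S.eps_le)
        contDiffOn_hodoQuot fun x hx => S.memK (hsub hx) (hsub hx)
    have hF : TC α s0 0 k (fun _ : (EuclideanSpace ℝ (Fin (n + 1))) => (0 : (EuclideanSpace ℝ (Fin (n + 1))))) := hG.comp' (N := fun _ => (0 : (EuclideanSpace ℝ (Fin (n + 1))))) contDiff_const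
    have hk : ∀ i, ∀ᶠ s in 𝓝[>] 0, TC α s 0 k (W i) := fun i =>
      lin_reg hα hE hδ k s0 _ _ _ _ ((hW i).mono hs0 hs0ρ) hA hF
    filter_upwards [eventually_all.2 hk, eventually_small hs0] with s hs hs'
    exact ⟨(base_of_jet hα hρ S.jet).mono (by linarith [hs'.2]),
      fun i => ⟨W i, hs i, fun x hx => hWd i x (hi_mono (by linarith [hs'.2]) hx)⟩⟩

theorem flux_line_tang {c : ℝ → EuclideanSpace ℝ (Fin (n + 1))} {v : EuclideanSpace ℝ (Fin (n + 1))}
    (hc : ∀ a, HasDerivAt (fun t => c t a) (v a) 0) (hne : c 0 (Fin.last n) ≠ 0) (i : Fin n) :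
    HasDerivAt (fun t => hodoFlux (c t) i.castSucc)
      (2 * (v i.castSucc * c 0 (Fin.last n) - c 0 i.castSucc * v (Fin.last n)) / c 0 (Fin.last n) ^ 2) 0 := by
  simp only [hodoFlux, Fin.castSucc_ne_last, if_false]
  exact (((hc i.castSucc).const_mul 2).fun_div (hc (Fin.last n)) hne).congr_deriv (by ring)

theorem flux_line_last {c : ℝ → EuclideanSpace ℝ (Fin (n + 1))} {v : EuclideanSpace ℝ (Fin (n + 1))}
    (hc : ∀ a, HasDerivAt (fun t => c t a) (v a) 0) (hne : c 0 (Fin.last n) ≠ 0) :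
    HasDerivAt (fun t => hodoFlux (c t) (Fin.last n))
      (-((2 * ∑ j : Fin n, c 0 j.castSucc * v j.castSucc) * c 0 (Fin.last n) ^ 2 -
          (1 + ∑ j : Fin n, c 0 j.castSucc ^ 2) * (2 * c 0 (Fin.last n) * v (Fin.last n)))
          / (c 0 (Fin.last n) ^ 2) ^ 2) 0 := by
  simp only [hodoFlux, if_true]
  have h1 : HasDerivAt (fun t => 1 + ∑ j : Fin n, c t j.castSucc ^ 2) (2 * ∑ j : Fin n, c 0 j.castSucc * v j.castSucc) 0 :=
    ((hasDerivAt_const (0 : ℝ) (1 : ℝ)).add (HasDerivAt.fun_sum fun j _ => (hc j.castSucc).fun_pow 2)).congr_deriv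
      (by simp [Finset.mul_sum, mul_assoc])
  have h2 : HasDerivAt (fun t => c t (Fin.last n) ^ 2) (2 * c 0 (Fin.last n) * v (Fin.last n)) 0 :=
    ((hc (Fin.last n)).fun_pow 2).congr_deriv (by simp)
  exact ((hasDerivAt_const (0 : ℝ) (1 : ℝ)).fun_sub (h1.fun_div h2 (pow_ne_zero 2 hne))).congr_deriv (by ring)

theorem Start.flux_diff (hα : 0 < α) (S : Start α δ M ρ ε g G) {x : EuclideanSpace ℝ (Fin (n + 1))}
    (hx : x ∈ hi n ρ) (a : Fin (n + 1)) : DifferentiableAt ℝ (fun y => hodoFlux (G y) a) x :=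
  (EuclideanSpace.proj (𝕜 := ℝ) (ι := Fin (n + 1)) a).differentiableAt.comp x
    (((contDiffAt_hodoFlux (last_ne S.eps_le (S.near x (hi_subset_cball ρ hx)))).differentiableAt (by simp)).comp x
      (((S.smoothG hα).differentiableOn (by simp)).differentiableAt ((isOpen_hi ρ).mem_nhds hx)))

/-- The second normal derivative is given by the equation. -/
theorem Start.normal (hα : 0 < α) (S : Start α δ M ρ ε g G) {x : (EuclideanSpace ℝ (Fin (n + 1)))} (hx : x ∈ hi n ρ) :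
    hodoNormal (G x, fun i => fderiv ℝ G x (tang i)) = fderiv ℝ G x (EuclideanSpace.single (Fin.last n) (1 : ℝ) : EuclideanSpace ℝ (Fin (n + 1))) := by
  have hGd : DifferentiableAt ℝ G x :=
    ((S.smoothG hα).differentiableOn (by simp)).differentiableAt ((isOpen_hi ρ).mem_nhds hx)
  have hGad : ∀ a, DifferentiableAt ℝ (fun y => G y a) x := fun a =>
    (EuclideanSpace.proj (𝕜 := ℝ) (ι := Fin (n + 1)) a).differentiableAt.comp x hGd
  obtain ⟨H, eH⟩ : ∃ H : Fin (n + 1) → Fin (n + 1) → ℝ, H = fun a b => pd a (fun y => G y b) x := ⟨_, rfl⟩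
  have hsym : ∀ a b, H a b = H b a := fun a b => by
    have e : ∀ c, (fun y => G y c) =ᶠ[𝓝 x] pd c g := fun c =>
      eventually_of_mem ((isOpen_hi ρ).mem_nhds hx) fun y hy => S.grad hα hy c
    rw [eH]
    simp only [pd_congr (e b), pd_congr (e a)]
    exact pd_comm (isOpen_hi ρ) S.smooth hx (by simpa using (WithTop.coe_le_coe.2 le_top : ((2 : ℕ∞) : ℕ∞ω) ≤ ∞))
  have hcol : ∀ a b, fderiv ℝ G x (EuclideanSpace.single a 1) b = H a b := fun a b => by
    have h := ((EuclideanSpace.proj (𝕜 := ℝ) (ι := Fin (n + 1)) b).hasFDerivAt.comp x hGd.hasFDerivAt).fderiv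
    rw [eH]
    exact (DFunLike.congr_fun h _).symm
  have hne : G x (Fin.last n) ≠ 0 := last_ne S.eps_le (S.near x (hi_subset_cball ρ hx))
  have hline : ∀ a b, HasDerivAt (fun t : ℝ => G (x + t • EuclideanSpace.single a 1) b) (H a b) 0 := fun a b => by
    have h := ((EuclideanSpace.proj (𝕜 := ℝ) (ι := Fin (n + 1)) b).hasFDerivAt.comp x
      hGd.hasFDerivAt).hasLineDerivAt (EuclideanSpace.single a (1 : ℝ))
    rw [← hcol]
    exact h
  have hpd : ∀ (a : Fin (n + 1)) {F : (EuclideanSpace ℝ (Fin (n + 1))) → ℝ} {v : ℝ}, DifferentiableAt ℝ F x →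
      HasDerivAt (fun t : ℝ => F (x + t • EuclideanSpace.single a 1)) v 0 → pd a F x = v := fun a F v hF h =>
    (hF.hasFDerivAt.hasLineDerivAt _).unique h
  have hc0 : ∀ a : Fin (n + 1), G (x + (0 : ℝ) • EuclideanSpace.single a (1 : ℝ)) = G x := fun a => by simp
  have hti : ∀ i : Fin n, pd i.castSucc (fun y => hodoFlux (G y) i.castSucc) x
      = 2 * (H i.castSucc i.castSucc * G x (Fin.last n) - G x i.castSucc * H i.castSucc (Fin.last n))
          / G x (Fin.last n) ^ 2 := fun i => by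
    have h := flux_line_tang (c := fun t => G (x + t • EuclideanSpace.single i.castSucc (1 : ℝ)))
      (v := WithLp.toLp 2 (H i.castSucc)) (hline i.castSucc) (by rw [hc0]; exact hne) i
    simp only [hc0] at h
    exact hpd _ (S.flux_diff hα hx _) h
  have htn : pd (Fin.last n) (fun y => hodoFlux (G y) (Fin.last n)) x
      = -((2 * ∑ j : Fin n, G x j.castSucc * H (Fin.last n) j.castSucc) * G x (Fin.last n) ^ 2 -
          (1 + ∑ j : Fin n, G x j.castSucc ^ 2) * (2 * G x (Fin.last n) * H (Fin.last n) (Fin.last n)))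
          / (G x (Fin.last n) ^ 2) ^ 2 := by
    have h := flux_line_last (c := fun t => G (x + t • EuclideanSpace.single (Fin.last n) (1 : ℝ)))
      (v := WithLp.toLp 2 (H (Fin.last n))) (hline (Fin.last n)) (by rw [hc0]; exact hne)
    simp only [hc0] at h
    exact hpd _ (S.flux_diff hα hx _) h
  have hnn : H (Fin.last n) (Fin.last n)
      = (2 * G x (Fin.last n) * ∑ j : Fin n, G x j.castSucc * H j.castSucc (Fin.last n) -
          G x (Fin.last n) ^ 2 * ∑ j : Fin n, H j.castSucc j.castSucc) *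
        (1 + ∑ j : Fin n, G x j.castSucc ^ 2)⁻¹ := by
    have h0 := S.eq x hx
    rw [Fin.sum_univ_castSucc, htn, Finset.sum_congr rfl (fun i _ => hti i)] at h0
    have e1 : ∑ i : Fin n, 2 * (H i.castSucc i.castSucc * G x (Fin.last n) - G x i.castSucc * H i.castSucc (Fin.last n))
          / G x (Fin.last n) ^ 2
        = 2 * ((∑ j : Fin n, H j.castSucc j.castSucc) * G x (Fin.last n) -
            ∑ j : Fin n, G x j.castSucc * H j.castSucc (Fin.last n)) / G x (Fin.last n) ^ 2 := by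
      rw [← Finset.sum_div, ← Finset.mul_sum, Finset.sum_mul, Finset.sum_sub_distrib]
    have e2 : ∑ j : Fin n, G x j.castSucc * H (Fin.last n) j.castSucc
        = ∑ j : Fin n, G x j.castSucc * H j.castSucc (Fin.last n) :=
      Finset.sum_congr rfl fun j _ => by rw [hsym]
    rw [e1, e2] at h0
    have hs0' : (0 : ℝ) ≤ ∑ j : Fin n, G x j.castSucc ^ 2 := Finset.sum_nonneg fun j _ => sq_nonneg _
    rw [eq_mul_inv_iff_mul_eq₀ (by linarith)]
    field_simp at h0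
    linarith
  ext a
  induction a using Fin.lastCases with
  | last => simp [hodoNormal, hcol, tang, hnn]
  | cast i => simp [hodoNormal, hcol, tang, hsym (Fin.last n), Pi.single_apply]

/-- All orders in the normal variable. -/
theorem Start.allOrders (hα : 0 < α) (hE : Est n α δ) (hδ : 0 ≤ δ) (S : Start α δ M ρ ε g G) :
    ∀ j k, ∀ᶠ s in 𝓝[>] 0, TC α s j k G := by
  intro j
  induction j with
  | zero => exact S.tangential hα hE hδ
  | succ j ih =>
    intro k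
    filter_upwards [ih (k + 1), eventually_small S.rho_pos] with s hT hs
    choose f' hf' hd' using hT.2
    have hGs : ContDiffOn ℝ ∞ G (hi n s) := (S.smoothG hα).mono (hi_mono hs.2)
    refine raise hs.1 k G (fun x => hodoNormal (G x, fun i => f' i x)) hGs hT
      ((hT.le_succ.prod (TC.pi hf')).comp' contDiff_hodoNormal) fun x hx => ?_
    rw [show (fun i => f' i x) = fun i => fderiv ℝ G x (tang i) from funext fun i =>
      (line_unique hGs hx (hd' i x hx)).symm, S.normal hα (hi_mono hs.2 hx)]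
    exact ((hGs.differentiableOn (by simp)).differentiableAt ((isOpen_hi s).mem_nhds hx)).hasFDerivAt.hasLineDerivAt _

theorem boot_aux : Boot n := by
  intro α M r g G hα hα1 hr hJ hG0 hg heq hweak
  obtain ⟨δ, hδ, -, hE⟩ := estimate n hα hα1
  obtain ⟨ε, hε, hεq, hε2⟩ : ∃ ε > 0, (∀ p ∈ closedBall ((EuclideanSpace.single (Fin.last n) (1 : ℝ) : EuclideanSpace ℝ (Fin (n + 1))), (EuclideanSpace.single (Fin.last n) (1 : ℝ) : EuclideanSpace ℝ (Fin (n + 1)))) ε,
      ‖hodoQuot p - ContinuousLinearMap.id ℝ (EuclideanSpace ℝ (Fin (n + 1)))‖ ≤ δ) ∧ ε ≤ 1 / 2 := by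
    have he : ((EuclideanSpace.single (Fin.last n) (1 : ℝ) : EuclideanSpace ℝ (Fin (n + 1))), (EuclideanSpace.single (Fin.last n) (1 : ℝ) : EuclideanSpace ℝ (Fin (n + 1)))) ∈ hodoDom n := ⟨by simp, by simp⟩
    have hc := (contDiffOn_hodoQuot (n := n)).continuousOn.continuousAt (isOpen_hodoDom.mem_nhds he)
    obtain ⟨ε, hε, h⟩ := nhds_basis_closedBall.mem_iff.1 (hc.tendsto (closedBall_mem_nhds _ hδ))
    refine ⟨min ε (1 / 2), by positivity, fun p hp => ?_, min_le_right _ _⟩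
    have := h (closedBall_subset_closedBall (min_le_left _ _) hp)
    rwa [mem_preimage, mem_closedBall, dist_eq_norm, hodoQuot_base] at this
  obtain ⟨η, hη, h⟩ := Metric.continuousWithinAt_iff.1
    ((hJ.continuousOn hα) 0 ⟨by simp [Hc], mem_closedBall_self hr.le⟩) ε hε
  obtain ⟨ρ, eρ⟩ : ∃ ρ, ρ = min (η / 2) (min r 1) := ⟨_, rfl⟩
  have hρ : 0 < ρ := eρ ▸ by positivity
  have hρr : ρ ≤ r := eρ ▸ (min_le_right _ _).trans (min_le_left _ _)
  have hsub : Hc n 0 ∩ closedBall (0 : (EuclideanSpace ℝ (Fin (n + 1)))) ρ ⊆ Hc n 0 ∩ closedBall 0 r :=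
    inter_subset_inter_right _ (closedBall_subset_closedBall hρr)
  have S : Start α δ M ρ ε g G := ⟨hρ, eρ ▸ (min_le_right _ _).trans (min_le_right _ _), hε2,
    ⟨fun x hx y hy => hJ.hol x (hsub hx) y (hsub hy), fun x hx y hy => hJ.tay x (hsub hx) y (hsub hy)⟩,
    fun x hx => by
      rw [← hG0]
      refine (h (hsub hx) ?_).le
      have := mem_closedBall.1 hx.2
      linarith [eρ.le.trans (min_le_left _ _)],
    hεq, hg.mono (hi_mono hρr), fun x hx => heq x (hi_mono hρr hx),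
    fun φ a b c => hweak φ a b (c.trans (ball_subset_ball hρr))⟩
  obtain ⟨s, hT, hs, hsρ⟩ := ((S.allOrders hα hE hδ.le 7 0).and (eventually_small hρ)).exists
  refine ⟨s, hs, ?_⟩
  have hsr : half n s ⊆ Hc n 0 ∩ closedBall 0 r :=
    inter_subset_inter_right _ (ball_subset_closedBall.trans (closedBall_subset_closedBall (hsρ.trans hρr)))
  have hd : ∀ x ∈ half n s, HasFDerivWithinAt g (innerSL ℝ (G x)) (half n s) x := fun x hx =>
    (hJ.hasFDerivWithinAt hα (hsr hx)).mono hsr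
  have hu := uniqueDiffOn_halfBall (n := n) hs
  have hG7 : ContDiffOn ℝ ((7 : ℕ) : ℕ∞ω) (fun x => innerSL ℝ (G x)) (half n s) :=
    (innerSL ℝ : (EuclideanSpace ℝ (Fin (n + 1))) →L[ℝ] (EuclideanSpace ℝ (Fin (n + 1))) →L[ℝ] ℝ).contDiff.comp_contDiffOn hT.base.1
  have h8 : ContDiffOn ℝ (((7 : ℕ) : ℕ∞ω) + 1) g (half n s) :=
    contDiffOn_succ_of_fderivWithin (fun x hx => (hd x hx).differentiableWithinAt)
      (fun h => absurd h (by exact_mod_cast WithTop.coe_ne_top))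
      (hG7.congr fun x hx => (hd x hx).fderivWithin (hu x hx))
  have e8 : ((8 : ℕ∞ω)) = ((7 : ℕ) : ℕ∞ω) + 1 := by norm_num
  rw [e8]
  exact h8

/-- Higher regularity up to the flat side for the hodograph equation. -/
theorem boot : ∀ n, Boot n := fun _ => boot_aux

end Vale.Agent.P098.Reg.High
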