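import Vale.Agent.P098.Reg.High.Local

/-! The interior-to-flat-side a priori estimate with absorption. -/

noncomputable section

namespace Vale.Agent.P098.Reg.High

open MeasureTheory Set Filter Topology Metric
open scoped ContDiff InnerProductSpace

variable {n : ℕ} {α : ℝ}

/-- Chaining a Hölder bound along segments. -/
theorem hol_chain {E F : Type*} [NormedAddCommGroup E] [NormedSpace ℝ E] [NormedAddCommGroup F]
    (hα : 0 ≤ α) {S : Set E} (hS : Convex ℝ S) {f : E → F} {K ρ : ℝ} (hK : 0 ≤ K)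
    (h : ∀ x ∈ S, ∀ y ∈ S, dist x y ≤ ρ → ‖f x - f y‖ ≤ K * dist x y ^ α) :
    ∀ (k : ℕ), ∀ x ∈ S, ∀ y ∈ S, dist x y ≤ k * ρ → ‖f x - f y‖ ≤ k * (K * dist x y ^ α) := by
  intro k
  induction k with
  | zero =>
    intro x _ y _ hd
    have hxy : x = y := dist_le_zero.1 (by simpa using hd)
    simp [hxy]
  | succ k ih =>
    intro x hx y hy hd
    obtain ⟨s, es⟩ : ∃ s : ℝ, s = 1 / (k + 1) := ⟨_, rfl⟩
    have hk : (0 : ℝ) < k + 1 := by positivity
    have hs0 : 0 ≤ s := by rw [es]; positivity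
    have hs1 : s ≤ 1 := by rw [es, div_le_one hk]; linarith [k.cast_nonneg (α := ℝ)]
    obtain ⟨q, eq'⟩ : ∃ q : E, q = AffineMap.lineMap x y s := ⟨_, rfl⟩
    have hq : q ∈ S := eq' ▸ hS.lineMap_mem hx hy ⟨hs0, hs1⟩
    have d1 : dist x q = s * dist x y := by rw [eq', dist_left_lineMap, Real.norm_of_nonneg hs0]
    have d2 : dist q y = (1 - s) * dist x y := by
      rw [eq', dist_lineMap_right, Real.norm_of_nonneg (by linarith)]
    push_cast at hd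
    have hdρ : dist x y / (k + 1) ≤ ρ := by rw [div_le_iff₀ hk]; linarith
    have h1 := h x hx q hq (by rw [d1, es]; linarith [one_div_mul_eq_div ((k : ℝ) + 1) (dist x y)])
    have h2 := ih q hq y hy (by
      rw [d2, es, one_sub_div hk.ne', add_sub_cancel_right, div_mul_eq_mul_div, mul_div_assoc]
      exact mul_le_mul_of_nonneg_left hdρ k.cast_nonneg)
    have m1 : dist x q ^ α ≤ dist x y ^ α :=
      Real.rpow_le_rpow dist_nonneg (d1 ▸ mul_le_of_le_one_left dist_nonneg hs1) hα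
    have m2 : dist q y ^ α ≤ dist x y ^ α :=
      Real.rpow_le_rpow dist_nonneg (d2 ▸ mul_le_of_le_one_left dist_nonneg (by linarith)) hα
    calc ‖f x - f y‖ ≤ ‖f x - f q‖ + ‖f q - f y‖ := norm_sub_le_norm_sub_add_norm_sub _ _ _
      _ ≤ K * dist x y ^ α + k * (K * dist x y ^ α) :=
          add_le_add (h1.trans (mul_le_mul_of_nonneg_left m1 hK))
            (h2.trans (mul_le_mul_of_nonneg_left (mul_le_mul_of_nonneg_left m2 hK) k.cast_nonneg))
      _ = _ := by push_cast; ring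

theorem convex_half_ball (z : EuclideanSpace ℝ (Fin (n + 1))) (s : ℝ) :
    Convex ℝ (Hc n 0 ∩ closedBall z s) :=
  (convex_Hc 0).inter (convex_closedBall _ _)

theorem estimate (n : ℕ) (hα : 0 < α) (hα1 : α < 1) :
    ∃ δ : ℝ, 0 < δ ∧ δ ≤ 1 ∧ ∀ MA r : ℝ, 0 ≤ MA → 0 < r → r ≤ 1 → ∃ C : ℝ, 0 ≤ C ∧ ∀ (M MF B : ℝ)
      (A : EuclideanSpace ℝ (Fin (n + 1)) → (EuclideanSpace ℝ (Fin (n + 1)) →L[ℝ] EuclideanSpace ℝ (Fin (n + 1))))
      (F : EuclideanSpace ℝ (Fin (n + 1)) → EuclideanSpace ℝ (Fin (n + 1)))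
      (w : EuclideanSpace ℝ (Fin (n + 1)) → ℝ)
      (W : EuclideanSpace ℝ (Fin (n + 1)) → EuclideanSpace ℝ (Fin (n + 1))),
      LocDatum α M MA δ MF B r A F w W →
        Jet1 α (C * (B + MF)) (Hc n 0 ∩ closedBall 0 (r / 4)) w W ∧
          ∀ x ∈ Hc n 0 ∩ closedBall 0 (r / 4), ‖W x‖ ≤ C * (B + MF) := by
  obtain ⟨c, hc, hloc⟩ := local_step n hα hα1
  refine ⟨min 1 (1 / (128 * c)), by positivity, min_le_left _ _, fun MA r hMA hr hr1 => ?_⟩
  obtain ⟨δ, eδ⟩ : ∃ δ, δ = min 1 (1 / (128 * c)) := ⟨_, rfl⟩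
  rw [← eδ]
  have hδ : 0 < δ := by rw [eδ]; positivity
  have hδc : c * (32 * δ) ≤ 1 / 4 := by
    have := mul_le_mul_of_nonneg_left (eδ.le.trans (min_le_right _ _)) (by positivity : (0:ℝ) ≤ 32 * c)
    have e : 32 * c * (1 / (128 * c)) = 1 / 4 := by field_simp; norm_num
    linarith
  obtain ⟨b, eb⟩ : ∃ b : ℝ, b = 1 / (128 * c * (1 + MA) * (n + 1)) := ⟨_, rfl⟩
  have hb : 0 < b := by rw [eb]; positivity
  obtain ⟨σ, eσ⟩ : ∃ σ : ℝ, σ = min (1 / 16) (b ^ α⁻¹) := ⟨_, rfl⟩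
  have hσ : 0 < σ := eσ ▸ lt_min (by norm_num) (Real.rpow_pos_of_pos hb _)
  have hσ16 : σ ≤ 1 / 16 := eσ ▸ min_le_left _ _
  have hσb : σ ^ α ≤ b := by
    calc σ ^ α ≤ (b ^ α⁻¹) ^ α := Real.rpow_le_rpow hσ.le (eσ ▸ min_le_right _ _) hα.le
      _ = b := Real.rpow_inv_rpow hb.le hα.ne'
  have hσc : c * (1 + MA) * ((n + 1) * (32 * σ ^ α)) ≤ 1 / 4 := by
    calc c * (1 + MA) * ((n + 1) * (32 * σ ^ α)) ≤ c * (1 + MA) * ((n + 1) * (32 * b)) := by gcongr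
      _ = 1 / 4 := by rw [eb]; field_simp; norm_num
  obtain ⟨K, eK⟩ : ∃ K : ℝ, K = 2 * c * (1 + MA) * (2 * (n + 1) / σ + 1) := ⟨_, rfl⟩
  have hK : 0 ≤ K := eK ▸ by positivity
  obtain ⟨T1, eT1⟩ : ∃ T1 : ℝ, T1 = (n + 1) * (2 / σ + 32 * σ ^ α * K) := ⟨_, rfl⟩
  refine ⟨max (32 * K / r ^ (1 + α)) (T1 / r), le_max_of_le_left (by positivity), fun M MF B A F w W D => ?_⟩
  have h0 : (0 : EuclideanSpace ℝ (Fin (n + 1))) ∈ Hc n 0 ∩ closedBall 0 r :=
    ⟨by simp [Hc], mem_closedBall_self hr.le⟩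
  have hB : 0 ≤ B := (abs_nonneg _).trans (D.bdw 0 h0)
  have hMF : 0 ≤ MF := (norm_nonneg _).trans (D.bdF 0 h0)
  obtain ⟨S, eS⟩ : ∃ S : Set ℝ, S = insert 0 {v | ∃ x ∈ Hc n 0, ∃ y ∈ Hc n 0, ‖x‖ < r ∧ x ≠ y ∧
      dist x y ≤ (r - ‖x‖) / 4 ∧ v = (r - ‖x‖) ^ (1 + α) * ‖W x - W y‖ / dist x y ^ α} := ⟨_, rfl⟩
  have hsubr : ∀ {x y : EuclideanSpace ℝ (Fin (n + 1))}, x ∈ Hc n 0 → y ∈ Hc n 0 → ‖x‖ < r →
      dist x y ≤ (r - ‖x‖) / 4 → x ∈ Hc n 0 ∩ closedBall 0 r ∧ y ∈ Hc n 0 ∩ closedBall 0 r :=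
    fun {x y} hx hy hxr hd => ⟨⟨hx, mem_closedBall_zero_iff.2 hxr.le⟩,
      sub_half_ball (z := x) (s := (r - ‖x‖) / 4) (by linarith) ⟨hy, mem_closedBall'.2 hd⟩⟩
  have hbdd : BddAbove S := ⟨max 0 (r ^ (1 + α) * M), by
    rw [eS]
    rintro v (rfl | ⟨x, hx, y, hy, hxr, hne, hd, rfl⟩)
    · exact le_max_left _ _
    refine le_max_of_le_right ?_
    obtain ⟨hx', hy'⟩ := hsubr hx hy hxr hd
    have hp : 0 < dist x y ^ α := Real.rpow_pos_of_pos (dist_pos.2 hne) _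
    have h1 : 0 ≤ r - ‖x‖ := by linarith
    rw [div_le_iff₀ hp, mul_assoc]
    have hM : 0 ≤ M * dist x y ^ α := (norm_nonneg _).trans (D.jet.hol x hx' y hy')
    exact mul_le_mul (Real.rpow_le_rpow h1 (by linarith [norm_nonneg x]) (by linarith)) (D.jet.hol x hx' y hy')
      (norm_nonneg _) (by positivity)⟩
  obtain ⟨Φ, eΦ⟩ : ∃ Φ, Φ = sSup S := ⟨_, rfl⟩
  have hΦ0 : 0 ≤ Φ := eΦ ▸ le_csSup hbdd (eS ▸ mem_insert _ _)
  have hsemi : ∀ z ∈ Hc n 0, ‖z‖ < r → ∀ x ∈ Hc n 0 ∩ closedBall z ((r - ‖z‖) / 2),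
      ∀ y ∈ Hc n 0 ∩ closedBall z ((r - ‖z‖) / 2),
      ‖W x - W y‖ ≤ 32 * Φ / (r - ‖z‖) ^ (1 + α) * dist x y ^ α := by
    intro z hz hzr x hx y hy
    obtain ⟨d, ed⟩ : ∃ d, d = r - ‖z‖ := ⟨_, rfl⟩
    rw [← ed] at hx hy ⊢
    have hd : 0 < d := by linarith
    have hdp : 0 < (d / 2) ^ (1 + α) := Real.rpow_pos_of_pos (by linarith) _
    have hnear : ∀ a ∈ Hc n 0 ∩ closedBall z (d / 2), ∀ b ∈ Hc n 0 ∩ closedBall z (d / 2), dist a b ≤ d / 8 →
        ‖W a - W b‖ ≤ Φ / (d / 2) ^ (1 + α) * dist a b ^ α := by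
      intro a ha b hb hab
      rcases eq_or_ne a b with rfl | hne
      · simp [Real.zero_rpow hα.ne']
      have ha2 : d / 2 ≤ r - ‖a‖ := by
        have h2 := mem_closedBall.1 ha.2
        rw [dist_eq_norm] at h2
        linarith [norm_le_norm_add_norm_sub' a z]
      have hmem : (r - ‖a‖) ^ (1 + α) * ‖W a - W b‖ / dist a b ^ α ≤ Φ := eΦ ▸ le_csSup hbdd
        (eS ▸ mem_insert_of_mem _ ⟨a, ha.1, b, hb.1, by linarith, hne, by linarith, rfl⟩)
      have hp : 0 < dist a b ^ α := Real.rpow_pos_of_pos (dist_pos.2 hne) _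
      rw [div_le_iff₀ hp] at hmem
      rw [div_mul_eq_mul_div, le_div_iff₀ hdp, mul_comm]
      exact (mul_le_mul_of_nonneg_right (Real.rpow_le_rpow (by linarith) ha2 (by linarith)) (norm_nonneg _)).trans hmem
    have hch := hol_chain hα.le (convex_half_ball z (d / 2)) (by positivity) hnear 8 x hx y hy (by
      have hx' := mem_closedBall.1 hx.2
      have hy' := mem_closedBall.1 hy.2
      push_cast
      linarith [dist_triangle_right x y z])
    refine hch.trans (le_of_le_of_eq ?_ rfl)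
    push_cast
    rw [← mul_assoc]
    gcongr
    rw [Real.div_rpow hd.le (by norm_num), div_div_eq_mul_div, mul_div_assoc', div_le_div_iff_of_pos_right
      (Real.rpow_pos_of_pos hd _)]
    have h4 : (2 : ℝ) ^ (1 + α) ≤ 4 :=
      (Real.rpow_le_rpow_of_exponent_le (by norm_num) (show 1 + α ≤ (2 : ℝ) by linarith)).trans_eq (by norm_num)
    linarith [mul_le_mul_of_nonneg_left h4 hΦ0]
  have hsup : ∀ z ∈ Hc n 0, ‖z‖ < r → ∀ x ∈ Hc n 0 ∩ closedBall z (7 * (r - ‖z‖) / 16),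
      ‖W x‖ ≤ (n + 1) * (2 * B / σ + 32 * σ ^ α * Φ) / (r - ‖z‖) := by
    intro z hz hzr x hx
    have hd : 0 < r - ‖z‖ := by linarith
    have hH : 0 ≤ 32 * Φ / (r - ‖z‖) ^ (1 + α) := by positivity
    refine (D.sup_step hα hzr hH (hsemi z hz hzr) (mul_pos hσ hd)
      (by linarith [mul_le_mul_of_nonneg_right hσ16 hd.le]) hx).trans_eq ?_
    rw [Real.mul_rpow hσ.le hd.le, Real.rpow_add hd, Real.rpow_one]
    field_simp
  have hmain : Φ ≤ K * (B + MF) := by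
    have hle : Φ ≤ c * (δ * (32 * Φ) + (1 + MA) * ((n + 1) * (2 * B / σ + 32 * σ ^ α * Φ) + B + MF)) := by
      rw [eΦ]
      refine csSup_le ⟨_, eS ▸ mem_insert _ _⟩ fun v hv => ?_
      rw [← eΦ]
      rw [eS] at hv
      rcases hv with rfl | ⟨x, hx, y, hy, hxr, hne, hd, rfl⟩
      · positivity
      have hd0 : 0 < r - ‖x‖ := by linarith
      rw [div_le_iff₀ (Real.rpow_pos_of_pos (dist_pos.2 hne) _)]
      refine (hloc M MA δ MF B r A F w W D hδ.le (eδ ▸ min_le_left _ _) hMA x hx hxr _ _ (by positivity)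
        (hsemi x hx hxr) (hsup x hx hxr) x ⟨hx, mem_closedBall_self (by linarith)⟩ y
        ⟨hy, mem_closedBall'.2 hd⟩).trans_eq ?_
      rw [mul_div_cancel₀ _ (Real.rpow_pos_of_pos hd0 _).ne']
    have e1 : c * (δ * (32 * Φ)) ≤ 1 / 4 * Φ := by
      calc c * (δ * (32 * Φ)) = c * (32 * δ) * Φ := by ring
        _ ≤ _ := mul_le_mul_of_nonneg_right hδc hΦ0
    have e2 : c * (1 + MA) * ((n + 1) * (32 * σ ^ α)) * Φ ≤ 1 / 4 * Φ := mul_le_mul_of_nonneg_right hσc hΦ0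
    have e3 : c * (1 + MA) * ((n + 1) * (2 * B / σ) + B + MF) ≤ c * (1 + MA) * ((2 * (n + 1) / σ + 1) * (B + MF)) := by
      refine mul_le_mul_of_nonneg_left ?_ (by positivity)
      have h1 : (n + 1 : ℝ) * (2 * B / σ) = 2 * (n + 1) / σ * B := by ring
      have h2 : 0 ≤ 2 * ((n : ℝ) + 1) / σ * MF := by positivity
      have h3 : (2 * (n + 1 : ℝ) / σ + 1) * (B + MF) = 2 * (n + 1) / σ * B + 2 * (n + 1) / σ * MF + B + MF := by ring
      rw [h1, h3]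
      linarith
    have e4 : c * (δ * (32 * Φ) + (1 + MA) * ((n + 1) * (2 * B / σ + 32 * σ ^ α * Φ) + B + MF)) =
        c * (δ * (32 * Φ)) + c * (1 + MA) * ((n + 1) * (32 * σ ^ α)) * Φ +
          c * (1 + MA) * ((n + 1) * (2 * B / σ) + B + MF) := by ring
    have e5 : c * (1 + MA) * ((2 * (n + 1) / σ + 1) * (B + MF)) = K * (B + MF) / 2 := by rw [eK]; ring
    linarith
  have hr4 : Hc n 0 ∩ closedBall 0 (r / 4) ⊆ Hc n 0 ∩ closedBall 0 r :=
    inter_subset_inter_right _ (closedBall_subset_closedBall (by linarith))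
  have hn0 : (0 : EuclideanSpace ℝ (Fin (n + 1))) ∈ Hc n 0 := h0.1
  have hBF : 0 ≤ B + MF := by linarith
  refine ⟨Jet1.improve ⟨fun a ha b hb => D.jet.hol a (hr4 ha) b (hr4 hb), fun a ha b hb => D.jet.tay a (hr4 ha) b (hr4 hb)⟩
    (convex_half_ball 0 (r / 4)) hα (by positivity) fun x hx y hy => ?_, fun x hx => ?_⟩
  · have h := hsemi 0 hn0 (by simpa using hr) x ?_ y ?_
    · rw [norm_zero, sub_zero] at h
      refine h.trans (mul_le_mul_of_nonneg_right ?_ (by positivity))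
      calc 32 * Φ / r ^ (1 + α) ≤ 32 * K / r ^ (1 + α) * (B + MF) := by
            rw [div_mul_eq_mul_div]; exact div_le_div_of_nonneg_right (by linarith) (by positivity)
        _ ≤ _ := mul_le_mul_of_nonneg_right (le_max_left _ _) hBF
    all_goals
      rw [norm_zero, sub_zero]
      first
        | exact ⟨hx.1, closedBall_subset_closedBall (by linarith) hx.2⟩
        | exact ⟨hy.1, closedBall_subset_closedBall (by linarith) hy.2⟩
  · have h := hsup 0 hn0 (by simpa using hr) x (by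
      rw [norm_zero, sub_zero]; exact ⟨hx.1, closedBall_subset_closedBall (by linarith) hx.2⟩)
    rw [norm_zero, sub_zero] at h
    refine h.trans ?_
    calc (n + 1) * (2 * B / σ + 32 * σ ^ α * Φ) / r ≤ (n + 1) * (2 * (B + MF) / σ + 32 * σ ^ α * (K * (B + MF))) / r := by
          gcongr
          linarith
      _ = T1 / r * (B + MF) := by rw [eT1]; ring
      _ ≤ _ := mul_le_mul_of_nonneg_right (le_max_right _ _) hBF

end Vale.Agent.P098.Reg.High
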