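import Vale.Agent.P098.Reg.Blow.Reduce
import Vale.Agent.P098.Reg.High.Iface
import Vale.Agent.P098.Reg.AC.Basics

/-!
The gradient at free boundary points of a minimiser with `C^{1,α}` boundary, and the normal form of
such a point: at the origin, with normal the last coordinate vector.
-/

noncomputable section

namespace Vale.Agent.P098.Reg.High

open MeasureTheory Set Filter Topology Metric
open scoped ContDiff InnerProductSpace NNReal

variable {d n : ℕ}

/-- The gradient as a vector. -/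
def gradV (u : Pt d → ℝ) (x : Pt d) : Pt d := WithLp.toLp 2 fun i => pd i u x

@[simp] theorem gradV_apply (u : Pt d → ℝ) (x : Pt d) (i : Fin d) : gradV u x i = pd i u x := rfl

theorem fderiv_eq_gradV (u : Pt d → ℝ) (x : Pt d) : fderiv ℝ u x = innerSL ℝ (gradV u x) := by
  ext v
  rw [fderiv_eq_sum_pd, innerSL_apply_apply, Eps.inner_eq_sum]
  exact Finset.sum_congr rfl fun i _ => by simp [mul_comm]

theorem eq_of_fderiv_eq {u : Pt d → ℝ} {x p : Pt d} (h : fderiv ℝ u x = innerSL ℝ p) :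
    gradV u x = p := by
  have h1 : innerSL ℝ (gradV u x - p) = 0 := by rw [map_sub, ← fderiv_eq_gradV, h, sub_self]
  have h2 := congrArg norm h1
  rw [innerSL_apply_norm, norm_zero, norm_eq_zero, sub_eq_zero] at h2
  exact h2

theorem norm_gradV_sub (u : Pt d → ℝ) (x y : Pt d) :
    ‖gradV u x - gradV u y‖ = ‖fderiv ℝ u x - fderiv ℝ u y‖ := by
  rw [fderiv_eq_gradV, fderiv_eq_gradV, ← map_sub, innerSL_apply_norm]

theorem diffAt_pos {u : Pt d → ℝ} (hu : LMin u) {x : Pt d} (hx : 0 < u x) : DifferentiableAt ℝ u x :=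
  (((basics d).smooth u hu).contDiffAt (hu.isOpen_pos.mem_nhds hx)).differentiableAt (by simp)

/-- Along the normal at a flat point the gradient tends to the normal. -/
theorem grad_limit {u : Pt d → ℝ} (hu : LMin u) {O : Set (Pt d)} (hO : IsOpen O) {x ν : Pt d}
    (hxO : x ∈ O) (hν : ‖ν‖ = 1) {α C r : ℝ} (hα : 0 < α) (hC : 0 ≤ C) (hr : 0 < r)
    (htr : ∀ s : ℝ, 0 < s → s ≤ r → Trapped u x s (C * s ^ α) ν)
    (hol : ∀ p ∈ O, 0 < u p → ∀ q ∈ O, 0 < u q → ‖gradV u p - gradV u q‖ ≤ C * dist p q ^ α) :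
    (∀ᶠ s in 𝓝[>] (0 : ℝ), x + s • ν ∈ O ∧ 0 < u (x + s • ν)) ∧
      Tendsto (fun s : ℝ => gradV u (x + s • ν)) (𝓝[>] 0) (𝓝 ν) := by
  obtain ⟨ε, hε, hball⟩ := Metric.isOpen_iff.1 hO x hxO
  have hp0 : Tendsto (fun s : ℝ => 9 * C * (2 * s) ^ α) (𝓝[>] 0) (𝓝 0) := by
    have h : Tendsto (fun s : ℝ => 2 * s) (𝓝 0) (𝓝 0) := by
      simpa using (tendsto_id (x := 𝓝 (0 : ℝ))).const_mul 2
    have := ((h.rpow_const (Or.inr hα.le)).const_mul (9 * C)).mono_left
      (nhdsWithin_le_nhds (s := Ioi (0 : ℝ)))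
    simpa [Real.zero_rpow hα.ne'] using this
  have main : ∀ᶠ s in 𝓝[>] (0 : ℝ), (x + s • ν ∈ O ∧ 0 < u (x + s • ν)) ∧
      ‖gradV u (x + s • ν) - ν‖ ≤ 9 * C * (2 * s) ^ α := by
    filter_upwards [self_mem_nhdsWithin, hp0.eventually (gt_mem_nhds (show (0 : ℝ) < 1 / 2 by norm_num)),
      (eventually_lt_nhds (show 0 < min (ε / 2) (r / 2) by positivity)).filter_mono nhdsWithin_le_nhds]
      with s (hs : 0 < s) hsmall hsr
    have hsε : 2 * s < ε := by linarith [min_le_left (ε / 2) (r / 2)]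
    have hs2 : 2 * s ≤ r := by linarith [min_le_right (ε / 2) (r / 2)]
    set y := x + s • ν with hy
    set A := C * (2 * s) ^ α with hA
    have hA0 : 0 ≤ A := mul_nonneg hC (Real.rpow_nonneg (by positivity) _)
    have hlin : ∀ z : Pt d, ∑ i, (z i - x i) * ν i = ⟪ν, z - x⟫_ℝ := fun z => by
      rw [Eps.inner_eq_sum]
      exact Finset.sum_congr rfl fun i _ => by simp; ring
    have hly : ⟪ν, y - x⟫_ℝ = s := by
      rw [hy, add_sub_cancel_left, inner_smul_right, real_inner_self_eq_norm_sq, hν]; ring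
    -- the ball of radius `s / 2` at `y` lies in the positivity set
    have hb : ∀ z ∈ closedBall y (s / 2), z ∈ O ∧ 0 < u z ∧
        |u z - ⟪ν, z - x⟫_ℝ| ≤ A * (2 * s) := by
      intro z hz
      have hzx : dist z x ≤ 3 / 2 * s := by
        have : dist y x = s := by
          rw [hy, dist_eq_norm, add_sub_cancel_left, norm_smul, hν, Real.norm_of_nonneg hs.le, mul_one]
        linarith [dist_triangle z y x, mem_closedBall.1 hz]
      have hl : s / 2 ≤ ⟪ν, z - x⟫_ℝ := by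
        have h1 : ⟪ν, z - x⟫_ℝ = s + ⟪ν, z - y⟫_ℝ := by
          rw [← hly, ← inner_add_right]; congr 1; abel
        have h2 := abs_real_inner_le_norm ν (z - y)
        rw [hν, one_mul, ← dist_eq_norm] at h2
        linarith [(abs_le.1 h2).1, mem_closedBall.1 hz]
      obtain ⟨t1, t2⟩ := htr (2 * s) (by positivity) hs2 z (by rw [mem_ball]; linarith)
      rw [hlin] at t1 t2
      have hAs : A * (2 * s) < s / 2 := by
        have : A < 1 / 9 := by rw [hA]; linarith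
        nlinarith
      have hAs0 : 0 ≤ A * (2 * s) := mul_nonneg hA0 (by positivity)
      rw [← hA] at t1 t2
      rw [max_eq_left (by linarith)] at t1
      rw [max_eq_left (by linarith)] at t2
      exact ⟨hball (mem_ball.2 (by linarith)), lt_of_lt_of_le (by linarith) t1,
        abs_le.2 ⟨by linarith, by linarith⟩⟩
    have hy0 : y ∈ closedBall y (s / 2) := mem_closedBall_self (by positivity)
    refine ⟨⟨(hb y hy0).1, (hb y hy0).2.1⟩, ?_⟩
    rcases eq_or_ne (gradV u y - ν) 0 with hq | hq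
    · rw [hq, norm_zero]; positivity
    set q := gradV u y - ν with hqdef
    have hqn : 0 < ‖q‖ := norm_pos_iff.2 hq
    set z := y + (s / 2 / ‖q‖) • q with hzdef
    have hzd : ‖z - y‖ = s / 2 := by
      rw [hzdef, add_sub_cancel_left, norm_smul, Real.norm_of_nonneg (by positivity),
        div_mul_cancel₀ _ hqn.ne']
    have hzb : z ∈ closedBall y (s / 2) := by rw [mem_closedBall, dist_eq_norm, hzd]
    have hmv := (convex_closedBall y (s / 2)).norm_image_sub_le_of_norm_hasFDerivWithin_le'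
      (φ := innerSL ℝ (gradV u y)) (C := C * (2 * s) ^ α)
      (fun p hp => ((diffAt_pos hu (hb p hp).2.1).hasFDerivAt).hasFDerivWithinAt)
      (fun p hp => by
        rw [fderiv_eq_gradV, ← map_sub, innerSL_apply_norm]
        refine (hol p (hb p hp).1 (hb p hp).2.1 y (hb y hy0).1 (hb y hy0).2.1).trans
          (mul_le_mul_of_nonneg_left (Real.rpow_le_rpow dist_nonneg ?_ hα.le) hC)
        linarith [mem_closedBall.1 hp])
      hy0 hzb
    rw [← hA, hzd, Real.norm_eq_abs, innerSL_apply_apply] at hmv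
    have h1 := (hb z hzb).2.2
    have h2 := (hb y hy0).2.2
    have hd : ⟪gradV u y, z - y⟫_ℝ - (⟪ν, z - x⟫_ℝ - ⟪ν, y - x⟫_ℝ) = s / 2 * ‖q‖ := by
      rw [← inner_sub_right, show z - x - (y - x) = z - y by abel, ← inner_sub_left, ← hqdef, hzdef,
        add_sub_cancel_left, inner_smul_right, real_inner_self_eq_norm_sq]
      field_simp
    rw [abs_le] at hmv h1 h2
    have : s / 2 * ‖q‖ ≤ s / 2 * (9 * A) := by nlinarith
    have h9 := le_of_mul_le_mul_left this (by positivity)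
    rw [hA] at h9
    linarith
  exact ⟨main.mono fun s hs => hs.1, tendsto_iff_norm_sub_tendsto_zero.2
    (squeeze_zero' (Eventually.of_forall fun s => norm_nonneg _) (main.mono fun s hs => hs.2) hp0)⟩

/-- A free boundary point in normal form. -/
structure Front (v : Pt (n + 1) → ℝ) (α C r : ℝ) (P : Pt (n + 1) → Pt (n + 1)) : Prop where
  lmin : LMin v
  alpha : 0 < α
  alpha_lt : α < 1
  nonneg_C : 0 ≤ C
  pos_r : 0 < r
  mem_free : (0 : Pt (n + 1)) ∈ free v
  grad : ∀ z ∈ ball (0 : Pt (n + 1)) r, 0 < v z → P z = gradV v z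
  hol : ∀ z ∈ closure {x | 0 < v x} ∩ ball 0 r, ∀ z' ∈ closure {x | 0 < v x} ∩ ball 0 r,
    ‖P z - P z'‖ ≤ C * dist z z' ^ α
  unit : ∀ z ∈ free v ∩ ball 0 r, ‖P z‖ = 1
  zero : P 0 = EuclideanSpace.single (Fin.last n) 1
  trap : ∀ s : ℝ, 0 < s → s ≤ r → Trapped v 0 s (C * s ^ α) (EuclideanSpace.single (Fin.last n) 1)

/-- A `C^{1,α}` free boundary point can be brought to normal form. -/
theorem exists_front {u : Pt (n + 1) → ℝ} (hu : LMin u) (hC1 : C1Boundary u) {x0 : Pt (n + 1)}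
    (hx0 : x0 ∈ free u) (hne : x0 ≠ 0) :
    ∃ (T : Pt (n + 1) ≃ₗᵢ[ℝ] Pt (n + 1)) (α C r : ℝ) (P : Pt (n + 1) → Pt (n + 1)),
      Front (fun y => u (x0 + T y)) α C r P := by
  obtain ⟨r, hr, α, hα, hα1, C0, ν, -, hA, hB⟩ := hC1 x0 hx0 hne
  classical
  choose! nv hnv htr using hA
  obtain ⟨C, hC, hCC0⟩ : ∃ C : ℝ, 0 ≤ C ∧ C0 ≤ C := ⟨|C0|, abs_nonneg _, le_abs_self _⟩
  have hol : ∀ p ∈ ball x0 r, 0 < u p → ∀ q ∈ ball x0 r, 0 < u q →
      ‖gradV u p - gradV u q‖ ≤ C * dist p q ^ α := fun p hp hp0 q hq hq0 => by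
    rw [norm_gradV_sub]
    exact ((hB p hp hp0).2 q hq hq0).trans
      (mul_le_mul_of_nonneg_right hCC0 (Real.rpow_nonneg dist_nonneg _))
  have htr' : ∀ x ∈ free u, x ∈ ball x0 r → ∀ s : ℝ, 0 < s → s ≤ r →
      Trapped u x s (C * s ^ α) (nv x) := by
    intro x hx hxb s hs hsr y hy
    obtain ⟨t1, t2⟩ := htr x hx hxb s hs hsr y hy
    have hmul : C0 * s ^ α * s ≤ C * s ^ α * s := mul_le_mul_of_nonneg_right
      (mul_le_mul_of_nonneg_right hCC0 (Real.rpow_nonneg hs.le _)) hs.le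
    exact ⟨(max_le_max (by linarith) le_rfl).trans t1, t2.trans (max_le_max (by linarith) le_rfl)⟩
  have hlim : ∀ x ∈ free u, x ∈ ball x0 r →
      (∀ᶠ s in 𝓝[>] (0 : ℝ), x + s • nv x ∈ ball x0 r ∧ 0 < u (x + s • nv x)) ∧
        Tendsto (fun s : ℝ => gradV u (x + s • nv x)) (𝓝[>] 0) (𝓝 (nv x)) := fun x hx hxb =>
    grad_limit hu isOpen_ball hxb (hnv x hx hxb) hα hC hr (htr' x hx hxb) hol
  let Q : Pt (n + 1) → Pt (n + 1) := fun z => if 0 < u z then gradV u z else nv z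
  have hfr : ∀ z ∈ closure {x | 0 < u x}, ¬0 < u z → z ∈ free u := fun z hz hz0 => by
    rw [free, hu.isOpen_pos.frontier_eq]; exact ⟨hz, hz0⟩
  have happ : ∀ z ∈ closure {x | 0 < u x} ∩ ball x0 r, ∃ c : ℝ → Pt (n + 1),
      Tendsto c (𝓝[>] 0) (𝓝 z) ∧ (∀ᶠ s in 𝓝[>] (0 : ℝ), c s ∈ ball x0 r ∧ 0 < u (c s)) ∧
      Tendsto (fun s => gradV u (c s)) (𝓝[>] 0) (𝓝 (Q z)) := by
    intro z hz
    by_cases h0 : 0 < u z
    · exact ⟨fun _ => z, tendsto_const_nhds, Eventually.of_forall fun _ => ⟨hz.2, h0⟩, by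
        simp only [Q, if_pos h0]; exact tendsto_const_nhds⟩
    · obtain ⟨l1, l2⟩ := hlim z (hfr z hz.1 h0) hz.2
      refine ⟨fun s => z + s • nv z, ?_, l1, by simpa only [Q, if_neg h0] using l2⟩
      have := ((tendsto_id (x := 𝓝 (0 : ℝ))).smul_const (nv z)).const_add z
      simpa using this.mono_left (nhdsWithin_le_nhds (s := Ioi (0 : ℝ)))
  have hQ : ∀ z ∈ closure {x | 0 < u x} ∩ ball x0 r, ∀ z' ∈ closure {x | 0 < u x} ∩ ball x0 r,
      ‖Q z - Q z'‖ ≤ C * dist z z' ^ α := by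
    intro z hz z' hz'
    obtain ⟨c, hc, hcp, hcg⟩ := happ z hz
    obtain ⟨c', hc', hcp', hcg'⟩ := happ z' hz'
    refine le_of_tendsto_of_tendsto (hcg.sub hcg').norm
      (((hc.dist hc').rpow_const (Or.inr hα.le)).const_mul C) ?_
    filter_upwards [hcp, hcp'] with s hs hs'
    exact hol _ hs.1 hs.2 _ hs'.1 hs'.2
  have hQfree : ∀ z ∈ free u, Q z = nv z := fun z hz => by
    simp only [Q]
    rw [if_neg]
    rw [free, hu.isOpen_pos.frontier_eq] at hz
    exact hz.2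
  obtain ⟨T, hT⟩ := exists_isometry (Fin.last n) (hnv x0 hx0 (mem_ball_self hr))
  let Φ : Pt (n + 1) ≃ₜ Pt (n + 1) := T.toHomeomorph.trans (Homeomorph.addLeft x0)
  have hmem : ∀ y, y ∈ ball (0 : Pt (n + 1)) r ↔ x0 + T y ∈ ball x0 r := fun y => by
    simp [dist_eq_norm]
  have hpre : {y | 0 < u (x0 + T y)} = Φ ⁻¹' {x | 0 < u x} := by ext y; simp [Φ]
  have hfree : ∀ y, y ∈ free (fun y => u (x0 + T y)) ↔ x0 + T y ∈ free u := fun y => by
    simp only [free, hpre, ← Φ.preimage_frontier]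
    simp [Φ]
  have hcl : ∀ y, y ∈ closure {y | 0 < u (x0 + T y)} ↔ x0 + T y ∈ closure {x | 0 < u x} := fun y => by
    simp only [hpre, ← Φ.preimage_closure]
    simp [Φ]
  have hgrad : ∀ y, 0 < u (x0 + T y) →
      gradV (fun y => u (x0 + T y)) y = T.symm (gradV u (x0 + T y)) := fun y hy => by
    refine eq_of_fderiv_eq ?_
    have h1 : HasFDerivAt (fun y => x0 + T y) (T.toContinuousLinearEquiv : Pt (n + 1) →L[ℝ] Pt (n + 1)) y :=
      (T.toContinuousLinearEquiv.hasFDerivAt).const_add x0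
    have h2 := ((diffAt_pos hu hy).hasFDerivAt).comp y h1
    rw [show (fun y => u (x0 + T y)) = u ∘ fun y => x0 + T y from rfl, h2.fderiv, fderiv_eq_gradV]
    ext w
    show ⟪gradV u (x0 + T y), T w⟫_ℝ = ⟪T.symm (gradV u (x0 + T y)), w⟫_ℝ
    rw [← T.inner_map_map (T.symm _) w, T.apply_symm_apply]
  refine ⟨T, α, C, r, fun y => T.symm (Q (x0 + T y)), ?_, hα, hα1, hC, hr, (hfree 0).2 (by simpa using hx0),
    fun y hy hy0 => by rw [hgrad y hy0]; simp only [Q, if_pos hy0], fun y hy y' hy' => ?_,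
    fun y hy => ?_, ?_, fun s hs hsr y hy => ?_⟩
  · have h := (hu.rescale x0 one_pos).comp_isometry T
    have e : rescale u x0 1 ∘ T = fun y => u (x0 + T y) := by funext y; simp [rescale]
    rwa [e] at h
  · rw [← map_sub, LinearIsometryEquiv.norm_map]
    refine (hQ _ ⟨(hcl y).1 hy.1, (hmem y).1 hy.2⟩ _ ⟨(hcl y').1 hy'.1, (hmem y').1 hy'.2⟩).trans
      (le_of_eq ?_)
    rw [dist_add_left, T.isometry.dist_eq]
  · rw [LinearIsometryEquiv.norm_map, hQfree _ ((hfree y).1 hy.1)]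
    exact hnv _ ((hfree y).1 hy.1) ((hmem y).1 hy.2)
  · simp only [map_zero, add_zero, hQfree x0 hx0, ← hT, LinearIsometryEquiv.symm_apply_apply]
  · have hys : x0 + T y ∈ ball x0 s := by
      rw [mem_ball, dist_eq_norm, add_sub_cancel_left, T.norm_map]; simpa using hy
    have h := htr' x0 hx0 (mem_ball_self hr) s hs hsr (x0 + T y) hys
    have e : ∑ i, ((x0 + T y) i - x0 i) * nv x0 i =
        ∑ i, (y i - (0 : Pt (n + 1)) i) * EuclideanSpace.single (𝕜 := ℝ) (Fin.last n) 1 i := by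
      have h1 : ∑ i, ((x0 + T y) i - x0 i) * nv x0 i = ⟪T y, nv x0⟫_ℝ := by
        rw [Eps.inner_eq_sum]; simp
      rw [h1, ← hT, T.inner_map_map, Eps.inner_eq_sum]
      simp
    rw [e] at h
    exact h

end Vale.Agent.P098.Reg.High
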