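import Vale.Agent.P098.Reg.High.Schauder

/-! Products, gluing by zero and cutoffs for Hölder functions. -/

noncomputable section

namespace Vale.Agent.P098.Reg.High

open MeasureTheory Set Filter Topology Metric
open scoped ContDiff InnerProductSpace

variable {n : ℕ} {α : ℝ}

theorem Jet1.of_deriv (hα : 0 < α) {S : Set (EuclideanSpace ℝ (Fin (n + 1)))} (hS : Convex ℝ S)
    {M : ℝ} (hM : 0 ≤ M) {v : EuclideanSpace ℝ (Fin (n + 1)) → ℝ}
    {V : EuclideanSpace ℝ (Fin (n + 1)) → EuclideanSpace ℝ (Fin (n + 1))}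
    (hd : ∀ x ∈ S, HasFDerivWithinAt v (innerSL ℝ (V x)) S x)
    (hol : ∀ x ∈ S, ∀ y ∈ S, ‖V x - V y‖ ≤ M * dist x y ^ α) : Jet1 α M S v V := by
  refine ⟨hol, fun x hx y hy => ?_⟩
  have hseg : segment ℝ x y ⊆ S := hS.segment_subset hx hy
  have hb : ∀ q ∈ segment ℝ x y, ‖innerSL ℝ (V q) - innerSL ℝ (V x)‖ ≤ M * dist x y ^ α := fun q hq => by
    rw [← map_sub, innerSL_apply_norm]
    refine (hol q (hseg hq) x hx).trans (mul_le_mul_of_nonneg_left
      (Real.rpow_le_rpow dist_nonneg ?_ hα.le) hM)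
    rw [← dist_add_dist_of_mem_segment hq, dist_comm q x]
    exact le_add_of_nonneg_right dist_nonneg
  have h := Convex.norm_image_sub_le_of_norm_hasFDerivWithin_le' (φ := innerSL ℝ (V x))
    (fun q hq => ((hd q (hseg hq)).mono hseg)) hb (convex_segment x y)
    (left_mem_segment ℝ x y) (right_mem_segment ℝ x y)
  rw [Real.norm_eq_abs, ← dist_eq_norm, dist_comm y x, innerSL_apply_apply] at h
  refine h.trans_eq ?_
  rcases (dist_nonneg (x := x) (y := y)).eq_or_lt with h0 | h0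
  · rw [← h0, Real.zero_rpow hα.ne', Real.zero_rpow (by linarith)]; simp
  · rw [add_comm 1 α, Real.rpow_add h0, Real.rpow_one]; ring

variable {X E : Type*} [PseudoMetricSpace X] [NormedAddCommGroup E] [NormedSpace ℝ E]

theorem hol_smul {S : Set X} {f : X → ℝ} {u : X → E} {Kf Sf Ku Su : ℝ}
    (hf : ∀ x ∈ S, ∀ y ∈ S, |f x - f y| ≤ Kf * dist x y ^ α) (hfs : ∀ x ∈ S, |f x| ≤ Sf)
    (hu : ∀ x ∈ S, ∀ y ∈ S, ‖u x - u y‖ ≤ Ku * dist x y ^ α) (hus : ∀ x ∈ S, ‖u x‖ ≤ Su) :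
    ∀ x ∈ S, ∀ y ∈ S, ‖f x • u x - f y • u y‖ ≤ (Kf * Su + Sf * Ku) * dist x y ^ α := by
  intro x hx y hy
  have e : f x • u x - f y • u y = (f x - f y) • u x + f y • (u x - u y) := by
    rw [sub_smul, smul_sub]; abel
  rw [e, add_mul]
  refine (norm_add_le _ _).trans (add_le_add ?_ ?_) <;> rw [norm_smul, Real.norm_eq_abs]
  · rw [mul_right_comm]
    exact mul_le_mul (hf x hx y hy) (hus x hx) (norm_nonneg _) ((abs_nonneg _).trans (hf x hx y hy))
  · rw [mul_assoc]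
    exact mul_le_mul (hfs y hy) (hu x hx y hy) (norm_nonneg _) ((abs_nonneg _).trans (hfs y hy))

theorem hol_apply {S : Set X} {f : X → (E →L[ℝ] E)} {u : X → E} {Kf Sf Ku Su : ℝ}
    (hf : ∀ x ∈ S, ∀ y ∈ S, ‖f x - f y‖ ≤ Kf * dist x y ^ α) (hfs : ∀ x ∈ S, ‖f x‖ ≤ Sf)
    (hu : ∀ x ∈ S, ∀ y ∈ S, ‖u x - u y‖ ≤ Ku * dist x y ^ α) (hus : ∀ x ∈ S, ‖u x‖ ≤ Su) :
    ∀ x ∈ S, ∀ y ∈ S, ‖f x (u x) - f y (u y)‖ ≤ (Kf * Su + Sf * Ku) * dist x y ^ α := by
  intro x hx y hy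
  have e : f x (u x) - f y (u y) = (f x - f y) (u x) + f y (u x - u y) := by simp
  rw [e, add_mul]
  refine (norm_add_le _ _).trans (add_le_add ?_ ?_) <;> refine (ContinuousLinearMap.le_opNorm _ _).trans ?_
  · rw [mul_right_comm]
    exact mul_le_mul (hf x hx y hy) (hus x hx) (norm_nonneg _) ((norm_nonneg _).trans (hf x hx y hy))
  · rw [mul_assoc]
    exact mul_le_mul (hfs y hy) (hu x hx y hy) (norm_nonneg _) ((norm_nonneg _).trans (hfs y hy))

/-- Gluing by zero outside a ball. -/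
theorem hol_glue {F : Type*} [NormedAddCommGroup F] [NormedSpace ℝ F] (hα : 0 ≤ α) {S : Set F} (hS : Convex ℝ S)
    {z : F} {s1 s2 : ℝ} (h12 : s1 < s2) {f : F → E} {K : ℝ} (hK : 0 ≤ K)
    (hol : ∀ x ∈ S ∩ closedBall z s2, ∀ y ∈ S ∩ closedBall z s2, ‖f x - f y‖ ≤ K * dist x y ^ α)
    (h0 : ∀ x ∈ S, x ∉ closedBall z s1 → f x = 0) :
    ∀ x ∈ S, ∀ y ∈ S, ‖f x - f y‖ ≤ K * dist x y ^ α := by
  have key : ∀ x ∈ S ∩ closedBall z s2, ∀ y ∈ S, y ∉ closedBall z s2 → ‖f x - f y‖ ≤ K * dist x y ^ α := by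
    intro x hx y hy hyo
    have hy1 : y ∉ closedBall z s1 := fun h => hyo (closedBall_subset_closedBall h12.le h)
    rw [h0 y hy hy1, sub_zero]
    by_cases hx1 : x ∈ closedBall z s1
    · have hc : ContinuousOn (fun t : ℝ => dist (AffineMap.lineMap x y t) z) (Icc 0 1) :=
        (AffineMap.lineMap_continuous.dist continuous_const).continuousOn
      obtain ⟨t, ht, hts⟩ := intermediate_value_Icc zero_le_one hc (show s2 ∈ Icc _ _ from
        ⟨by simpa using le_trans (mem_closedBall.1 hx1) h12.le, by simpa using (not_le.1 (mt mem_closedBall.2 hyo)).le⟩)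
      have hseg : AffineMap.lineMap x y t ∈ segment ℝ x y :=
        segment_eq_image_lineMap ℝ x y ▸ ⟨t, ht, rfl⟩
      have hp : AffineMap.lineMap x y t ∈ S ∩ closedBall z s2 :=
        ⟨hS.segment_subset hx.1 hy hseg, mem_closedBall.2 hts.le⟩
      have hp0 : f (AffineMap.lineMap x y t) = 0 := h0 _ hp.1 fun h => by
        have h' := mem_closedBall.1 h
        simp only at hts
        linarith
      have := hol x hx _ hp
      rw [hp0, sub_zero] at this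
      refine this.trans (mul_le_mul_of_nonneg_left (Real.rpow_le_rpow dist_nonneg ?_ hα) hK)
      rw [← dist_add_dist_of_mem_segment hseg]
      exact le_add_of_nonneg_right dist_nonneg
    · rw [h0 x hx.1 hx1, norm_zero]
      exact mul_nonneg hK (Real.rpow_nonneg dist_nonneg _)
  intro x hx y hy
  by_cases hxi : x ∈ closedBall z s2
  · by_cases hyi : y ∈ closedBall z s2
    · exact hol x ⟨hx, hxi⟩ y ⟨hy, hyi⟩
    · exact key x ⟨hx, hxi⟩ y hy hyi
  · by_cases hyi : y ∈ closedBall z s2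
    · rw [norm_sub_rev, dist_comm]; exact key y ⟨hy, hyi⟩ x hx hxi
    · rw [h0 x hx fun h => hxi (closedBall_subset_closedBall h12.le h),
        h0 y hy fun h => hyi (closedBall_subset_closedBall h12.le h), sub_self, norm_zero]
      exact mul_nonneg hK (Real.rpow_nonneg dist_nonneg _)

/-- Scaled cutoffs with scale-invariant bounds. -/
theorem exists_cut (n : ℕ) (hα : 0 < α) (hα1 : α < 1) :
    ∃ c : ℝ, 1 ≤ c ∧ ∀ (z : EuclideanSpace ℝ (Fin (n + 1))) (d : ℝ), 0 < d →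
      ∃ (η : EuclideanSpace ℝ (Fin (n + 1)) → ℝ) (Dη : EuclideanSpace ℝ (Fin (n + 1)) → EuclideanSpace ℝ (Fin (n + 1))),
        ContDiff ℝ ∞ η ∧ HasCompactSupport η ∧ (∀ x, HasFDerivAt η (innerSL ℝ (Dη x)) x) ∧
        (∀ x, |η x| ≤ 1) ∧ (∀ x ∈ closedBall z (d / 4), η x = 1) ∧
        (∀ x, x ∉ closedBall z (3 * d / 8) → η x = 0 ∧ Dη x = 0) ∧
        (∀ x, ‖Dη x‖ ≤ c / d) ∧ (∀ x y, |η x - η y| ≤ c / d ^ α * dist x y ^ α) ∧
        ∀ x y, ‖Dη x - Dη y‖ ≤ c / d ^ (1 + α) * dist x y ^ α := by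
  obtain ⟨χ, hχ, hχc, hχs, hχ01, hχ1⟩ := exists_cutoff (d := n + 1) (isCompact_closedBall 0 (1 / 4))
    isOpen_ball (closedBall_subset_ball (show (1 : ℝ) / 4 < 3 / 8 by norm_num))
  obtain ⟨Dχ, eDχ⟩ : ∃ Dχ : EuclideanSpace ℝ (Fin (n + 1)) → EuclideanSpace ℝ (Fin (n + 1)),
      Dχ = fun x => (InnerProductSpace.toDual ℝ _).symm (fderiv ℝ χ x) := ⟨_, rfl⟩
  have hDc : ContDiff ℝ 1 Dχ := eDχ ▸
    ((InnerProductSpace.toDual ℝ (EuclideanSpace ℝ (Fin (n + 1)))).symm.toContinuousLinearEquiv.contDiff).comp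
      (hχ.fderiv_right (m := 1) (WithTop.coe_le_coe.2 le_top))
  have hDs : HasCompactSupport Dχ := by
    rw [eDχ]
    exact (hχc.fderiv ℝ).comp_left (map_zero _)
  obtain ⟨K1, hK1⟩ := hDc.lipschitzWith_of_hasCompactSupport hDs one_ne_zero
  obtain ⟨K0, hK0⟩ := (hχ.of_le (WithTop.coe_le_coe.2 le_top) : ContDiff ℝ 1 χ).lipschitzWith_of_hasCompactSupport hχc one_ne_zero
  obtain ⟨M, hM⟩ := hDc.continuous.bounded_above_of_compact_support hDs
  have hM0 : 0 ≤ M := (norm_nonneg _).trans (hM 0)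
  refine ⟨1 + 2 * M + K0 + K1 + 2, by linarith [K0.coe_nonneg, K1.coe_nonneg], fun z d hd => ?_⟩
  have hint : ∀ {a K L t : ℝ}, 0 ≤ a → a ≤ K * t → a ≤ L → 0 ≤ t → 0 ≤ K → 0 ≤ L → a ≤ (K + L) * t ^ α := by
    intro a K L t ha hK hL ht hK0' hL0
    rcases le_or_gt t 1 with h1 | h1
    · refine hK.trans ?_
      have : t ≤ t ^ α := by
        rcases ht.eq_or_lt with h0 | h0
        · rw [← h0, Real.zero_rpow hα.ne']
        · calc t = t ^ (1 : ℝ) := (Real.rpow_one t).symm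
            _ ≤ t ^ α := Real.rpow_le_rpow_of_exponent_ge h0 h1 hα1.le
      exact mul_le_mul (by linarith) this ht (by linarith)
    · refine hL.trans ((le_mul_of_one_le_right hL0 (Real.one_le_rpow h1.le hα.le)).trans ?_)
      exact mul_le_mul_of_nonneg_right (by linarith) (Real.rpow_nonneg ht _)
  have hdist : ∀ x y, dist (d⁻¹ • (x - z)) (d⁻¹ • (y - z)) ^ α = dist x y ^ α / d ^ α := fun x y => by
    rw [dist_smul₀, dist_sub_right, norm_inv, Real.norm_of_nonneg hd.le, inv_mul_eq_div,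
      Real.div_rpow dist_nonneg hd.le]
  have hout : ∀ x, x ∉ closedBall z (3 * d / 8) → d⁻¹ • (x - z) ∉ tsupport χ := fun x hx h => hx (by
    have h2 := mem_ball_zero_iff.1 (hχs h)
    rw [norm_smul, norm_inv, Real.norm_of_nonneg hd.le, inv_mul_lt_iff₀ hd] at h2
    rw [mem_closedBall, dist_eq_norm]; linarith)
  refine ⟨fun x => χ (d⁻¹ • (x - z)), fun x => d⁻¹ • Dχ (d⁻¹ • (x - z)),
    hχ.comp ((contDiff_id.sub contDiff_const).const_smul d⁻¹), ?_, fun x => ?_, fun x => ?_, fun x hx => ?_,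
    fun x hx => ?_, fun x => ?_, fun x y => ?_, fun x y => ?_⟩
  · exact HasCompactSupport.intro (isCompact_closedBall z (3 * d / 8)) fun x hx => image_eq_zero_of_notMem_tsupport (hout x hx)
  · have h1 : HasFDerivAt (fun q => d⁻¹ • (q - z))
        (d⁻¹ • ContinuousLinearMap.id ℝ (EuclideanSpace ℝ (Fin (n + 1)))) x :=
      ((hasFDerivAt_id (𝕜 := ℝ) x).sub_const z).const_smul d⁻¹
    refine (((hχ.differentiable (by simp) (d⁻¹ • (x - z))).hasFDerivAt).comp x h1).congr_fderiv ?_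
    ext v
    rw [eDχ]
    simp [real_inner_smul_left]
  · exact abs_le.2 ⟨by linarith [(hχ01 (d⁻¹ • (x - z))).1], (hχ01 _).2⟩
  · refine hχ1.self_of_nhdsSet _ (mem_closedBall_zero_iff.2 ?_)
    rw [norm_smul, norm_inv, Real.norm_of_nonneg hd.le, inv_mul_le_iff₀ hd]
    have := mem_closedBall.1 hx
    rw [dist_eq_norm] at this
    linarith
  · refine ⟨image_eq_zero_of_notMem_tsupport (hout x hx), ?_⟩
    rw [eDχ]
    simp [fderiv_of_notMem_tsupport ℝ (hout x hx)]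
  · rw [norm_smul, norm_inv, Real.norm_of_nonneg hd.le, inv_mul_eq_div]
    exact div_le_div_of_nonneg_right (by linarith [hM (d⁻¹ • (x - z)), K0.coe_nonneg, K1.coe_nonneg]) hd.le
  · refine (hint (K := (K0 : ℝ)) (L := 2) (t := dist (d⁻¹ • (x - z)) (d⁻¹ • (y - z))) (abs_nonneg _) ?_ ?_ dist_nonneg
      K0.coe_nonneg zero_le_two).trans ?_
    · rw [← Real.dist_eq]; exact hK0.dist_le_mul _ _
    · rw [abs_le]
      constructor <;> linarith [(hχ01 (d⁻¹ • (x - z))).1, (hχ01 (d⁻¹ • (x - z))).2, (hχ01 (d⁻¹ • (y - z))).1,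
        (hχ01 (d⁻¹ • (y - z))).2]
    · rw [hdist, mul_div_assoc', div_mul_eq_mul_div]
      gcongr
      linarith [K1.coe_nonneg]
  · rw [← smul_sub, norm_smul, norm_inv, Real.norm_of_nonneg hd.le, inv_mul_le_iff₀ hd]
    refine (hint (K := (K1 : ℝ)) (L := 2 * M) (t := dist (d⁻¹ • (x - z)) (d⁻¹ • (y - z))) (norm_nonneg _) ?_ ?_
      dist_nonneg K1.coe_nonneg (by linarith)).trans ?_
    · rw [← dist_eq_norm]; exact hK1.dist_le_mul _ _
    · linarith [norm_sub_le (Dχ (d⁻¹ • (x - z))) (Dχ (d⁻¹ • (y - z))), hM (d⁻¹ • (x - z)), hM (d⁻¹ • (y - z))]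
    · rw [hdist, Real.rpow_add hd, Real.rpow_one, mul_div_assoc']
      calc (↑K1 + 2 * M) * dist x y ^ α / d ^ α ≤ (1 + 2 * M + ↑K0 + ↑K1 + 2) * dist x y ^ α / d ^ α := by
            refine div_le_div_of_nonneg_right (mul_le_mul_of_nonneg_right ?_ (Real.rpow_nonneg dist_nonneg _))
              (Real.rpow_nonneg hd.le _)
            linarith [K0.coe_nonneg]
        _ = _ := by field_simp

end Vale.Agent.P098.Reg.High
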