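import Vale.Agent.P098.Reg.High.Liouville

/-! A weakly divergence-free gradient field of sublinear growth is constant (mollification). -/

noncomputable section

namespace Vale.Agent.P098.Reg.High

open MeasureTheory Set Filter Topology Metric ContinuousLinearMap
open scoped ContDiff Convolution

variable {d : ℕ}

theorem rpow_add_one_le {a r : ℝ} (ha0 : 0 ≤ a) (ha1 : a ≤ 1) (hr : 0 ≤ r) : (r + 1) ^ a ≤ r ^ a + 1 := by
  simpa using Real.rpow_add_le_add_rpow hr zero_le_one ha0 ha1

theorem locInt_of_growth {f : EuclideanSpace ℝ (Fin d) → ℝ} (hm : AEStronglyMeasurable f volume) {C a : ℝ}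
    (hC : 0 ≤ C) (ha0 : 0 ≤ a) (hb : ∀ x, |f x| ≤ C * (1 + ‖x‖ ^ a)) : LocallyIntegrable f volume := by
  refine locallyIntegrable_iff.2 fun K hK => ?_
  obtain ⟨R, hR⟩ := hK.isBounded.subset_closedBall 0
  refine Integrable.mono' (integrableOn_const (C := C * (1 + |R| ^ a)) hK.measure_ne_top) hm.restrict ?_
  refine (ae_restrict_iff' hK.measurableSet).2 (Eventually.of_forall fun x hx => (hb x).trans ?_)
  gcongr
  exact (mem_closedBall_zero_iff.1 (hR hx)).trans (le_abs_self R)

/-- If `W` is a.e. the gradient of a locally Lipschitz function, has sublinear growth and is weakly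
divergence free on the whole space, then it takes one value at all its points of continuity. -/
theorem const_of_weak {w : EuclideanSpace ℝ (Fin d) → ℝ} {W : Fin d → EuclideanSpace ℝ (Fin d) → ℝ}
    (hlip : ∀ R : ℝ, ∃ K, LipschitzOnWith K w (closedBall 0 R))
    (hae : ∀ᵐ x, HasFDerivAt w (∑ i, W i x • EuclideanSpace.proj (𝕜 := ℝ) (ι := Fin d) i) x)
    (hWm : ∀ i, AEStronglyMeasurable (W i) volume)
    {C a : ℝ} (ha0 : 0 ≤ a) (ha : a < 1) (hb : ∀ i x, |W i x| ≤ C * (1 + ‖x‖ ^ a))
    (hweak : ∀ φ : EuclideanSpace ℝ (Fin d) → ℝ, ContDiff ℝ ∞ φ → HasCompactSupport φ →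
      ∫ x, ∑ i, W i x * pd i φ x = 0)
    {x y : EuclideanSpace ℝ (Fin d)} (j : Fin d) (hx : ContinuousAt (W j) x) (hy : ContinuousAt (W j) y) :
    W j x = W j y := by
  have hC : 0 ≤ C := by
    have h1 := (abs_nonneg _).trans (hb j 0)
    have h2 : (0 : ℝ) < 1 + ‖(0 : EuclideanSpace ℝ (Fin d))‖ ^ a :=
      add_pos_of_pos_of_nonneg one_pos (Real.rpow_nonneg (norm_nonneg _) _)
    exact (mul_nonneg_iff_of_pos_right h2).1 h1
  have hW : ∀ i, LocallyIntegrable (W i) volume := fun i => locInt_of_growth (hWm i) hC ha0 (hb i)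
  have hwc : Continuous w := continuous_iff_continuousAt.2 fun z => by
    obtain ⟨K, hK⟩ := hlip (‖z‖ + 1)
    refine hK.continuousOn.continuousAt ?_
    exact closedBall_mem_nhds_of_mem (mem_ball_zero_iff.2 (by linarith))
  obtain ⟨φ, eφ⟩ : ∃ φ : ℕ → ContDiffBump (0 : EuclideanSpace ℝ (Fin d)),
      φ = fun m => ⟨(1 / 2) / (m + 1), 1 / (m + 1), by positivity, by gcongr; norm_num⟩ := ⟨_, rfl⟩
  have hout : ∀ m, (φ m).rOut ≤ 1 := fun m => by
    rw [eφ]
    simp only
    rw [div_le_one (by positivity)]
    linarith [show (0 : ℝ) ≤ m from Nat.cast_nonneg m]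
  have hlim : Tendsto (fun m => (φ m).rOut) atTop (𝓝 0) := by
    rw [eφ]; exact tendsto_one_div_add_atTop_nhds_zero_nat
  have key : ∀ m, ((φ m).normed volume ⋆[lsmul ℝ ℝ, volume] W j) x
      = ((φ m).normed volume ⋆[lsmul ℝ ℝ, volume] W j) y := by
    intro m
    obtain ⟨ρ, eρ⟩ : ∃ ρ : EuclideanSpace ℝ (Fin d) → ℝ, ρ = (φ m).normed volume := ⟨_, rfl⟩
    rw [← eρ]
    have hρ : ContDiff ℝ ∞ ρ := eρ ▸ (φ m).contDiff_normed
    have hρc : HasCompactSupport ρ := eρ ▸ (φ m).hasCompactSupport_normed
    have hρ0 : ∀ t, 0 ≤ ρ t := fun t => eρ ▸ (φ m).nonneg_normed t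
    have hρ1 : ∫ t, ρ t = 1 := eρ ▸ (φ m).integral_normed
    have hρs : ∀ t, ρ t ≠ 0 → ‖t‖ ≤ 1 := fun t ht => by
      have h : t ∈ Function.support ((φ m).normed volume) := eρ ▸ ht
      rw [(φ m).support_normed_eq] at h
      exact (mem_ball_zero_iff.1 h).le.trans (hout m)
    obtain ⟨f, ef⟩ : ∃ f : EuclideanSpace ℝ (Fin d) → ℝ, f = ρ ⋆[lsmul ℝ ℝ, volume] w := ⟨_, rfl⟩
    have hf : ContDiff ℝ ∞ f := ef ▸ hρc.contDiff_convolution_left _ hρ hwc.locallyIntegrable
    have hfd : ∀ i z, pd i f z = (ρ ⋆[lsmul ℝ ℝ, volume] W i) z := by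
      intro i z
      obtain ⟨K, hK⟩ := hlip (‖z‖ + 2)
      obtain ⟨F', eF'⟩ : ∃ F' : EuclideanSpace ℝ (Fin d) → EuclideanSpace ℝ (Fin d) →L[ℝ] ℝ,
          F' = fun t => ρ t • ∑ k, W k (z - t) • EuclideanSpace.proj (𝕜 := ℝ) (ι := Fin d) k := ⟨_, rfl⟩
      have hpre : ∀ k, AEStronglyMeasurable (fun t => W k (z - t)) volume := fun k =>
        (hWm k).comp_measurePreserving (Measure.measurePreserving_sub_left volume z)
      have h := hasFDerivAt_integral_of_dominated_loc_of_lip (μ := volume) (𝕜 := ℝ)
        (F := fun q t => ρ t * w (q - t)) (F' := F') (x₀ := z) (s := ball z 1)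
        (bound := fun t => ρ t * K) (ball_mem_nhds z one_pos)
        (Eventually.of_forall fun q =>
          (hρ.continuous.mul (hwc.comp (continuous_const.sub continuous_id))).aestronglyMeasurable)
        ((hρ.continuous.mul (hwc.comp (continuous_const.sub continuous_id))).integrable_of_hasCompactSupport
          hρc.mul_right)
        (by
          rw [eF']
          exact hρ.continuous.aestronglyMeasurable.smul (Finset.aestronglyMeasurable_fun_sum _ fun k _ =>
            (hpre k).smul_const _))
        (Eventually.of_forall fun t => by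
          refine LipschitzOnWith.of_dist_le_mul fun p hp q hq => ?_
          have hnn : (0 : ℝ) ≤ ρ t * (K : ℝ) := mul_nonneg (hρ0 t) K.2
          simp only [Real.coe_nnabs, abs_of_nonneg hnn]
          rw [dist_eq_norm, ← mul_sub, norm_mul, Real.norm_of_nonneg (hρ0 t)]
          rcases eq_or_ne (ρ t) 0 with h0 | h0
          · simp [h0]
          have hin : ∀ p ∈ ball z (1 : ℝ), p - t ∈ closedBall (0 : EuclideanSpace ℝ (Fin d)) (‖z‖ + 2) := by
            intro p hp
            rw [mem_closedBall_zero_iff]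
            have h1 : ‖p‖ ≤ ‖z‖ + 1 := by
              linarith [norm_le_norm_add_norm_sub' p z, mem_ball_iff_norm.1 hp]
            linarith [norm_sub_le p t, hρs t h0]
          have h2 := hK.dist_le_mul _ (hin p hp) _ (hin q hq)
          rw [dist_eq_norm, dist_eq_norm, sub_sub_sub_cancel_right] at h2
          rw [dist_eq_norm, mul_assoc]
          exact mul_le_mul_of_nonneg_left h2 (hρ0 t))
        ((hρ.continuous.integrable_of_hasCompactSupport hρc).mul_const _)
        (by
          filter_upwards [(Measure.measurePreserving_sub_left volume z).quasiMeasurePreserving.ae hae] with t ht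
          rw [eF']
          simpa using (ht.comp z ((hasFDerivAt_id z).sub_const t)).const_mul (ρ t))
      have he : f = fun q => ∫ t, ρ t * w (q - t) := by
        rw [ef]; funext q; simp [convolution_def]
      rw [pd, he, h.2.fderiv, ContinuousLinearMap.integral_apply h.1]
      rw [eF', convolution_def]
      refine integral_congr_ae (Eventually.of_forall fun t => ?_)
      simp [EuclideanSpace.single_apply]
    have hl : ∀ z, ∑ i, pd i (pd i f) z = 0 := by
      intro z
      have hd : ∀ i, pd i (pd i f) z = ∫ q, pd i ρ (z - q) * W i q := fun i => by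
        rw [show pd i f = ρ ⋆[lsmul ℝ ℝ, volume] W i from funext (hfd i)]
        have h := hρc.hasFDerivAt_convolution_left (μ := volume) (lsmul ℝ ℝ)
          (hρ.of_le (WithTop.coe_le_coe.2 le_top)) (hW i) z
        rw [pd, h.fderiv, convolution_eq_swap, ContinuousLinearMap.integral_apply]
        · refine integral_congr_ae (Eventually.of_forall fun q => ?_)
          simp [pd]
        · exact ((hρc.fderiv (𝕜 := ℝ)).convolutionExists_left _ (hρ.continuous_fderiv (by simp)) (hW i) z).integrable_swap
      obtain ⟨ψ, eψ⟩ : ∃ ψ : EuclideanSpace ℝ (Fin d) → ℝ, ψ = fun q => ρ (z - q) := ⟨_, rfl⟩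
      have hψ : ContDiff ℝ ∞ ψ := eψ ▸ hρ.comp (contDiff_const.sub contDiff_id)
      obtain ⟨R, hR⟩ := hρc.isBounded.subset_closedBall 0
      have hψc : HasCompactSupport ψ := HasCompactSupport.intro (isCompact_closedBall z R) fun q hq => by
        rw [eψ]
        refine image_eq_zero_of_notMem_tsupport fun hm => hq ?_
        have := hR hm
        rw [mem_closedBall_zero_iff] at this
        rwa [mem_closedBall, dist_comm, dist_eq_norm]
      have hpd : ∀ i q, pd i ψ q = -pd i ρ (z - q) := fun i q => by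
        have h := ((hρ.differentiable (by simp) (z - q)).hasFDerivAt).comp q ((hasFDerivAt_id q).const_sub z)
        rw [eψ, pd, show (fun q => ρ (z - q)) = ρ ∘ (fun q => z - q) from rfl, h.fderiv]
        simp [pd]
      have h0 := hweak ψ hψ hψc
      simp only [hpd, mul_neg, Finset.sum_neg_distrib, integral_neg, neg_eq_zero] at h0
      rw [Finset.sum_congr rfl fun i _ => hd i, ← integral_finsetSum]
      · simpa [mul_comm] using h0
      · intro i _
        have hcp : Continuous fun q => pd i ρ (z - q) :=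
          (contDiff_pd (m := ∞) hρ le_rfl).continuous.comp (continuous_const.sub continuous_id)
        refine ((hW i).integrableOn_isCompact (isCompact_closedBall z R)).mul_continuousOn hcp.continuousOn
          (isCompact_closedBall z R) |>.integrable_of_forall_notMem_eq_zero (fun q hq => ?_) |>.congr ?_
        · have : z - q ∉ tsupport ρ := fun hm => hq (by
            have := hR hm
            rw [mem_closedBall_zero_iff] at this
            rwa [mem_closedBall, dist_comm, dist_eq_norm])
          simp [pd, fderiv_of_notMem_tsupport ℝ this]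
        · exact Eventually.of_forall fun q => by simp [mul_comm]
    have hgrow : ∀ z, |pd j f z| ≤ 2 * C * (1 + ‖z‖ ^ a) := by
      intro z
      rw [hfd j z, convolution_def]
      have hint : Integrable fun t => 2 * C * (1 + ‖z‖ ^ a) * ρ t :=
        (hρ.continuous.integrable_of_hasCompactSupport hρc).const_mul _
      refine (norm_integral_le_of_norm_le (f := fun t => lsmul ℝ ℝ (ρ t) (W j (z - t))) hint
        (Eventually.of_forall fun t => ?_)).trans_eq (by rw [integral_const_mul, hρ1, mul_one])
      rw [lsmul_apply, norm_smul, Real.norm_of_nonneg (hρ0 t), Real.norm_eq_abs, mul_comm (2 * C * _)]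
      rcases eq_or_ne (ρ t) 0 with h0 | h0
      · simp [h0]
      refine mul_le_mul_of_nonneg_left ((hb j _).trans ?_) (hρ0 t)
      have h1 : ‖z - t‖ ^ a ≤ ‖z‖ ^ a + 1 :=
        (Real.rpow_le_rpow (norm_nonneg _) (by linarith [norm_sub_le z t, hρs t h0]) ha0).trans
          (rpow_add_one_le ha0 ha.le (norm_nonneg _))
      nlinarith [Real.rpow_nonneg (norm_nonneg z) a]
    have hL := liouville (contDiff_pd (m := ∞) hf le_rfl : ContDiff ℝ ∞ (pd j f))
      (harmonic_pd hf hl j) ha0 ha hgrow
    rw [← hfd, ← hfd, hL x, hL y]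
  have hcv : ∀ z, ContinuousAt (W j) z →
      Tendsto (fun m => ((φ m).normed volume ⋆[lsmul ℝ ℝ, volume] W j) z) atTop (𝓝 (W j z)) := fun z hz =>
    ContDiffBump.convolution_tendsto_right hlim (Eventually.of_forall fun _ => hWm j)
      (hz.tendsto.comp tendsto_snd) tendsto_const_nhds
  exact tendsto_nhds_unique (hcv x hx) ((hcv y hy).congr fun m => (key m).symm)

end Vale.Agent.P098.Reg.High
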