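import Vale.Agent.P098.Strip
import Vale.Agent.P098.Reg.High.Weak

/-! Weak equations on half spaces: tangential test, natural condition, change of variables. -/

noncomputable section

namespace Vale.Agent.P098.Reg.High

open MeasureTheory Set Filter Topology Metric
open scoped ContDiff

variable {n : ℕ}

/-- The closed half space. -/
def Hc (n : ℕ) (h : ℝ) : Set (EuclideanSpace ℝ (Fin (n + 1))) := {x | -h ≤ x (Fin.last n)}

/-- The open half space. -/
def Ho (n : ℕ) (h : ℝ) : Set (EuclideanSpace ℝ (Fin (n + 1))) := {x | -h < x (Fin.last n)}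

theorem continuous_last : Continuous fun x : EuclideanSpace ℝ (Fin (n + 1)) => x (Fin.last n) :=
  (EuclideanSpace.proj (𝕜 := ℝ) (ι := Fin (n + 1)) (Fin.last n)).continuous

theorem isClosed_Hc (h : ℝ) : IsClosed (Hc n h) := isClosed_le continuous_const continuous_last

theorem isOpen_Ho (h : ℝ) : IsOpen (Ho n h) := isOpen_lt continuous_const continuous_last

theorem Ho_subset_Hc (h : ℝ) : Ho n h ⊆ Hc n h := fun x (hx : -h < _) => le_of_lt hx

theorem convex_Hc (h : ℝ) : Convex ℝ (Hc n h) :=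
  convex_halfSpace_ge ((EuclideanSpace.proj (𝕜 := ℝ) (ι := Fin (n + 1)) (Fin.last n)).toLinearMap.isLinear) (-h)

/-- `W` is weakly divergence free up to the source `g`, with natural condition on the flat side. -/
def Flux (h : ℝ) (W : EuclideanSpace ℝ (Fin (n + 1)) → EuclideanSpace ℝ (Fin (n + 1)))
    (g : EuclideanSpace ℝ (Fin (n + 1)) → ℝ) : Prop :=
  ∀ φ : EuclideanSpace ℝ (Fin (n + 1)) → ℝ, ContDiff ℝ ∞ φ → HasCompactSupport φ →
    ∫ x in Ho n h, (fderiv ℝ φ x (W x) + g x * φ x) = 0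

theorem integrableOn_Ho {h : ℝ} {f : EuclideanSpace ℝ (Fin (n + 1)) → ℝ}
    (hf : ContinuousOn f (Hc n h)) {K : Set (EuclideanSpace ℝ (Fin (n + 1)))} (hK : IsCompact K)
    (h0 : ∀ x ∈ Hc n h, x ∉ K → f x = 0) : IntegrableOn f (Ho n h) := by
  have h1 : IntegrableOn f (K ∩ Hc n h) :=
    (hf.mono inter_subset_right).integrableOn_compact (hK.inter_right (isClosed_Hc h))
  refine (h1.mono_set (s := Ho n h ∩ K) (fun x hx => ⟨hx.2, Ho_subset_Hc h hx.1⟩)).of_forall_sdiff_eq_zero
    (isOpen_Ho h).measurableSet fun x hx => ?_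
  exact h0 x (Ho_subset_Hc h hx.1) fun hxK => hx.2 ⟨hx.1, hxK⟩

theorem continuousOn_fderiv_apply {h : ℝ} {φ : EuclideanSpace ℝ (Fin (n + 1)) → ℝ} (hφ : ContDiff ℝ ∞ φ)
    {W : EuclideanSpace ℝ (Fin (n + 1)) → EuclideanSpace ℝ (Fin (n + 1))} (hW : ContinuousOn W (Hc n h)) :
    ContinuousOn (fun x => fderiv ℝ φ x (W x)) (Hc n h) :=
  ((hφ.continuous_fderiv (by simp)).continuousOn).clm_apply hW

theorem pd_last_step {e : ℝ} (j : Fin (n + 1)) (hj : j ≠ Fin.last n) (x : EuclideanSpace ℝ (Fin (n + 1))) :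
    pd j (fun y => step (y (Fin.last n) / e)) x = 0 := by
  have hd : DifferentiableAt ℝ (fun y : EuclideanSpace ℝ (Fin (n + 1)) => y (Fin.last n) * e⁻¹) x :=
    ((EuclideanSpace.proj (𝕜 := ℝ) (ι := Fin (n + 1)) (Fin.last n)).differentiableAt).mul_const _
  simp only [div_eq_mul_inv]
  rw [pd_comp ((step_contDiff (n := 1)).differentiable one_ne_zero _) hd,
    show pd j (fun y : EuclideanSpace ℝ (Fin (n + 1)) => y (Fin.last n) * e⁻¹) x = 0 from ?_, mul_zero]
  have hl : DifferentiableAt ℝ (fun y : EuclideanSpace ℝ (Fin (n + 1)) => y (Fin.last n)) x :=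
    (EuclideanSpace.proj (𝕜 := ℝ) (ι := Fin (n + 1)) (Fin.last n)).differentiableAt
  rw [pd_mul hl (differentiableAt_const _), pd_const, pd_apply, if_neg (Ne.symm hj)]
  simp

/-- Tangential derivatives of test functions integrate to zero over the half space. -/
theorem integral_Ho_tangential {φ : EuclideanSpace ℝ (Fin (n + 1)) → ℝ} (hφ : ContDiff ℝ ∞ φ)
    (hs : HasCompactSupport φ) {j : Fin (n + 1)} (hj : j ≠ Fin.last n) :
    ∫ x in Ho n 0, pd j φ x = 0 := by
  have hφ1 : ContDiff ℝ 1 φ := hφ.of_le (WithTop.coe_le_coe.2 le_top)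
  obtain ⟨c, ec⟩ : ∃ c : ℕ → EuclideanSpace ℝ (Fin (n + 1)) → ℝ,
      c = fun (m : ℕ) (x : EuclideanSpace ℝ (Fin (n + 1))) => step (x (Fin.last n) / (1 / ((m : ℝ) + 1))) :=
    ⟨_, rfl⟩
  have hc : ∀ m, ContDiff ℝ 1 (c m) := fun m => ec ▸ (step_contDiff (n := 1)).comp
    (((EuclideanSpace.proj (𝕜 := ℝ) (ι := Fin (n + 1)) (Fin.last n)).contDiff).div_const _)
  have hzero : ∀ m, ∫ x, c m x * pd j φ x = 0 := fun m => by
    rw [← integral_pd_eq_zero (i := j) ((hc m).mul hφ1) hs.mul_left]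
    refine integral_congr_ae (Eventually.of_forall fun x => ?_)
    simp only
    rw [pd_mul ((hc m).differentiable one_ne_zero x) (hφ1.differentiable one_ne_zero x),
      show pd j (c m) x = 0 from ec ▸ pd_last_step j hj x, zero_mul, add_zero]
  have hpc : Continuous (pd j φ) := (contDiff_pd (m := ∞) hφ le_rfl).continuous
  rw [← integral_indicator (isOpen_Ho 0).measurableSet]
  have hlim : Tendsto (fun m => ∫ x, c m x * pd j φ x) atTop
      (𝓝 (∫ x, (Ho n 0).indicator (pd j φ) x)) := by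
    refine tendsto_integral_of_dominated_convergence (fun x => |pd j φ x|)
      (fun m => ((hc m).continuous.mul hpc).aestronglyMeasurable)
      (hpc.abs.integrable_of_hasCompactSupport ((hasCompactSupport_pd (i := j) hs).comp_left (g := fun t : ℝ => |t|) abs_zero))
      (fun m => Eventually.of_forall fun x => ?_) (Eventually.of_forall fun x => ?_)
    · rw [Real.norm_eq_abs, abs_mul]
      exact mul_le_of_le_one_left (abs_nonneg _) (by
        rw [ec, abs_of_nonneg (step_mem _).1]; exact (step_mem _).2)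
    · by_cases hx : x ∈ Ho n 0
      · rw [indicator_of_mem hx]
        have hpos : (0 : ℝ) < x (Fin.last n) := by simpa [Ho] using hx
        refine tendsto_const_nhds.congr' ?_
        filter_upwards [(tendsto_one_div_add_atTop_nhds_zero_nat (𝕜 := ℝ)).eventually (gt_mem_nhds hpos)]
          with m hm
        rw [ec]
        simp only
        rw [step_one (by rw [le_div_iff₀ (by positivity), one_mul]; exact hm.le), one_mul]
      · rw [indicator_of_notMem hx]
        have hle : x (Fin.last n) ≤ 0 := by simpa [Ho] using hx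
        refine tendsto_const_nhds.congr' (Eventually.of_forall fun m => ?_)
        rw [ec]
        simp only
        rw [step_zero ((div_nonpos_of_nonpos_of_nonneg hle (by positivity)).trans (by norm_num)), zero_mul]
  exact tendsto_nhds_unique (hlim.congr hzero) tendsto_const_nhds

theorem integral_Ho_fderiv_const {φ : EuclideanSpace ℝ (Fin (n + 1)) → ℝ} (hφ : ContDiff ℝ ∞ φ)
    (hs : HasCompactSupport φ) (c : EuclideanSpace ℝ (Fin (n + 1))) :
    ∫ x in Ho n 0, fderiv ℝ φ x c = c (Fin.last n) * ∫ x in Ho n 0, pd (Fin.last n) φ x := by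
  have hi : ∀ i, Integrable (fun x => c i * pd i φ x) (volume.restrict (Ho n 0)) := fun i =>
    (((contDiff_pd (m := ∞) hφ le_rfl).continuous).integrable_of_hasCompactSupport
      (hasCompactSupport_pd hs)).integrableOn.const_mul _
  rw [integral_congr_ae (Eventually.of_forall fun x => fderiv_eq_sum_pd φ x c), integral_finsetSum _ fun i _ => hi i,
    Finset.sum_eq_single (Fin.last n) (fun i _ hi' => by rw [integral_const_mul, integral_Ho_tangential hφ hs hi', mul_zero])
    (fun h => absurd (Finset.mem_univ _) h), integral_const_mul]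

/-- Change of variables between half spaces. -/
theorem integral_Ho_comp (f : EuclideanSpace ℝ (Fin (n + 1)) → ℝ) (b : EuclideanSpace ℝ (Fin (n + 1)))
    {ρ : ℝ} (hρ : 0 < ρ) :
    ∫ y in Ho n (b (Fin.last n) / ρ), f (b + ρ • y) = (ρ ^ (n + 1))⁻¹ * ∫ x in Ho n 0, f x := by
  rw [← integral_indicator (isOpen_Ho _).measurableSet, ← integral_indicator (isOpen_Ho 0).measurableSet]
  have e : (Ho n (b (Fin.last n) / ρ)).indicator (fun y => f (b + ρ • y))
      = fun y => (fun x => (Ho n 0).indicator f (b + x)) (ρ • y) := by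
    funext y
    have hiff : y ∈ Ho n (b (Fin.last n) / ρ) ↔ b + ρ • y ∈ Ho n 0 := by
      simp only [Ho, mem_ofPred_eq, PiLp.add_apply, PiLp.smul_apply, smul_eq_mul, neg_zero]
      rw [← neg_div, div_lt_iff₀ hρ]
      constructor <;> intro h <;> nlinarith
    by_cases hy : y ∈ Ho n (b (Fin.last n) / ρ)
    · simp [indicator_of_mem hy, indicator_of_mem (hiff.1 hy)]
    · simp [indicator_of_notMem hy, indicator_of_notMem (mt hiff.2 hy)]
  rw [e]
  simp only
  rw [Measure.integral_comp_smul_of_nonneg volume (fun x => (Ho n 0).indicator f (b + x)) ρ (hR := hρ.le),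
    finrank_euclideanSpace_fin, integral_add_left_eq_self, smul_eq_mul]

theorem fderiv_comp_affine (φ : EuclideanSpace ℝ (Fin (n + 1)) → ℝ) (hφ : ContDiff ℝ ∞ φ)
    (b x v : EuclideanSpace ℝ (Fin (n + 1))) (ρ : ℝ) :
    fderiv ℝ (fun q => φ (ρ⁻¹ • (q - b))) x v = ρ⁻¹ * fderiv ℝ φ (ρ⁻¹ • (x - b)) v := by
  have h1 : HasFDerivAt (fun q => ρ⁻¹ • (q - b))
      (ρ⁻¹ • ContinuousLinearMap.id ℝ (EuclideanSpace ℝ (Fin (n + 1)))) x :=
    ((hasFDerivAt_id (𝕜 := ℝ) x).sub_const b).const_smul ρ⁻¹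
  have h := ((hφ.differentiable (by simp) (ρ⁻¹ • (x - b))).hasFDerivAt).comp x h1
  rw [show (fun q => φ (ρ⁻¹ • (q - b))) = φ ∘ (fun q => ρ⁻¹ • (q - b)) from rfl, h.fderiv]
  simp

/-- Rescaling of a weak equation. -/
theorem flux_rescale {W : EuclideanSpace ℝ (Fin (n + 1)) → EuclideanSpace ℝ (Fin (n + 1))}
    {g : EuclideanSpace ℝ (Fin (n + 1)) → ℝ} (h : Flux 0 W g) (b : EuclideanSpace ℝ (Fin (n + 1)))
    {ρ : ℝ} (hρ : 0 < ρ) (s : ℝ) :
    Flux (b (Fin.last n) / ρ) (fun y => s • W (b + ρ • y)) (fun y => s * ρ * g (b + ρ • y)) := by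
  intro φ hφ hs
  obtain ⟨ψ, eψ⟩ : ∃ ψ : EuclideanSpace ℝ (Fin (n + 1)) → ℝ, ψ = fun q => φ (ρ⁻¹ • (q - b)) := ⟨_, rfl⟩
  have hψ : ContDiff ℝ ∞ ψ := eψ ▸ hφ.comp ((contDiff_id.sub contDiff_const).const_smul ρ⁻¹)
  have hψs : HasCompactSupport ψ := by
    refine HasCompactSupport.intro (hs.image (f := fun y => b + ρ • y) (by fun_prop)) fun q hq => ?_
    rw [eψ]
    refine image_eq_zero_of_notMem_tsupport fun hm => hq ⟨_, hm, ?_⟩
    simp [smul_smul, mul_inv_cancel₀ hρ.ne']
  have h0 := h ψ hψ hψs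
  have h1 := integral_Ho_comp (fun x => fderiv ℝ ψ x (W x) + g x * ψ x) b hρ
  rw [h0, mul_zero] at h1
  have e : ∀ y, fderiv ℝ φ y (s • W (b + ρ • y)) + s * ρ * g (b + ρ • y) * φ y
      = s * ρ * (fderiv ℝ ψ (b + ρ • y) (W (b + ρ • y)) + g (b + ρ • y) * ψ (b + ρ • y)) := fun y => by
    rw [eψ, fderiv_comp_affine φ hφ]
    simp only [add_sub_cancel_left, smul_smul, inv_mul_cancel₀ hρ.ne', one_smul, map_smul, smul_eq_mul]
    field_simp
  rw [integral_congr_ae (Eventually.of_forall e), integral_const_mul, h1, mul_zero]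

/-- The radial profile used to read off the natural condition. -/
def bumpN (n : ℕ) (x : EuclideanSpace ℝ (Fin (n + 1))) : ℝ := step (2 - ‖x‖ ^ 2)

theorem contDiff_bumpN : ContDiff ℝ ∞ (bumpN n) :=
  (step_contDiff (n := ⊤)).comp (contDiff_const.sub (contDiff_norm_sq ℝ))

theorem hasCompactSupport_bumpN : HasCompactSupport (bumpN n) :=
  HasCompactSupport.intro (isCompact_closedBall 0 2) fun x hx => by
    rw [mem_closedBall_zero_iff, not_le] at hx
    exact step_zero (by nlinarith)

theorem pd_bumpN (x : EuclideanSpace ℝ (Fin (n + 1))) :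
    pd (Fin.last n) (bumpN n) x = deriv step (2 - ‖x‖ ^ 2) * (-2 * x (Fin.last n)) := by
  have hd : DifferentiableAt ℝ (fun y : EuclideanSpace ℝ (Fin (n + 1)) => 2 - ‖y‖ ^ 2) x :=
    ((contDiff_const.sub (contDiff_norm_sq ℝ)).differentiable (n := 1) one_ne_zero) x
  unfold bumpN
  rw [pd_comp ((step_contDiff (n := 1)).differentiable one_ne_zero _) hd]
  congr 1
  have h := (hasStrictFDerivAt_norm_sq x).hasFDerivAt.const_sub 2
  rw [pd, h.fderiv]
  simp [EuclideanSpace.inner_single_right]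

theorem integral_pd_bumpN_ne (n : ℕ) : ∫ x in Ho n 0, pd (Fin.last n) (bumpN n) x ≠ 0 := by
  have hc : Continuous (pd (Fin.last n) (bumpN n)) := (contDiff_pd (m := ∞) contDiff_bumpN le_rfl).continuous
  have hi : IntegrableOn (fun x => -pd (Fin.last n) (bumpN n) x) (Ho n 0) :=
    (hc.integrable_of_hasCompactSupport (hasCompactSupport_pd hasCompactSupport_bumpN)).neg.integrableOn
  have hnn : ∀ x ∈ Ho n 0, 0 ≤ -pd (Fin.last n) (bumpN n) x := fun x hx => by
    have h0 : (0 : ℝ) < x (Fin.last n) := by simpa [Ho] using hx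
    rw [pd_bumpN]
    nlinarith [deriv_step_nonneg (2 - ‖x‖ ^ 2)]
  obtain ⟨c, hc01, hcd⟩ := exists_deriv_eq_slope step zero_lt_one (step_contDiff (n := 1)).continuous.continuousOn
    ((step_contDiff (n := 1)).differentiable one_ne_zero).differentiableOn
  rw [step_one le_rfl, step_zero (by norm_num)] at hcd
  obtain ⟨x, ex⟩ : ∃ x : EuclideanSpace ℝ (Fin (n + 1)), x = EuclideanSpace.single (Fin.last n) (Real.sqrt (2 - c)) :=
    ⟨_, rfl⟩
  have hs : 0 < Real.sqrt (2 - c) := Real.sqrt_pos.2 (by linarith [hc01.2])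
  have hx : x ∈ Ho n 0 := by simp [Ho, ex, hs]
  have hne : -pd (Fin.last n) (bumpN n) x ≠ 0 := by
    rw [pd_bumpN, ex, PiLp.norm_single, Real.norm_of_nonneg hs.le, Real.sq_sqrt (by linarith [hc01.2]),
      sub_sub_cancel, hcd]
    simp [hs.ne']
  have hpos : 0 < ∫ x in Ho n 0, -pd (Fin.last n) (bumpN n) x := by
    rw [setIntegral_pos_iff_support_of_nonneg_ae
      ((ae_restrict_iff' (isOpen_Ho 0).measurableSet).2 (Eventually.of_forall hnn)) hi]
    refine lt_of_lt_of_le (((hc.neg.isOpen_preimage _ isOpen_compl_singleton).inter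
      (isOpen_Ho 0)).measure_pos volume ⟨x, hne, hx⟩) (measure_mono fun y hy => hy)
  rw [integral_neg] at hpos
  intro h
  linarith

/-- The natural condition: the normal flux vanishes on the flat side. -/
theorem natural {W : EuclideanSpace ℝ (Fin (n + 1)) → EuclideanSpace ℝ (Fin (n + 1))}
    {g : EuclideanSpace ℝ (Fin (n + 1)) → ℝ} (hW : ContinuousOn W (Hc n 0)) (hg : ContinuousOn g (Hc n 0))
    (h : Flux 0 W g) {z : EuclideanSpace ℝ (Fin (n + 1))} (hz : z (Fin.last n) = 0) :
    W z (Fin.last n) = 0 := by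
  obtain ⟨e, he⟩ : ∃ e : ℕ → ℝ, e = fun (m : ℕ) => 1 / ((m : ℝ) + 1) := ⟨_, rfl⟩
  have hep : ∀ m, 0 < e m := fun m => by rw [he]; positivity
  have he1 : ∀ m, e m ≤ 1 := fun m => by
    rw [he]; simp only
    rw [div_le_one (by positivity)]
    linarith [show (0 : ℝ) ≤ m from Nat.cast_nonneg m]
  have he0 : Tendsto e atTop (𝓝 0) := he ▸ tendsto_one_div_add_atTop_nhds_zero_nat
  have hmem : ∀ {m : ℕ} {y : EuclideanSpace ℝ (Fin (n + 1))}, y ∈ Hc n 0 → z + e m • y ∈ Hc n 0 := by
    intro m y hy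
    simp only [Hc, mem_ofPred_eq, neg_zero, PiLp.add_apply, PiLp.smul_apply, smul_eq_mul, hz, zero_add] at hy ⊢
    exact mul_nonneg (hep m).le hy
  have hzH : z ∈ Hc n 0 := by simp [Hc, hz]
  obtain ⟨F, eF⟩ : ∃ F : ℕ → EuclideanSpace ℝ (Fin (n + 1)) → ℝ, F = fun m y =>
      fderiv ℝ (bumpN n) y (W (z + e m • y)) + 1 * e m * g (z + e m • y) * bumpN n y := ⟨_, rfl⟩
  have h0 : ∀ m, ∫ y in Ho n 0, F m y = 0 := fun m => by
    have := flux_rescale h z (hep m) 1 (bumpN n) contDiff_bumpN hasCompactSupport_bumpN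
    simpa [hz, eF] using this
  have hb : ∀ y, ‖y‖ ≤ 2 → ∀ m, z + e m • y ∈ closedBall z 2 := fun y hy m => by
    rw [mem_closedBall, dist_eq_norm, add_sub_cancel_left, norm_smul, Real.norm_of_nonneg (hep m).le]
    exact (mul_le_of_le_one_left (norm_nonneg y) (he1 m)).trans hy
  obtain ⟨A, hA⟩ := ((isCompact_closedBall z 2).inter_right (isClosed_Hc (n := n) 0)).exists_bound_of_continuousOn
    (hW.mono inter_subset_right)
  obtain ⟨B, hB⟩ := ((isCompact_closedBall z 2).inter_right (isClosed_Hc (n := n) 0)).exists_bound_of_continuousOn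
    (hg.mono inter_subset_right)
  have hAz : 0 ≤ A := (norm_nonneg _).trans (hA z ⟨mem_closedBall_self zero_le_two, hzH⟩)
  have hBz : 0 ≤ B := (norm_nonneg _).trans (hB z ⟨mem_closedBall_self zero_le_two, hzH⟩)
  have hcw : ∀ m, ContinuousOn (fun y => W (z + e m • y)) (Hc n 0) := fun m =>
    hW.comp (by fun_prop) fun y hy => hmem hy
  have hlim : Tendsto (fun m => ∫ y in Ho n 0, F m y) atTop
      (𝓝 (∫ y in Ho n 0, fderiv ℝ (bumpN n) y (W z))) := by
    refine tendsto_integral_of_dominated_convergence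
      (fun y => ‖fderiv ℝ (bumpN n) y‖ * A + B * |bumpN n y|) (fun m => ?_) ?_ (fun m => ?_) ?_
    · refine ((ContinuousOn.mono ?_ (Ho_subset_Hc 0)).aestronglyMeasurable (isOpen_Ho 0).measurableSet)
      rw [eF]
      exact (continuousOn_fderiv_apply contDiff_bumpN (hcw m)).add
        ((continuousOn_const.mul (hg.comp (by fun_prop) fun y hy => hmem hy)).mul contDiff_bumpN.continuous.continuousOn)
    · refine Integrable.integrableOn (Integrable.add ?_ ?_)
      · exact (((contDiff_bumpN).continuous_fderiv (by simp)).norm.mul continuous_const).integrable_of_hasCompactSupport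
          ((hasCompactSupport_bumpN.fderiv ℝ).norm.mul_right)
      · exact (continuous_const.mul contDiff_bumpN.continuous.abs).integrable_of_hasCompactSupport
          ((hasCompactSupport_bumpN.comp_left (g := fun t : ℝ => |t|) abs_zero).mul_left)
    · refine (ae_restrict_iff' (isOpen_Ho 0).measurableSet).2 (Eventually.of_forall fun y hy => ?_)
      rw [eF]
      by_cases hy2 : ‖y‖ ≤ 2
      · have hin : z + e m • y ∈ closedBall z 2 ∩ Hc n 0 := ⟨hb y hy2 m, hmem (Ho_subset_Hc 0 hy)⟩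
        refine (norm_add_le _ _).trans (add_le_add ?_ ?_)
        · exact ((fderiv ℝ (bumpN n) y).le_opNorm _).trans (mul_le_mul_of_nonneg_left (hA _ hin) (norm_nonneg _))
        · rw [one_mul, norm_mul, norm_mul, Real.norm_of_nonneg (hep m).le, Real.norm_eq_abs (bumpN n y)]
          refine mul_le_mul_of_nonneg_right ?_ (abs_nonneg _)
          exact (mul_le_of_le_one_left (norm_nonneg _) (he1 m)).trans (hB _ hin)
      · have h1 : y ∉ tsupport (bumpN n) := fun hm => hy2 (by
          have hsub : tsupport (bumpN n) ⊆ closedBall 0 2 := closure_minimal (fun q hq => by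
            by_contra hq2
            rw [mem_closedBall_zero_iff, not_le] at hq2
            exact hq (step_zero (by nlinarith))) isClosed_closedBall
          exact mem_closedBall_zero_iff.1 (hsub hm))
        simp [fderiv_of_notMem_tsupport ℝ h1, image_eq_zero_of_notMem_tsupport h1]
    · refine (ae_restrict_iff' (isOpen_Ho 0).measurableSet).2 (Eventually.of_forall fun y hy => ?_)
      have ht : Tendsto (fun m => z + e m • y) atTop (𝓝[Hc n 0] z) :=
        tendsto_nhdsWithin_iff.2 ⟨by simpa using (he0.smul_const y).const_add z,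
          Eventually.of_forall fun m => hmem (Ho_subset_Hc 0 hy)⟩
      rw [eF]
      simpa using ((((fderiv ℝ (bumpN n) y).continuous.tendsto _).comp ((hW z hzH).tendsto.comp ht))).add
        (((he0.const_mul (1 : ℝ)).mul ((hg z hzH).tendsto.comp ht)).mul_const (bumpN n y))
  have h2 := tendsto_nhds_unique (hlim.congr h0) tendsto_const_nhds
  rw [integral_Ho_fderiv_const contDiff_bumpN hasCompactSupport_bumpN] at h2
  exact (mul_eq_zero.1 h2).resolve_right (integral_pd_bumpN_ne n)

end Vale.Agent.P098.Reg.High
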