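import Vale.Agent.P098.Reg.High.FreeGrad
import Vale.Agent.P098.Reg.High.Glue
import Vale.Agent.P098.Reg.High.Iface

/-!
The hodograph transform at a free boundary point in normal form: the last coordinate as a function
of the other coordinates and of the value, and the equation it solves up to the flat side.
-/

noncomputable section

namespace Vale.Agent.P098.Reg.High

open MeasureTheory Set Filter Topology Metric
open scoped ContDiff InnerProductSpace NNReal

variable {n : ℕ}

/-- The last coordinate vector. -/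
def eL (n : ℕ) : Pt (n + 1) := EuclideanSpace.single (Fin.last n) 1

@[simp] theorem eL_last : eL n (Fin.last n) = 1 := by simp [eL]

theorem norm_eL : ‖eL n‖ = 1 := by simp [eL]

theorem inner_eL (y : Pt (n + 1)) : ⟪eL n, y⟫_ℝ = y (Fin.last n) := by
  simp [eL, EuclideanSpace.inner_single_left]

theorem eL_castSucc (i : Fin n) : eL n i.castSucc = 0 := by
  simp [eL, Fin.castSucc_ne_last]

/-- Same first coordinates, last coordinate `τ`. -/
def lift (y : Pt (n + 1)) (τ : ℝ) : Pt (n + 1) := y + (τ - y (Fin.last n)) • eL n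

@[simp] theorem lift_last (y : Pt (n + 1)) (τ : ℝ) : lift y τ (Fin.last n) = τ := by simp [lift]

theorem lift_lift (y : Pt (n + 1)) (a b : ℝ) : lift (lift y a) b = lift y b := by
  simp only [lift, PiLp.add_apply, PiLp.smul_apply, smul_eq_mul, eL_last]
  module

theorem lift_eq_add (y : Pt (n + 1)) (a b : ℝ) : lift y b = lift y a + (b - a) • eL n := by
  simp only [lift]; module

theorem lift_self (y : Pt (n + 1)) : lift y (y (Fin.last n)) = y := by simp [lift]

theorem norm_lift_le (y : Pt (n + 1)) (τ : ℝ) : ‖lift y τ‖ ≤ 2 * ‖y‖ + |τ| := by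
  refine (norm_add_le _ _).trans ?_
  rw [norm_smul, norm_eL, mul_one, Real.norm_eq_abs]
  have h : |y (Fin.last n)| ≤ ‖y‖ := by simpa using PiLp.norm_apply_le y (Fin.last n)
  linarith [abs_sub τ (y (Fin.last n))]

/-- The inverse gradient: `(-p'/p_n, 1/p_n)`. -/
def flipV (p : Pt (n + 1)) : Pt (n + 1) := (p (Fin.last n))⁻¹ • (eL n - p) + eL n

theorem flipV_last {p : Pt (n + 1)} (hp : p (Fin.last n) ≠ 0) :
    flipV p (Fin.last n) = (p (Fin.last n))⁻¹ := by
  simp [flipV]; field_simp; ring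

theorem flipV_castSucc (p : Pt (n + 1)) (i : Fin n) :
    flipV p i.castSucc = -p i.castSucc / p (Fin.last n) := by
  simp [flipV, eL_castSucc, div_eq_inv_mul]

theorem flipV_flipV {p : Pt (n + 1)} (hp : p (Fin.last n) ≠ 0) : flipV (flipV p) = p := by
  rw [flipV, flipV_last hp, inv_inv, flipV]
  rw [sub_add_cancel_right, smul_neg, smul_smul, mul_inv_cancel₀ hp, one_smul]
  abel

theorem flipV_eL : flipV (eL n) = eL n := by simp [flipV]

/-- `w ↦ w + (⟪p, w⟫ - w_n) eL`. -/
def shear (p : Pt (n + 1)) : Pt (n + 1) →L[ℝ] Pt (n + 1) :=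
  ContinuousLinearMap.id ℝ _ + (innerSL ℝ (p - eL n)).smulRight (eL n)

theorem shear_apply (p w : Pt (n + 1)) :
    shear p w = w + (⟪p, w⟫_ℝ - w (Fin.last n)) • eL n := by
  simp [shear, inner_eL, inner_sub_left]

theorem shear_flip {p : Pt (n + 1)} (hp : p (Fin.last n) ≠ 0) (w : Pt (n + 1)) :
    shear p (shear (flipV p) w) = w := by
  have hpe : ⟪p, eL n⟫_ℝ = p (Fin.last n) := by rw [real_inner_comm, inner_eL]
  set c := ⟪flipV p, w⟫_ℝ - w (Fin.last n) with hc
  have hc' : c * p (Fin.last n) = w (Fin.last n) - ⟪p, w⟫_ℝ := by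
    rw [hc, flipV, inner_add_left, inner_eL, real_inner_smul_left, inner_sub_left, inner_eL]
    field_simp
    ring
  rw [shear_apply (flipV p), ← hc, shear_apply]
  simp only [PiLp.add_apply, PiLp.smul_apply, smul_eq_mul, eL_last, inner_add_right,
    inner_smul_right, hpe, mul_one]
  rw [show ⟪p, w⟫_ℝ + c * p (Fin.last n) - (w (Fin.last n) + c) = -c by linarith]
  module

/-- The shear as an equivalence. -/
def shearEquiv (p : Pt (n + 1)) (hp : p (Fin.last n) ≠ 0) : Pt (n + 1) ≃L[ℝ] Pt (n + 1) :=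
  ContinuousLinearEquiv.equivOfInverse (shear p) (shear (flipV p))
    (fun w => by
      have hq : flipV p (Fin.last n) ≠ 0 := by rw [flipV_last hp]; exact inv_ne_zero hp
      have := shear_flip hq w
      rwa [flipV_flipV hp] at this)
    (shear_flip hp)

theorem shearEquiv_coe (p : Pt (n + 1)) (hp : p (Fin.last n) ≠ 0) :
    (shearEquiv p hp : Pt (n + 1) →L[ℝ] Pt (n + 1)) = shear p := rfl

theorem shearEquiv_symm_coe (p : Pt (n + 1)) (hp : p (Fin.last n) ≠ 0) :
    ((shearEquiv p hp).symm : Pt (n + 1) →L[ℝ] Pt (n + 1)) = shear (flipV p) := rfl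

/-- The hodograph map. -/
def psi (v : Pt (n + 1) → ℝ) (x : Pt (n + 1)) : Pt (n + 1) := lift x (v x)

/-- The inverse hodograph function: the highest point of the column with value at most `y_n`. -/
def gf (v : Pt (n + 1) → ℝ) (ρ : ℝ) (y : Pt (n + 1)) : ℝ :=
  sSup {τ ∈ Icc (-ρ) ρ | v (lift y τ) ≤ y (Fin.last n)}

/-- The point above `y`. -/
def hf (v : Pt (n + 1) → ℝ) (ρ : ℝ) (y : Pt (n + 1)) : Pt (n + 1) := lift y (gf v ρ y)

/-- Smallness of the radius. -/
structure Small (C α r ρ : ℝ) : Prop where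
  pos : 0 < ρ
  le_r : 4 * ρ ≤ r
  small : C * (4 * ρ) ^ α ≤ 1 / 16

theorem exists_small {C α r : ℝ} (hα : 0 < α) (hr : 0 < r) : ∃ ρ, Small C α r ρ := by
  have h : Tendsto (fun ρ : ℝ => C * (4 * ρ) ^ α) (𝓝[>] 0) (𝓝 0) := by
    have h4 : Tendsto (fun ρ : ℝ => 4 * ρ) (𝓝 0) (𝓝 0) := by
      simpa using (tendsto_id (x := 𝓝 (0 : ℝ))).const_mul 4
    have := ((h4.rpow_const (Or.inr hα.le)).const_mul C).mono_left
      (nhdsWithin_le_nhds (s := Ioi (0 : ℝ)))
    simpa [Real.zero_rpow hα.ne'] using this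
  obtain ⟨ρ, h1, h2, h3⟩ := (eventually_mem_nhdsWithin.and ((h.eventually (ge_mem_nhds (show (0 : ℝ) < 1 / 16 by
    norm_num))).and ((eventually_le_nhds (show (0 : ℝ) < r / 4 by positivity)).filter_mono
      nhdsWithin_le_nhds))).exists
  exact ⟨ρ, h1, by linarith, h2⟩

section

variable {v : Pt (n + 1) → ℝ} {α C r ρ : ℝ} {P : Pt (n + 1) → Pt (n + 1)}

theorem Front.v_zero (F : Front v α C r P) : v 0 = 0 := F.lmin.apply_free F.mem_free

theorem Front.near_eL (F : Front v α C r P) (hs : Small C α r ρ) {z : Pt (n + 1)}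
    (hz : z ∈ closure {x | 0 < v x}) (hzb : ‖z‖ < 4 * ρ) : ‖P z - eL n‖ ≤ 1 / 16 := by
  have h0 : (0 : Pt (n + 1)) ∈ closure {x | 0 < v x} := frontier_subset_closure F.mem_free
  have h := F.hol z ⟨hz, by rw [mem_ball, dist_zero_right]; linarith [hs.le_r]⟩ 0
    ⟨h0, mem_ball_self F.pos_r⟩
  rw [F.zero, dist_zero_right] at h
  exact h.trans (le_trans (mul_le_mul_of_nonneg_left
    (Real.rpow_le_rpow (norm_nonneg z) hzb.le F.alpha.le) F.nonneg_C) hs.small)

theorem Front.last_pos (F : Front v α C r P) (hs : Small C α r ρ) {z : Pt (n + 1)}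
    (hz : z ∈ closure {x | 0 < v x}) (hzb : ‖z‖ < 4 * ρ) : 15 / 16 ≤ P z (Fin.last n) := by
  have h := F.near_eL hs hz hzb
  have h2 : |(P z - eL n) (Fin.last n)| ≤ ‖P z - eL n‖ := by
    simpa using PiLp.norm_apply_le (P z - eL n) (Fin.last n)
  simp only [PiLp.sub_apply, eL_last] at h2
  linarith [(abs_le.1 h2).1]

/-- Growth along directions close to the normal. -/
theorem Front.grow (F : Front v α C r P) (hs : Small C α r ρ) {p w : Pt (n + 1)}
    (hp : p ∈ closure {x | 0 < v x}) (hpb : ‖p‖ < 4 * ρ) (hqb : ‖p + w‖ < 4 * ρ) {μ : ℝ}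
    (hμ : 0 < μ) (hw : μ ≤ w (Fin.last n) - ‖w‖ / 16) : v p + μ ≤ v (p + w) := by
  have main : ∀ q : Pt (n + 1), 0 < v q → ‖q‖ < 4 * ρ → ‖q + w‖ < 4 * ρ → v q + μ ≤ v (q + w) := by
    intro q hq hq1 hq2
    set f : ℝ → ℝ := fun θ => v (q + θ • w) with hf
    have hfc : Continuous f := F.lmin.continuous.comp (by fun_prop)
    have hball : ∀ θ ∈ Icc (0 : ℝ) 1, ‖q + θ • w‖ < 4 * ρ := fun θ hθ => by
      have := (convex_ball (0 : Pt (n + 1)) (4 * ρ)).add_smul_sub_mem
        (mem_ball_zero_iff.2 hq1) (mem_ball_zero_iff.2 hq2) hθ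
      simpa using this
    have hder : ∀ θ ∈ Icc (0 : ℝ) 1, 0 < f θ → ∃ c, μ ≤ c ∧ HasDerivAt f c θ := by
      intro θ hθ hpos
      refine ⟨⟪P (q + θ • w), w⟫_ℝ, ?_, ?_⟩
      · have h1 := F.near_eL hs (subset_closure (s := {x | 0 < v x}) hpos) (hball θ hθ)
        have h2 := abs_real_inner_le_norm (P (q + θ • w) - eL n) w
        rw [inner_sub_left, inner_eL] at h2
        have h3 := mul_le_mul_of_nonneg_right h1 (norm_nonneg w)
        linarith [(abs_le.1 h2).1]
      · have hd := (diffAt_pos F.lmin (hpos : 0 < v (q + θ • w))).hasFDerivAt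
        have hl : HasDerivAt (fun t : ℝ => q + t • w) w θ := by
          simpa using ((hasDerivAt_id θ).smul_const w).const_add q
        have h := hd.comp_hasDerivAt θ hl
        rw [fderiv_eq_gradV, innerSL_apply_apply, ← F.grad _ (mem_ball_zero_iff.2
          (by linarith [hball θ hθ, hs.le_r])) hpos] at h
        exact h
    have hpos : ∀ θ ∈ Icc (0 : ℝ) 1, 0 < f θ := by
      by_contra! hcon
      obtain ⟨θ0, hθ0, hθ0'⟩ := hcon
      obtain ⟨Z, hZdef⟩ : ∃ Z, Z = Icc (0 : ℝ) 1 ∩ {θ | f θ ≤ 0} := ⟨_, rfl⟩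
      have hZc : IsCompact Z := hZdef ▸ isCompact_Icc.inter_right (isClosed_le hfc continuous_const)
      have hc := hZc.sInf_mem ⟨θ0, hZdef ▸ ⟨hθ0, hθ0'⟩⟩
      have hlow : ∀ x ∈ Icc (0 : ℝ) 1, f x ≤ 0 → sInf Z ≤ x := fun x h1 h2 =>
        csInf_le hZc.bddBelow (hZdef ▸ ⟨h1, h2⟩)
      rw [hZdef] at hc
      obtain ⟨hc1, hc2⟩ := hc
      rw [← hZdef] at hc1 hc2
      set c := sInf Z
      have hc0 : 0 < c := by
        rcases hc1.1.eq_or_lt with h | h
        · exfalso
          have hc2' : f c ≤ 0 := hc2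
          rw [← h] at hc2'
          simp only [hf, zero_smul, add_zero] at hc2'
          linarith
        · exact h
      have hin : ∀ x ∈ Ioo (0 : ℝ) c, x ∈ Icc (0 : ℝ) 1 ∧ 0 < f x := fun x hx =>
        ⟨⟨hx.1.le, hx.2.le.trans hc1.2⟩, not_le.1 fun h =>
          absurd (hlow x ⟨hx.1.le, hx.2.le.trans hc1.2⟩ h) (not_le.2 hx.2)⟩
      obtain ⟨x, hx, hxe⟩ := exists_deriv_eq_slope f hc0 hfc.continuousOn fun x hx => by
        obtain ⟨a, -, ha⟩ := hder x (hin x hx).1 (hin x hx).2
        exact ha.differentiableAt.differentiableWithinAt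
      obtain ⟨a, ha, hda⟩ := hder x (hin x hx).1 (hin x hx).2
      rw [hda.deriv, sub_zero, eq_div_iff hc0.ne'] at hxe
      have hc2' : f c ≤ 0 := hc2
      have h0 : f 0 = v q := by simp [hf]
      nlinarith [mul_le_mul_of_nonneg_right ha hc0.le]
    obtain ⟨x, hx, hxe⟩ := exists_deriv_eq_slope f one_pos hfc.continuousOn fun x hx => by
      obtain ⟨a, -, ha⟩ := hder x (Ioo_subset_Icc_self hx) (hpos x (Ioo_subset_Icc_self hx))
      exact ha.differentiableAt.differentiableWithinAt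
    obtain ⟨a, ha, hda⟩ := hder x (Ioo_subset_Icc_self hx) (hpos x (Ioo_subset_Icc_self hx))
    rw [hda.deriv, sub_zero, div_one] at hxe
    have h0 : f 0 = v q := by simp [hf]
    have h1 : f 1 = v (q + w) := by simp [hf]
    linarith
  have : NeBot (𝓝[{x | 0 < v x}] p) := mem_closure_iff_nhdsWithin_neBot.1 hp
  have hcw : Continuous fun q : Pt (n + 1) => v (q + w) := F.lmin.continuous.comp (by fun_prop)
  refine le_of_tendsto_of_tendsto (b := 𝓝[{x | 0 < v x}] p)
    (((F.lmin.continuous.tendsto p).mono_left nhdsWithin_le_nhds).add_const μ)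
    ((hcw.tendsto p).mono_left nhdsWithin_le_nhds) ?_
  have e1 : ∀ᶠ q in 𝓝 p, ‖q‖ < 4 * ρ := (continuous_norm.tendsto p).eventually (gt_mem_nhds hpb)
  have e2 : ∀ᶠ q in 𝓝 p, ‖q + w‖ < 4 * ρ :=
    ((continuous_id.add continuous_const).norm.tendsto p).eventually (gt_mem_nhds hqb)
  filter_upwards [self_mem_nhdsWithin, e1.filter_mono nhdsWithin_le_nhds,
    e2.filter_mono nhdsWithin_le_nhds] with q hq hq1 hq2
  exact main q hq hq1 hq2

theorem Front.grow_up (F : Front v α C r P) (hs : Small C α r ρ) {y : Pt (n + 1)}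
    (hy : ‖y‖ ≤ ρ / 4) {a b : ℝ} (ha : lift y a ∈ closure {x | 0 < v x}) (hab : a < b)
    (haρ : |a| ≤ 2 * ρ) (hbρ : |b| ≤ 2 * ρ) : v (lift y a) + (b - a) / 2 ≤ v (lift y b) := by
  have hp := hs.pos
  rw [lift_eq_add y a b]
  refine F.grow hs ha ?_ ?_ (by linarith) ?_
  · linarith [norm_lift_le y a]
  · rw [← lift_eq_add]
    linarith [norm_lift_le y b]
  · rw [norm_smul, norm_eL, Real.norm_of_nonneg (by linarith), mul_one]
    simp only [PiLp.smul_apply, eL_last, smul_eq_mul, mul_one]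
    linarith

/-- The domain of the inverse hodograph function. -/
def dom (n : ℕ) (ρ : ℝ) : Set (Pt (n + 1)) := Hc n 0 ∩ closedBall 0 (ρ / 8)

theorem mem_dom {y : Pt (n + 1)} (hy : y ∈ dom n ρ) : 0 ≤ y (Fin.last n) ∧ ‖y‖ ≤ ρ / 8 :=
  ⟨by simpa [Hc] using hy.1, by simpa using hy.2⟩

theorem Front.gf_spec (F : Front v α C r P) (hs : Small C α r ρ) {y : Pt (n + 1)}
    (hy : y ∈ dom n ρ) :
    |gf v ρ y| ≤ ρ ∧ v (hf v ρ y) = y (Fin.last n) ∧ hf v ρ y ∈ closure {x | 0 < v x} ∧
      ‖hf v ρ y‖ ≤ 2 * ρ := by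
  obtain ⟨ht, hyn⟩ := mem_dom hy
  have hp := hs.pos
  have hbound : ∀ τ, |τ| ≤ ρ → ‖lift y τ‖ ≤ 2 * ρ := fun τ hτ => by linarith [norm_lift_le y τ]
  have hA : C * (4 * ρ) ^ α * (4 * ρ) ≤ ρ / 4 := by
    have := mul_le_mul_of_nonneg_right hs.small (show 0 ≤ 4 * ρ by positivity)
    linarith
  have htrap : ∀ τ, |τ| ≤ ρ → max (τ - C * (4 * ρ) ^ α * (4 * ρ)) 0 ≤ v (lift y τ) ∧
      v (lift y τ) ≤ max (τ + C * (4 * ρ) ^ α * (4 * ρ)) 0 := fun τ hτ => by
    have h := F.trap (4 * ρ) (by positivity) hs.le_r (lift y τ)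
      (mem_ball_zero_iff.2 (by linarith [hbound τ hτ]))
    have e : ∑ i, (lift y τ i - (0 : Pt (n + 1)) i) * EuclideanSpace.single (𝕜 := ℝ) (Fin.last n) 1 i
        = τ := by simp
    rwa [e] at h
  have hbot : v (lift y (-ρ)) ≤ y (Fin.last n) := by
    refine (htrap (-ρ) (by rw [abs_neg, abs_of_pos hp])).2.trans ?_
    rw [max_eq_right (by linarith)]
    exact ht
  have hne : (-ρ) ∈ {τ ∈ Icc (-ρ) ρ | v (lift y τ) ≤ y (Fin.last n)} := ⟨⟨le_rfl, by linarith⟩, hbot⟩
  have hcl : IsClosed {τ ∈ Icc (-ρ) ρ | v (lift y τ) ≤ y (Fin.last n)} :=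
    isClosed_Icc.inter (isClosed_le (F.lmin.continuous.comp (by unfold lift; fun_prop)) continuous_const)
  have hbdd : BddAbove {τ ∈ Icc (-ρ) ρ | v (lift y τ) ≤ y (Fin.last n)} := ⟨ρ, fun τ hτ => hτ.1.2⟩
  obtain ⟨hgI, hgle⟩ := hcl.csSup_mem ⟨_, hne⟩ hbdd
  have hgt : gf v ρ y < ρ := by
    rcases hgI.2.eq_or_lt with h | h
    · exfalso
      have h1 : v (lift y ρ) ≤ y (Fin.last n) := h ▸ hgle
      have h2 := (htrap ρ (by rw [abs_of_pos hp])).1
      have h3 : y (Fin.last n) ≤ ρ / 8 :=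
        (le_abs_self _).trans ((show |y (Fin.last n)| ≤ ‖y‖ by simpa using PiLp.norm_apply_le y (Fin.last n)).trans hyn)
      rw [max_eq_left (by linarith)] at h2
      linarith
    · exact h
  have habove : ∀ τ ∈ Ioc (gf v ρ y) ρ, y (Fin.last n) < v (lift y τ) := fun τ hτ => by
    by_contra! h
    exact absurd (le_csSup hbdd ⟨⟨hgI.1.trans hτ.1.le, hτ.2⟩, h⟩) (not_le.2 hτ.1)
  have hev : ∀ᶠ τ in 𝓝[>] gf v ρ y, τ ∈ Ioc (gf v ρ y) ρ := by
    filter_upwards [self_mem_nhdsWithin,
      (eventually_le_nhds hgt).filter_mono nhdsWithin_le_nhds] with τ h1 h2 using ⟨h1, h2⟩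
  have hlift : Tendsto (lift y) (𝓝[>] gf v ρ y) (𝓝 (hf v ρ y)) := by
    have hc : Continuous (lift y) := by unfold lift; fun_prop
    exact (hc.tendsto _).mono_left nhdsWithin_le_nhds
  have habs : |gf v ρ y| ≤ ρ := abs_le.2 ⟨hgI.1, hgI.2⟩
  refine ⟨habs, le_antisymm hgle ?_, ?_, hbound _ habs⟩
  · exact ge_of_tendsto ((F.lmin.continuous.tendsto _).comp hlift)
      (hev.mono fun τ hτ => (habove τ hτ).le)
  · refine mem_closure_of_tendsto hlift (hev.mono fun τ hτ => ?_)
    exact lt_of_le_of_lt ht (habove τ hτ)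

theorem Front.gf_lipschitz (F : Front v α C r P) (hs : Small C α r ρ) {y1 y2 : Pt (n + 1)}
    (h1 : y1 ∈ dom n ρ) (h2 : y2 ∈ dom n ρ) : |gf v ρ y1 - gf v ρ y2| ≤ 2 * dist y1 y2 := by
  have key : ∀ y1 y2 : Pt (n + 1), y1 ∈ dom n ρ → y2 ∈ dom n ρ →
      gf v ρ y2 ≤ gf v ρ y1 + 2 * dist y1 y2 := by
    intro y1 y2 h1 h2
    obtain ⟨a1, a2, a3, a4⟩ := F.gf_spec hs h1
    obtain ⟨b1, b2, b3, b4⟩ := F.gf_spec hs h2
    have hp := hs.pos
    refine le_of_forall_pos_le_add fun η hη => ?_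
    set η' := min η (ρ / 4) with hη'
    have hη0 : 0 < η' := lt_min hη (by positivity)
    have hη1 : η' ≤ η := min_le_left _ _
    have hη2 : η' ≤ ρ / 4 := min_le_right _ _
    set D := dist y1 y2 with hD
    have hD0 : 0 ≤ D := dist_nonneg
    have hDρ : D ≤ ρ / 4 := by
      linarith [dist_triangle y1 0 y2, (dist_zero_right y1).le, (dist_zero_left y2).le,
        (mem_dom h1).2, (mem_dom h2).2]
    by_contra! hlt
    set b := gf v ρ y1 + 2 * D + η' with hb
    have hbg : b < gf v ρ y2 := by linarith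
    set w := lift y2 b - hf v ρ y1 with hw
    have hwn : w (Fin.last n) = 2 * D + η' := by simp [hw, hf, hb]; ring
    have hwle : ‖w‖ ≤ 4 * D + η' := by
      have e : w = (y2 - y1) + ((2 * D + η') - (y2 (Fin.last n) - y1 (Fin.last n))) • eL n := by
        simp only [hw, hf, lift, hb]; module
      rw [e]
      refine (norm_add_le _ _).trans ?_
      rw [norm_smul, norm_eL, mul_one, Real.norm_eq_abs, ← dist_eq_norm, dist_comm, ← hD]
      have : |y2 (Fin.last n) - y1 (Fin.last n)| ≤ D := by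
        rw [hD, dist_comm, dist_eq_norm]
        simpa using PiLp.norm_apply_le (y2 - y1) (Fin.last n)
      linarith [abs_sub (2 * D + η') (y2 (Fin.last n) - y1 (Fin.last n)),
        abs_of_nonneg (show 0 ≤ 2 * D + η' by linarith)]
    have hbabs : |b| ≤ 2 * ρ := by
      rw [abs_le] at a1 b1 ⊢; constructor <;> linarith
    have hadd : hf v ρ y1 + w = lift y2 b := by rw [hw]; abel
    have hq : v (hf v ρ y1) + (D + η' / 2) ≤ v (lift y2 b) := by
      rw [← hadd]
      exact F.grow hs a3 (by linarith)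
        (by rw [hadd]; linarith [norm_lift_le y2 b, (mem_dom h2).2]) (by linarith) (by linarith)
    have ht : y2 (Fin.last n) ≤ y1 (Fin.last n) + D := by
      have : |y2 (Fin.last n) - y1 (Fin.last n)| ≤ D := by
        rw [hD, dist_comm, dist_eq_norm]
        simpa using PiLp.norm_apply_le (y2 - y1) (Fin.last n)
      linarith [le_abs_self (y2 (Fin.last n) - y1 (Fin.last n))]
    have hqpos : 0 < v (lift y2 b) := by rw [a2] at hq; linarith [(mem_dom h1).1]
    have hup := F.grow_up hs (y := y2) (by linarith [(mem_dom h2).2]) (a := b) (b := gf v ρ y2)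
      (subset_closure (s := {x | 0 < v x}) hqpos) hbg hbabs (by linarith)
    change v (lift y2 b) + (gf v ρ y2 - b) / 2 ≤ v (hf v ρ y2) at hup
    linarith
  rw [abs_le]
  constructor
  · linarith [key y1 y2 h1 h2]
  · have := key y2 y1 h2 h1
    rw [dist_comm] at this
    linarith

theorem Front.hf_lipschitz (F : Front v α C r P) (hs : Small C α r ρ) {y1 y2 : Pt (n + 1)}
    (h1 : y1 ∈ dom n ρ) (h2 : y2 ∈ dom n ρ) : dist (hf v ρ y1) (hf v ρ y2) ≤ 4 * dist y1 y2 := by
  have e : hf v ρ y1 - hf v ρ y2 = (y1 - y2) + ((gf v ρ y1 - gf v ρ y2) -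
      (y1 (Fin.last n) - y2 (Fin.last n))) • eL n := by
    simp only [hf, lift]; module
  rw [dist_eq_norm, e]
  refine (norm_add_le _ _).trans ?_
  rw [norm_smul, norm_eL, mul_one, Real.norm_eq_abs, ← dist_eq_norm]
  have : |y1 (Fin.last n) - y2 (Fin.last n)| ≤ dist y1 y2 := by
    rw [dist_eq_norm]
    simpa using PiLp.norm_apply_le (y1 - y2) (Fin.last n)
  linarith [abs_sub (gf v ρ y1 - gf v ρ y2) (y1 (Fin.last n) - y2 (Fin.last n)),
    F.gf_lipschitz hs h1 h2]

theorem Front.psi_hf (F : Front v α C r P) (hs : Small C α r ρ) {y : Pt (n + 1)}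
    (hy : y ∈ dom n ρ) : psi v (hf v ρ y) = y := by
  rw [psi, (F.gf_spec hs hy).2.1, hf, lift_lift, lift_self]

theorem Front.hf_psi (F : Front v α C r P) (hs : Small C α r ρ) {x : Pt (n + 1)} (hx : 0 < v x)
    (hxb : ‖x‖ ≤ ρ / 4) (hd : psi v x ∈ dom n ρ) : hf v ρ (psi v x) = x := by
  obtain ⟨a1, a2, a3, -⟩ := F.gf_spec hs hd
  set g := gf v ρ (psi v x)
  have hp := hs.pos
  have e1 : lift x g = hf v ρ (psi v x) := by
    show lift x g = lift (lift x (v x)) g
    rw [lift_lift]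
  have e2 : v (lift x g) = v x := by rw [e1, a2, psi, lift_last]
  have hxn : |x (Fin.last n)| ≤ 2 * ρ := by
    have := (show |x (Fin.last n)| ≤ ‖x‖ by simpa using PiLp.norm_apply_le x (Fin.last n))
    linarith
  have hxc : lift x (x (Fin.last n)) ∈ closure {z | 0 < v z} := by
    rw [lift_self]; exact subset_closure hx
  rw [← e1]
  rcases lt_trichotomy g (x (Fin.last n)) with h | h | h
  · have hgc : lift x g ∈ closure {z | 0 < v z} := e1 ▸ a3
    have := F.grow_up hs hxb hgc h (by linarith) hxn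
    rw [e2, lift_self] at this
    linarith
  · rw [h, lift_self]
  · have := F.grow_up hs hxb hxc h hxn (by linarith)
    rw [e2, lift_self] at this
    linarith

/-- The gradient of the inverse hodograph function. -/
def Gf (v : Pt (n + 1) → ℝ) (P : Pt (n + 1) → Pt (n + 1)) (ρ : ℝ) (y : Pt (n + 1)) : Pt (n + 1) :=
  flipV (P (hf v ρ y))

theorem hodoFlux_flipV {p : Pt (n + 1)} (hp : p (Fin.last n) ≠ 0) (i : Fin (n + 1)) :
    hodoFlux (flipV p) i = if i = Fin.last n then 1 - ∑ j, p j ^ 2 else -2 * p i := by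
  simp only [hodoFlux]
  induction i using Fin.lastCases with
  | last =>
    simp only [if_true, flipV_last hp, flipV_castSucc, Fin.sum_univ_castSucc (fun j => p j ^ 2)]
    have e : ∀ j : Fin n, (-p j.castSucc / p (Fin.last n)) ^ 2 =
        p j.castSucc ^ 2 * (p (Fin.last n) ^ 2)⁻¹ := fun j => by ring
    simp only [e, ← Finset.sum_mul]
    field_simp
    ring
  | cast i =>
    simp only [Fin.castSucc_ne_last, if_false, flipV_last hp, flipV_castSucc]
    field_simp

theorem Front.deriv_interior (F : Front v α C r P) (hs : Small C α r ρ) {y : Pt (n + 1)}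
    (hy : y ∈ Ho n 0 ∩ ball 0 (ρ / 8)) :
    0 < v (hf v ρ y) ∧ P (hf v ρ y) = gradV v (hf v ρ y) ∧
      HasFDerivAt (hf v ρ) (shear (Gf v P ρ y)) y ∧
      HasFDerivAt (gf v ρ) (innerSL ℝ (Gf v P ρ y)) y := by
  have hyd : y ∈ dom n ρ := ⟨Ho_subset_Hc 0 hy.1, ball_subset_closedBall hy.2⟩
  obtain ⟨a1, a2, a3, a4⟩ := F.gf_spec hs hyd
  have hp := hs.pos
  have hr := hs.le_r
  have hz0 : 0 < v (hf v ρ y) := by rw [a2]; simpa [Ho] using hy.1
  have hPz : P (hf v ρ y) = gradV v (hf v ρ y) :=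
    F.grad _ (mem_ball_zero_iff.2 (by linarith)) hz0
  have hne : P (hf v ρ y) (Fin.last n) ≠ 0 := by linarith [F.last_pos hs a3 (by linarith)]
  have hO : Ho n 0 ∩ ball 0 (ρ / 8) ∈ 𝓝 y := ((isOpen_Ho 0).inter isOpen_ball).mem_nhds hy
  have hnear : dom n ρ ∈ 𝓝 y :=
    mem_of_superset hO fun z hz => ⟨Ho_subset_Hc 0 hz.1, ball_subset_closedBall hz.2⟩
  have hev : ∀ᶠ z in 𝓝 y, psi v (hf v ρ z) = z :=
    mem_of_superset hnear fun z hz => F.psi_hf hs hz
  have hcont : ContinuousAt (hf v ρ) y := by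
    refine (LipschitzOnWith.continuousOn (K := 4) (LipschitzOnWith.of_dist_le_mul
      fun a ha b hb => ?_)).continuousAt hnear
    simpa using F.hf_lipschitz hs ha hb
  have hpsi : HasFDerivAt (psi v)
      ((shearEquiv (P (hf v ρ y)) hne : Pt (n + 1) →L[ℝ] Pt (n + 1))) (hf v ρ y) := by
    rw [shearEquiv_coe]
    have hv := (diffAt_pos F.lmin hz0).hasFDerivAt
    rw [fderiv_eq_gradV, ← hPz] at hv
    have hl : HasFDerivAt (fun z : Pt (n + 1) => z (Fin.last n)) (innerSL ℝ (eL n)) (hf v ρ y) := by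
      have e : (fun z : Pt (n + 1) => z (Fin.last n)) = fun z => innerSL ℝ (eL n) z := by
        funext z; rw [innerSL_apply_apply, inner_eL]
      rw [e]; exact (innerSL ℝ (eL n)).hasFDerivAt
    have h := (hasFDerivAt_id (hf v ρ y)).add ((hv.sub hl).smul_const (eL n))
    rw [← map_sub] at h
    exact h
  have hder := HasFDerivAt.of_local_left_inverse hcont hpsi hev
  rw [shearEquiv_symm_coe] at hder
  refine ⟨hz0, hPz, hder, ?_⟩
  have h2 := ((innerSL ℝ (eL n)).hasFDerivAt (x := hf v ρ y)).comp y hder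
  have e1 : (fun z => innerSL ℝ (eL n) (hf v ρ z)) = gf v ρ := by
    funext z; rw [innerSL_apply_apply, inner_eL, hf, lift_last]
  have e2 : (innerSL ℝ (eL n)).comp (shear (Gf v P ρ y)) = innerSL ℝ (Gf v P ρ y) := by
    ext w
    simp only [ContinuousLinearMap.comp_apply, innerSL_apply_apply, inner_eL, shear_apply]
    simp
  rw [Function.comp_def, e1] at h2
  rw [← e2]
  exact h2

theorem flipV_lip {p q : Pt (n + 1)} (hp : ‖p - eL n‖ ≤ 1 / 16) (hq : ‖q - eL n‖ ≤ 1 / 16) :
    ‖flipV p - flipV q‖ ≤ 3 * ‖p - q‖ := by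
  have hc : ∀ x : Pt (n + 1), ‖x - eL n‖ ≤ 1 / 16 → 15 / 16 ≤ x (Fin.last n) := fun x hx => by
    have h2 : |(x - eL n) (Fin.last n)| ≤ ‖x - eL n‖ := by
      simpa using PiLp.norm_apply_le (x - eL n) (Fin.last n)
    simp only [PiLp.sub_apply, eL_last] at h2
    linarith [(abs_le.1 h2).1]
  set a := p (Fin.last n) with ha
  set b := q (Fin.last n) with hb
  have ha' := hc p hp
  have hb' := hc q hq
  have hab : |a - b| ≤ ‖p - q‖ := by
    simpa [ha, hb] using PiLp.norm_apply_le (p - q) (Fin.last n)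
  have e : flipV p - flipV q = a⁻¹ • (q - p) + (a⁻¹ - b⁻¹) • (eL n - q) := by
    simp only [flipV, ← ha, ← hb]; module
  rw [e]
  refine (norm_add_le _ _).trans ?_
  rw [norm_smul, norm_smul, norm_sub_rev q p, norm_sub_rev (eL n) q]
  have hA : ‖a⁻¹‖ ≤ 16 / 15 := by
    rw [norm_inv, Real.norm_of_nonneg (by linarith)]
    rw [inv_le_comm₀ (by linarith) (by norm_num)]; linarith
  have hB : ‖a⁻¹ - b⁻¹‖ ≤ 2 * ‖p - q‖ := by
    rw [inv_sub_inv (by linarith) (by linarith), norm_div, Real.norm_eq_abs, Real.norm_eq_abs,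
      abs_sub_comm, abs_of_pos (show 0 < a * b by nlinarith), div_le_iff₀ (by nlinarith)]
    nlinarith [mul_le_mul ha' hb' (by norm_num) (by linarith), norm_nonneg (p - q)]
  nlinarith [mul_le_mul_of_nonneg_right hA (norm_nonneg (p - q)),
    mul_le_mul hB hq (norm_nonneg _) (by positivity), norm_nonneg (p - q)]

theorem Front.Gf_hol (F : Front v α C r P) (hs : Small C α r ρ) {y1 y2 : Pt (n + 1)}
    (h1 : y1 ∈ dom n ρ) (h2 : y2 ∈ dom n ρ) :
    ‖Gf v P ρ y1 - Gf v P ρ y2‖ ≤ 3 * C * 4 ^ α * dist y1 y2 ^ α := by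
  obtain ⟨-, -, a3, a4⟩ := F.gf_spec hs h1
  obtain ⟨-, -, b3, b4⟩ := F.gf_spec hs h2
  have hp := hs.pos
  have hr := hs.le_r
  refine (flipV_lip (F.near_eL hs a3 (by linarith)) (F.near_eL hs b3 (by linarith))).trans ?_
  rw [mul_assoc 3 C, mul_assoc 3 (C * 4 ^ α), mul_assoc C (4 ^ α), ← Real.mul_rpow (by norm_num) dist_nonneg]
  refine mul_le_mul_of_nonneg_left ((F.hol _ ⟨a3, mem_ball_zero_iff.2 (by linarith)⟩ _
    ⟨b3, mem_ball_zero_iff.2 (by linarith)⟩).trans (mul_le_mul_of_nonneg_left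
      (Real.rpow_le_rpow dist_nonneg (F.hf_lipschitz hs h1 h2) F.alpha.le) F.nonneg_C)) (by norm_num)

/-- The open part of the domain. -/
def dom0 (n : ℕ) (ρ : ℝ) : Set (Pt (n + 1)) := Ho n 0 ∩ ball 0 (ρ / 8)

theorem isOpen_dom0 : IsOpen (dom0 n ρ) := (isOpen_Ho 0).inter isOpen_ball

theorem dom0_subset : dom0 n ρ ⊆ dom n ρ := fun _ hy =>
  ⟨Ho_subset_Hc 0 hy.1, ball_subset_closedBall hy.2⟩

theorem Front.last_ne (F : Front v α C r P) (hs : Small C α r ρ) {y : Pt (n + 1)}
    (hy : y ∈ dom n ρ) : P (hf v ρ y) (Fin.last n) ≠ 0 := by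
  linarith [F.last_pos hs (F.gf_spec hs hy).2.2.1
    (by linarith [(F.gf_spec hs hy).2.2.2, hs.pos])]

theorem Front.continuousOn_Gf (F : Front v α C r P) (hs : Small C α r ρ) :
    ContinuousOn (Gf v P ρ) (dom n ρ) := by
  intro x hx
  refine tendsto_iff_norm_sub_tendsto_zero.2 (squeeze_zero' (Eventually.of_forall fun y => norm_nonneg _)
    (eventually_nhdsWithin_of_forall fun y hy => F.Gf_hol hs hy hx) ?_)
  have hd : Tendsto (fun y => dist y x) (𝓝[dom n ρ] x) (𝓝 0) := by
    have := (continuous_id.dist (continuous_const (y := x))).tendsto x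
    simp only [id_eq, dist_self] at this
    exact this.mono_left nhdsWithin_le_nhds
  simpa [Real.zero_rpow F.alpha.ne'] using
    (hd.rpow_const (Or.inr F.alpha.le)).const_mul (3 * C * 4 ^ α)

theorem Front.jet_gf (F : Front v α C r P) (hs : Small C α r ρ) :
    Jet1 α (3 * C * 4 ^ α) (Hc n 0 ∩ closedBall 0 (ρ / 16)) (gf v ρ) (Gf v P ρ) := by
  have hp := hs.pos
  set S := dom0 n ρ with hS
  have hSd : S ⊆ dom n ρ := dom0_subset
  have hSc : Convex ℝ S := (convex_halfSpace_gt (EuclideanSpace.proj (𝕜 := ℝ) (ι := Fin (n + 1))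
    (Fin.last n)).toLinearMap.isLinear (-0)).inter (convex_ball _ _)
  set M := 3 * C * (4 : ℝ) ^ α with hMdef
  have hM : 0 ≤ M := mul_nonneg (mul_nonneg (by norm_num) F.nonneg_C) (Real.rpow_nonneg (by norm_num) _)
  have hjet0 : Jet1 α M S (gf v ρ) (Gf v P ρ) := Jet1.of_deriv F.alpha hSc hM
    (fun y hy => (F.deriv_interior hs hy).2.2.2.hasFDerivWithinAt)
    fun a ha b hb => F.Gf_hol hs (hSd ha) (hSd hb)
  have hgc : ContinuousOn (gf v ρ) (dom n ρ) := by
    refine LipschitzOnWith.continuousOn (K := 2) (LipschitzOnWith.of_dist_le_mul fun a ha b hb => ?_)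
    rw [Real.dist_eq]; simpa using F.gf_lipschitz hs ha hb
  have hGc := F.continuousOn_Gf hs
  have hsub : Hc n 0 ∩ closedBall (0 : Pt (n + 1)) (ρ / 16) ⊆ dom n ρ :=
    inter_subset_inter_right _ (closedBall_subset_closedBall (by linarith))
  refine ⟨fun a ha b hb => F.Gf_hol hs (hsub ha) (hsub hb), fun a ha b hb => ?_⟩
  -- approximate from inside
  have happ : ∀ z ∈ Hc n 0 ∩ closedBall (0 : Pt (n + 1)) (ρ / 16), ∀ᶠ t in 𝓝[>] (0 : ℝ),
      z + t • eL n ∈ S := fun z hz => by
    filter_upwards [self_mem_nhdsWithin, (eventually_lt_nhds (show 0 < ρ / 16 by positivity)).filter_mono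
      nhdsWithin_le_nhds] with t ht ht'
    refine ⟨?_, mem_ball_zero_iff.2 ((norm_add_le _ _).trans_lt ?_)⟩
    · have h1 : 0 ≤ z (Fin.last n) := by simpa [Hc] using hz.1
      simp only [Ho, mem_ofPred_eq, neg_zero, PiLp.add_apply, PiLp.smul_apply, eL_last, smul_eq_mul,
        mul_one]
      linarith [mem_Ioi.1 ht]
    · rw [norm_smul, norm_eL, mul_one, Real.norm_of_nonneg ht.le]
      linarith [mem_closedBall_zero_iff.1 hz.2]
  have ht : ∀ z : Pt (n + 1), Tendsto (fun t : ℝ => z + t • eL n) (𝓝[>] 0) (𝓝 z) := fun z => by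
    have := ((tendsto_id (x := 𝓝 (0 : ℝ))).smul_const (eL n)).const_add z
    simpa using this.mono_left (nhdsWithin_le_nhds (s := Ioi (0 : ℝ)))
  have hw : ∀ z ∈ Hc n 0 ∩ closedBall (0 : Pt (n + 1)) (ρ / 16),
      Tendsto (fun t : ℝ => z + t • eL n) (𝓝[>] 0) (𝓝[dom n ρ] z) := fun z hz =>
    tendsto_nhdsWithin_iff.2 ⟨ht z, (happ z hz).mono fun t h => hSd h⟩
  refine le_of_tendsto_of_tendsto
    ((((hgc b (hsub hb)).tendsto.comp (hw b hb)).sub ((hgc a (hsub ha)).tendsto.comp (hw a ha))).sub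
      (((hGc a (hsub ha)).tendsto.comp (hw a ha)).inner ((ht b).sub (ht a)))).abs
    ((((ht a).dist (ht b)).rpow_const (Or.inr (by linarith [F.alpha]))).const_mul M) ?_
  filter_upwards [happ a ha, happ b hb] with t hta htb
  exact hjet0.tay _ hta _ htb

theorem Front.gf_smooth (F : Front v α C r P) (hs : Small C α r ρ) :
    ∀ m : ℕ, ContDiffOn ℝ m (gf v ρ) (dom0 n ρ) := by
  have hp := hs.pos
  set S := dom0 n ρ with hS
  have hSo : IsOpen S := isOpen_dom0
  have hSd : S ⊆ dom n ρ := dom0_subset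
  have hderg : ∀ y ∈ S, HasFDerivAt (gf v ρ) (innerSL ℝ (Gf v P ρ y)) y := fun y hy =>
    (F.deriv_interior hs hy).2.2.2
  have hopen := F.lmin.isOpen_pos
  have hsm := (basics (n + 1)).smooth v F.lmin
  have hsp : ∀ i, ContDiffOn ℝ ∞ (pd i v) {x | 0 < v x} := fun i => contDiffOn_pd hopen hsm le_rfl
  intro m
  induction m with
  | zero => exact contDiffOn_zero.2 fun y hy => (hderg y hy).continuousAt.continuousWithinAt
  | succ m ih =>
    rw [show ((m + 1 : ℕ) : ℕ∞ω) = (m : ℕ∞ω) + 1 by norm_cast,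
      contDiffOn_succ_iff_fderiv_of_isOpen hSo]
    refine ⟨fun y hy => (hderg y hy).differentiableAt.differentiableWithinAt, by simp, ?_⟩
    have hh : ContDiffOn ℝ m (hf v ρ) S := by
      unfold hf lift
      exact contDiffOn_id.add ((ih.sub (EuclideanSpace.proj (𝕜 := ℝ) (ι := Fin (n + 1))
        (Fin.last n)).contDiff.contDiffOn).smul contDiffOn_const)
    have hP : ContDiffOn ℝ m (fun y => P (hf v ρ y)) S := by
      have h : ContDiffOn ℝ m (fun y => gradV v (hf v ρ y)) S := by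
        refine contDiffOn_piLp 2 |>.2 fun i => ?_
        exact ((hsp i).of_le (WithTop.coe_le_coe.2 le_top)).comp hh fun y hy =>
          (F.deriv_interior hs hy).1
      exact h.congr fun y hy => (F.deriv_interior hs hy).2.1
    have hG : ContDiffOn ℝ m (Gf v P ρ) S := by
      unfold Gf flipV
      have hPn : ContDiffOn ℝ m (fun y => P (hf v ρ y) (Fin.last n)) S :=
        (EuclideanSpace.proj (𝕜 := ℝ) (ι := Fin (n + 1)) (Fin.last n)).contDiff.comp_contDiffOn hP
      exact ((hPn.inv fun y hy => F.last_ne hs (hSd hy)).smul (contDiffOn_const.sub hP)).add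
        contDiffOn_const
    exact ((innerSL ℝ (E := Pt (n + 1))).contDiff.comp_contDiffOn hG).congr fun y hy => (hderg y hy).fderiv

/-- The components of the flux in the original variables. -/
def wf (v : Pt (n + 1) → ℝ) (i : Fin (n + 1)) (z : Pt (n + 1)) : ℝ :=
  if i = Fin.last n then 1 - ∑ j, pd j v z ^ 2 else -2 * pd i v z

theorem Front.flux_eq (F : Front v α C r P) (hs : Small C α r ρ) (i : Fin (n + 1)) {y : Pt (n + 1)}
    (hy : y ∈ dom0 n ρ) : hodoFlux (Gf v P ρ y) i = wf v i (hf v ρ y) := by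
  rw [Gf, hodoFlux_flipV (F.last_ne hs (dom0_subset hy)), (F.deriv_interior hs hy).2.1]
  simp [wf]

theorem Front.wf_smooth (F : Front v α C r P) (i : Fin (n + 1)) :
    ContDiffOn ℝ ∞ (wf v i) {x | 0 < v x} := by
  have hsp : ∀ i, ContDiffOn ℝ ∞ (pd i v) {x | 0 < v x} := fun i =>
    contDiffOn_pd F.lmin.isOpen_pos ((basics (n + 1)).smooth v F.lmin) le_rfl
  unfold wf
  by_cases hi : i = Fin.last n
  · simp only [if_pos hi]
    exact contDiffOn_const.sub (ContDiffOn.sum fun j _ => (hsp j).pow 2)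
  · simp only [if_neg hi]
    exact contDiffOn_const.mul (hsp i)

theorem Front.flux_smooth (F : Front v α C r P) (hs : Small C α r ρ) (i : Fin (n + 1)) :
    ContDiffOn ℝ 1 (fun y => hodoFlux (Gf v P ρ y) i) (dom0 n ρ) := by
  have hh : ContDiffOn ℝ 1 (hf v ρ) (dom0 n ρ) := by
    unfold hf lift
    exact contDiffOn_id.add (((F.gf_smooth hs 1).sub (EuclideanSpace.proj (𝕜 := ℝ) (ι := Fin (n + 1))
      (Fin.last n)).contDiff.contDiffOn).smul contDiffOn_const)
  exact (((F.wf_smooth i).of_le (WithTop.coe_le_coe.2 le_top)).comp hh fun y hy =>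
    (F.deriv_interior hs hy).1).congr fun y hy => F.flux_eq hs i hy

theorem Front.flux_div (F : Front v α C r P) (hs : Small C α r ρ) {x : Pt (n + 1)}
    (hx : x ∈ dom0 n ρ) : ∑ a, pd a (fun y => hodoFlux (Gf v P ρ y) a) x = 0 := by
  have hopen := F.lmin.isOpen_pos
  have hsp : ∀ i, ContDiffOn ℝ ∞ (pd i v) {x | 0 < v x} := fun i =>
    contDiffOn_pd hopen ((basics (n + 1)).smooth v F.lmin) le_rfl
  obtain ⟨hz0, hPz, hh, -⟩ := F.deriv_interior hs hx
  set z := hf v ρ x with hz
  set p := gradV v z with hpdef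
  have hpn : p (Fin.last n) ≠ 0 := by rw [← hPz]; exact F.last_ne hs (dom0_subset hx)
  have hG : Gf v P ρ x = flipV p := by rw [Gf, ← hz, hPz]
  have hdwfl : ∀ i, DifferentiableAt ℝ (wf v i) z := fun i =>
    ((F.wf_smooth i).contDiffAt (hopen.mem_nhds hz0)).differentiableAt (by simp)
  have hdp : ∀ i, DifferentiableAt ℝ (pd i v) z := fun i =>
    ((hsp i).contDiffAt (hopen.mem_nhds hz0)).differentiableAt (by simp)
  have hterm : ∀ a, pd a (fun y => hodoFlux (Gf v P ρ y) a) x =
      pd a (wf v a) z + (flipV p a - eL n a) * pd (Fin.last n) (wf v a) z := fun a => by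
    rw [pd_congr (g := wf v a ∘ hf v ρ) (eventually_of_mem (isOpen_dom0.mem_nhds hx) fun y hy => F.flux_eq hs a hy), pd,
      ((hdwfl a).hasFDerivAt.comp x hh).fderiv, ContinuousLinearMap.comp_apply, shear_apply, hG,
      EuclideanSpace.inner_single_right, map_add, map_smul, smul_eq_mul]
    have e : EuclideanSpace.single (𝕜 := ℝ) a 1 (Fin.last n) = eL n a := by
      simp [eL, eq_comm]
    rw [e]
    simp [pd, eL]
  have hn : pd (Fin.last n) (wf v (Fin.last n)) z =
      -2 * ∑ j, pd j v z * pd (Fin.last n) (pd j v) z := by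
    unfold wf
    simp only [if_true]
    rw [pd_sub (differentiableAt_const _) (DifferentiableAt.fun_sum fun j _ => (hdp j).fun_pow 2),
      pd_const, pd_sum _ fun j _ => (hdp j).fun_pow 2, Finset.mul_sum, zero_sub, ← Finset.sum_neg_distrib]
    refine Finset.sum_congr rfl fun j _ => ?_
    simp only [sq]
    rw [pd_mul (hdp j) (hdp j)]
    ring
  have hi : ∀ (k : Fin (n + 1)) (i : Fin n), pd k (wf v i.castSucc) z = -2 * pd k (pd i.castSucc v) z :=
    fun k i => by
      unfold wf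
      simp only [Fin.castSucc_ne_last, if_false]
      exact pd_const_mul _ (hdp _)
  have hlap := (basics (n + 1)).harmonic v F.lmin z hz0
  rw [Fin.sum_univ_castSucc] at hlap
  have hpv : ∀ i, p i = pd i v z := fun i => rfl
  rw [Finset.sum_congr rfl fun a _ => hterm a, Fin.sum_univ_castSucc]
  simp only [hi, hn, flipV_castSucc, flipV_last hpn, eL_castSucc, eL_last, sub_zero]
  rw [Fin.sum_univ_castSucc (fun j => pd j v z * pd (Fin.last n) (pd j v) z), ← hpv (Fin.last n)]
  simp only [← hpv]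
  have e : ∀ i : Fin n, -2 * pd i.castSucc (pd i.castSucc v) z +
      -p i.castSucc / p (Fin.last n) * (-2 * pd (Fin.last n) (pd i.castSucc v) z) =
      -2 * pd i.castSucc (pd i.castSucc v) z +
      2 / p (Fin.last n) * (p i.castSucc * pd (Fin.last n) (pd i.castSucc v) z) := fun i => by ring
  rw [Finset.sum_congr rfl fun i _ => e i, Finset.sum_add_distrib, ← Finset.mul_sum, ← Finset.mul_sum]
  field_simp
  have h' : ∑ i : Fin n, pd i.castSucc (pd i.castSucc v) z =
      -pd (Fin.last n) (pd (Fin.last n) v) z := by linarith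
  rw [h']
  ring

/-- The cut-off vanishing on an `e`-strip at the flat side. -/
def strip (e : ℝ) (y : Pt (n + 1)) : ℝ := step (y (Fin.last n) / e)

theorem strip_contDiff (e : ℝ) : ContDiff ℝ 1 (strip (n := n) e) :=
  (step_contDiff (n := 1)).comp
    (((EuclideanSpace.proj (𝕜 := ℝ) (ι := Fin (n + 1)) (Fin.last n)).contDiff).div_const _)

theorem strip_zero {e : ℝ} (he : 0 < e) {y : Pt (n + 1)} (hy : y (Fin.last n) ≤ e / 2) :
    strip e y = 0 := step_zero (by rw [div_le_iff₀ he]; linarith)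

theorem strip_one {e : ℝ} (he : 0 < e) {y : Pt (n + 1)} (hy : e ≤ y (Fin.last n)) :
    strip e y = 1 := step_one (by rwa [le_div_iff₀ he, one_mul])

theorem strip_abs (e : ℝ) (y : Pt (n + 1)) : |strip e y| ≤ 1 :=
  abs_le.2 ⟨by linarith [(step_mem (y (Fin.last n) / e)).1, show strip e y = step (y (Fin.last n) / e) from rfl],
    (step_mem _).2⟩

theorem pd_strip_of_ne (e : ℝ) {j : Fin (n + 1)} (hj : j ≠ Fin.last n) (y : Pt (n + 1)) :
    pd j (strip e) y = 0 := pd_last_step j hj y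

theorem pd_strip_nonneg {e : ℝ} (he : 0 < e) (y : Pt (n + 1)) : 0 ≤ pd (Fin.last n) (strip e) y := by
  have hd : DifferentiableAt ℝ (fun y : Pt (n + 1) => y (Fin.last n) * e⁻¹) y :=
    ((EuclideanSpace.proj (𝕜 := ℝ) (ι := Fin (n + 1)) (Fin.last n)).differentiableAt).mul_const _
  have e0 : strip (n := n) e = fun y => step (y (Fin.last n) * e⁻¹) := by
    funext y; rw [strip, div_eq_mul_inv]
  rw [e0, pd_comp ((step_contDiff (n := 1)).differentiable one_ne_zero _) hd]
  refine mul_nonneg (deriv_step_nonneg _) ?_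
  have hl : DifferentiableAt ℝ (fun y : Pt (n + 1) => y (Fin.last n)) y :=
    (EuclideanSpace.proj (𝕜 := ℝ) (ι := Fin (n + 1)) (Fin.last n)).differentiableAt
  rw [pd_mul hl (differentiableAt_const _), pd_const, pd_apply]
  simp only [if_true, mul_zero, zero_add, one_mul]
  positivity

theorem pd_strip_eq_zero {e : ℝ} (he : 0 < e) {y : Pt (n + 1)}
    (hy : y (Fin.last n) < e / 2 ∨ e < y (Fin.last n)) : pd (Fin.last n) (strip e) y = 0 := by
  rcases hy with h | h
  · refine (pd_congr (g := fun _ => (0 : ℝ)) ?_).trans (pd_const 0)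
    filter_upwards [(isOpen_lt continuous_last continuous_const).mem_nhds h] with z (hz : z (Fin.last n) < e / 2)
    exact strip_zero he hz.le
  · refine (pd_congr (g := fun _ => (1 : ℝ)) ?_).trans (pd_const 1)
    filter_upwards [(isOpen_lt continuous_const continuous_last).mem_nhds h] with z (hz : e < z (Fin.last n))
    exact strip_one he hz.le

theorem continuous_pd_strip (e : ℝ) : Continuous (pd (Fin.last n) (strip (n := n) e)) :=
  (contDiff_pd (m := 0) (strip_contDiff e) le_rfl).continuous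

theorem continuousOn_hodoFlux :
    ContinuousOn (fun p : Pt (n + 1) => hodoFlux p) {p | p (Fin.last n) ≠ 0} := by
  have hproj : ∀ i, Continuous fun p : Pt (n + 1) => p i := fun i =>
    (EuclideanSpace.proj (𝕜 := ℝ) (ι := Fin (n + 1)) i).continuous
  have hnum : Continuous fun p : Pt (n + 1) => 1 + ∑ j : Fin n, p j.castSucc ^ 2 :=
    continuous_const.add (continuous_finsetSum _ fun j _ => (hproj j.castSucc).pow 2)
  have hden : Continuous fun p : Pt (n + 1) => p (Fin.last n) ^ 2 := (hproj (Fin.last n)).pow 2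
  have hcomp : ∀ i : Fin (n + 1), ContinuousOn (fun p : Pt (n + 1) =>
      if i = Fin.last n then 1 - (1 + ∑ j : Fin n, p j.castSucc ^ 2) / p (Fin.last n) ^ 2
      else 2 * p i / p (Fin.last n)) {p | p (Fin.last n) ≠ 0} := by
    intro i
    by_cases hi : i = Fin.last n
    · simp only [if_pos hi]
      exact continuousOn_const.sub (hnum.continuousOn.div hden.continuousOn
        fun p hp => pow_ne_zero 2 hp)
    · simp only [if_neg hi]
      exact (continuous_const.mul (hproj i)).continuousOn.div (hproj _).continuousOn fun p hp => hp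
  exact (PiLp.continuous_toLp 2 _).comp_continuousOn (continuousOn_pi.2 hcomp)

theorem Front.continuousOn_flux (F : Front v α C r P) (hs : Small C α r ρ) :
    ContinuousOn (fun y => hodoFlux (Gf v P ρ y)) (dom n ρ) := by
  refine continuousOn_hodoFlux.comp (F.continuousOn_Gf hs) fun y hy => ?_
  simp only [Gf, mem_ofPred_eq, flipV_last (F.last_ne hs hy)]
  exact inv_ne_zero (F.last_ne hs hy)

/-- The divergence identity against a cut-off test function. -/
theorem Front.strip_identity (F : Front v α C r P) (hs : Small C α r ρ) {φ : Pt (n + 1) → ℝ}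
    (hφ : ContDiff ℝ 1 φ) (hφc : HasCompactSupport φ) (hφs : tsupport φ ⊆ ball 0 (ρ / 16)) {e : ℝ}
    (he : 0 < e) :
    ∫ y, strip e y * fderiv ℝ φ y (hodoFlux (Gf v P ρ y)) =
      -∫ y, φ y * pd (Fin.last n) (strip e) y * hodoFlux (Gf v P ρ y) (Fin.last n) := by
  have hp := hs.pos
  have hWc := F.continuousOn_flux hs
  obtain ⟨W, hW⟩ : ∃ W : Pt (n + 1) → Pt (n + 1), W = fun y => hodoFlux (Gf v P ρ y) := ⟨_, rfl⟩
  have hWsm : ∀ i, ContDiffOn ℝ 1 (fun y => W y i) (dom0 n ρ) := fun i => hW ▸ F.flux_smooth hs i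
  have heq : ∀ y ∈ dom0 n ρ, ∑ i, pd i (fun z => W z i) y = 0 := fun y hy => hW ▸ F.flux_div hs hy
  rw [← hW] at hWc
  have hzero_out : ∀ y, y ∉ tsupport φ → fderiv ℝ φ y = 0 := fun y hy => fderiv_of_notMem_tsupport ℝ hy
  have hts : tsupport (fun y => strip e y * φ y) ⊆ tsupport φ ∩ {y | e / 2 ≤ y (Fin.last n)} := by
    refine closure_minimal (fun y hy => ⟨subset_tsupport φ fun h => hy (by simp [h]), ?_⟩)
      ((isClosed_tsupport φ).inter (isClosed_le continuous_const continuous_last))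
    by_contra h
    exact hy (by simp [strip_zero he (not_le.1 h).le])
  have hsubS : tsupport (fun y => strip e y * φ y) ⊆ dom0 n ρ := fun y hy => by
    obtain ⟨h1, h2⟩ := hts hy
    refine ⟨?_, ball_subset_ball (by linarith) (hφs h1)⟩
    show -0 < y (Fin.last n)
    have h2' : e / 2 ≤ y (Fin.last n) := h2
    linarith
  let Y : Fin (n + 1) → Pt (n + 1) → ℝ := fun i y => strip e y * φ y * W y i
  have hYd : ∀ i, ContDiff ℝ 1 (Y i) := fun i =>
    contDiff_of_tsupport isOpen_dom0 (((strip_contDiff e).mul hφ).contDiffOn.mul (hWsm i))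
      ((tsupport_mul_subset_left).trans hsubS)
  have hYs : ∀ i, HasCompactSupport (Y i) := fun i => hφc.mul_left.mul_right
  have h0 := integral_dvg_eq_zero hYd hYs
  have hpt : ∀ y, dvg Y y = strip e y * fderiv ℝ φ y (W y) +
      φ y * pd (Fin.last n) (strip e) y * W y (Fin.last n) := by
    intro y
    have hd1 : DifferentiableAt ℝ (strip e) y := (strip_contDiff e).differentiable one_ne_zero y
    have hd2 : DifferentiableAt ℝ φ y := hφ.differentiable one_ne_zero y
    have h1 : strip e y * fderiv ℝ φ y (W y) + φ y * pd (Fin.last n) (strip e) y * W y (Fin.last n)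
        = ∑ i, W y i * (pd i (strip e) y * φ y + strip e y * pd i φ y) := by
      simp only [mul_add, Finset.sum_add_distrib]
      rw [Finset.sum_eq_single (f := fun i => W y i * (pd i (strip e) y * φ y)) (Fin.last n)
        (fun i _ hi => by rw [pd_strip_of_ne e hi y]; ring) (by simp), fderiv_eq_sum_pd, Finset.mul_sum,
        add_comm]
      congr 1
      · ring
      · exact Finset.sum_congr rfl fun i _ => by ring
    rw [h1]
    by_cases hy : y ∈ tsupport (fun y => strip e y * φ y)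
    · have hd3 : ∀ i, DifferentiableAt ℝ (fun z => W z i) y := fun i =>
        ((hWsm i).contDiffAt (isOpen_dom0.mem_nhds (hsubS hy))).differentiableAt one_ne_zero
      have hti : ∀ i, pd i (Y i) y = strip e y * φ y * pd i (fun z => W z i) y +
          W y i * (pd i (strip e) y * φ y + strip e y * pd i φ y) := fun i => by
        simp only [Y]
        rw [pd_mul (hd1.fun_mul hd2) (hd3 i), pd_mul hd1 hd2]
        ring
      simp only [dvg]
      rw [Finset.sum_congr rfl fun i _ => hti i, Finset.sum_add_distrib, ← Finset.mul_sum,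
        heq y (hsubS hy), mul_zero, zero_add]
    · have hev : (fun z => strip e z * φ z) =ᶠ[𝓝 y] 0 := notMem_tsupport_iff_eventuallyEq.1 hy
      have hY0 : ∀ i, pd i (Y i) y = 0 := fun i => by
        rw [pd_congr (g := fun _ => (0 : ℝ)) (hev.mono fun z hz => by
          simp only [Y]; rw [show strip e z * φ z = 0 from hz, zero_mul])]
        exact pd_const 0
      have hd : ∀ i, pd i (strip e) y * φ y + strip e y * pd i φ y = 0 := fun i => by
        have h := pd_congr (i := i) hev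
        rw [pd_mul hd1 hd2, show pd i (0 : Pt (n + 1) → ℝ) y = 0 from pd_const (i := i) 0] at h
        linarith
      simp only [dvg, hY0, hd, mul_zero, Finset.sum_const_zero]
  rw [integral_congr_ae (Eventually.of_forall hpt)] at h0
  have hint : ∀ f : Pt (n + 1) → ℝ,
      (∀ y, ¬(y ∈ tsupport φ ∧ e / 2 ≤ y (Fin.last n)) → f y = 0) →
      ContinuousOn f (dom n ρ) → Integrable f := by
    intro f hf hfc
    obtain ⟨Kc, hKc⟩ : ∃ Kc, Kc = tsupport φ ∩ {y : Pt (n + 1) | e / 2 ≤ y (Fin.last n)} := ⟨_, rfl⟩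
    have hKcc : IsCompact Kc := hKc ▸ hφc.isCompact.inter_right (isClosed_le continuous_const continuous_last)
    have hKd : Kc ⊆ dom n ρ := fun y hy => by
      rw [hKc] at hy
      have h2 : e / 2 ≤ y (Fin.last n) := hy.2
      exact ⟨show -0 ≤ y (Fin.last n) by linarith,
        closedBall_subset_closedBall (by linarith) (ball_subset_closedBall (hφs hy.1))⟩
    have : IntegrableOn f Kc := (hfc.mono hKd).integrableOn_compact hKcc
    exact this.integrable_of_forall_notMem_eq_zero fun y hy => hf y (by rwa [hKc] at hy)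
  have j1 : Integrable fun y => strip e y * fderiv ℝ φ y (W y) := by
    refine hint _ (fun y hy => ?_) ((strip_contDiff e).continuous.continuousOn.mul
      (((hφ.continuous_fderiv one_ne_zero).continuousOn).clm_apply hWc))
    by_cases h : y ∈ tsupport φ
    · rw [strip_zero he (not_le.1 fun h2 => hy ⟨h, h2⟩).le, zero_mul]
    · simp [hzero_out y h]
  have j2 : Integrable fun y => φ y * pd (Fin.last n) (strip e) y * W y (Fin.last n) := by
    refine hint _ (fun y hy => ?_) ((hφ.continuous.continuousOn.mul (continuous_pd_strip e).continuousOn).mul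
      ((EuclideanSpace.proj (𝕜 := ℝ) (ι := Fin (n + 1)) (Fin.last n)).continuous.comp_continuousOn hWc))
    by_cases h : y ∈ tsupport φ
    · rw [pd_strip_eq_zero he (Or.inl (not_le.1 fun h2 => hy ⟨h, h2⟩)), mul_zero, zero_mul]
    · simp [image_eq_zero_of_notMem_tsupport h]
  rw [integral_add j1 j2, hW] at h0
  linarith

/-- The normal flux is small near the flat side. -/
theorem Front.flux_last_le (F : Front v α C r P) (hs : Small C α r ρ) {y : Pt (n + 1)}
    (hy : y ∈ dom n ρ) {e : ℝ} (hye : y (Fin.last n) ≤ e) :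
    |hodoFlux (Gf v P ρ y) (Fin.last n)| ≤ 3 * C * (4 * e) ^ α := by
  have hp := hs.pos
  have hr := hs.le_r
  obtain ⟨ht, hyn⟩ := mem_dom hy
  have he : 0 ≤ e := ht.trans hye
  set y0 := lift y 0 with hy0
  have hy0d : y0 ∈ dom n ρ := by
    refine ⟨by simp [hy0, Hc], mem_closedBall_zero_iff.2 (le_trans ?_ hyn)⟩
    refine pow_le_pow_iff_left₀ (norm_nonneg _) (norm_nonneg _) two_ne_zero |>.1 ?_
    rw [norm_sq_split y0, norm_sq_split y]
    have e1 : headL n y0 = headL n y := by ext i; simp [hy0, lift, eL_castSucc]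
    rw [e1, hy0, lift_last]
    nlinarith
  obtain ⟨-, b2, b3, b4⟩ := F.gf_spec hs hy0d
  obtain ⟨-, -, a3, a4⟩ := F.gf_spec hs hy
  have hfree : hf v ρ y0 ∈ free v := by
    rw [free, F.lmin.isOpen_pos.frontier_eq]
    refine ⟨b3, fun h => ?_⟩
    have h' : 0 < v (hf v ρ y0) := h
    rw [b2, hy0, lift_last] at h'
    exact lt_irrefl _ h'
  have hu1 := F.unit _ ⟨hfree, mem_ball_zero_iff.2 (by linarith)⟩
  have hd : dist (hf v ρ y) (hf v ρ y0) ≤ 4 * e := by
    refine (F.hf_lipschitz hs hy hy0d).trans (mul_le_mul_of_nonneg_left ?_ (by norm_num))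
    rw [hy0, dist_eq_norm, lift, sub_add_cancel_left, norm_neg, norm_smul, norm_eL, mul_one,
      Real.norm_eq_abs, zero_sub, abs_neg, abs_of_nonneg ht]
    exact hye
  have hPd := (F.hol _ ⟨a3, mem_ball_zero_iff.2 (by linarith)⟩ _
    ⟨b3, mem_ball_zero_iff.2 (by linarith)⟩).trans
    (mul_le_mul_of_nonneg_left (Real.rpow_le_rpow dist_nonneg hd F.alpha.le) F.nonneg_C)
  rw [Gf, hodoFlux_flipV (F.last_ne hs hy), if_pos rfl, ← Eps.norm_sq_eq]
  have hnd := (abs_norm_sub_norm_le (P (hf v ρ y)) (P (hf v ρ y0))).trans hPd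
  rw [hu1] at hnd
  have hle : ‖P (hf v ρ y)‖ ≤ 2 := by
    have h1 := F.near_eL hs a3 (by linarith)
    have h2 := norm_le_norm_add_norm_sub (eL n) (P (hf v ρ y))
    rw [norm_eL, norm_sub_rev] at h2
    linarith
  set N := ‖P (hf v ρ y)‖ with hN
  have hN0 : 0 ≤ N := norm_nonneg _
  rw [show 1 - N ^ 2 = -((N - 1) * (N + 1)) by ring, abs_neg, abs_mul,
    abs_of_nonneg (show 0 ≤ N + 1 by linarith)]
  calc |N - 1| * (N + 1) ≤ C * (4 * e) ^ α * 3 :=
        mul_le_mul hnd (by linarith) (by linarith)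
          (mul_nonneg F.nonneg_C (Real.rpow_nonneg (by positivity) _))
    _ = _ := by ring

/-- The boundary term tends to zero. -/
theorem Front.strip_bound (F : Front v α C r P) (hs : Small C α r ρ) {φ : Pt (n + 1) → ℝ}
    (hφ : ContDiff ℝ 1 φ) (hφc : HasCompactSupport φ) (hφs : tsupport φ ⊆ ball 0 (ρ / 16)) :
    ∃ K : ℝ, ∀ e : ℝ, 0 < e →
      |∫ y, φ y * pd (Fin.last n) (strip e) y * hodoFlux (Gf v P ρ y) (Fin.last n)| ≤
        K * (4 * e) ^ α := by
  have hp := hs.pos
  obtain ⟨χ, hχs, hχc, -, hχ01, hχ1⟩ := exists_cutoff hφc.isCompact isOpen_univ (subset_univ _)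
  have hχ1' : ContDiff ℝ 1 χ := hχs.of_le (WithTop.coe_le_coe.2 le_top)
  obtain ⟨B, hB⟩ := hφc.exists_bound_of_continuous hφ.continuous
  have hB0 : 0 ≤ B := (norm_nonneg _).trans (hB 0)
  have hχp : Continuous (pd (Fin.last n) χ) := (contDiff_pd (m := 0) hχ1' le_rfl).continuous
  have hχi : Integrable fun y => |pd (Fin.last n) χ y| :=
    (hχp.integrable_of_hasCompactSupport (hasCompactSupport_pd hχc)).abs
  refine ⟨3 * C * B * ∫ y, |pd (Fin.last n) χ y|, fun e he => ?_⟩
  have i1 : Integrable fun y => strip e y * pd (Fin.last n) χ y :=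
    ((strip_contDiff e).continuous.mul hχp).integrable_of_hasCompactSupport (hasCompactSupport_pd hχc).mul_left
  have i2 : Integrable fun y => χ y * pd (Fin.last n) (strip e) y :=
    (hχ1'.continuous.mul (continuous_pd_strip e)).integrable_of_hasCompactSupport hχc.mul_right
  have hstep2 : ∫ y, χ y * pd (Fin.last n) (strip e) y ≤ ∫ y, |pd (Fin.last n) χ y| := by
    have h0 := integral_pd_eq_zero (i := Fin.last n) ((strip_contDiff e).mul hχ1') hχc.mul_left
    have e2 : ∀ y, pd (Fin.last n) (fun z => strip e z * χ z) y =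
        strip e y * pd (Fin.last n) χ y + χ y * pd (Fin.last n) (strip e) y := fun y => by
      rw [pd_mul ((strip_contDiff e).differentiable one_ne_zero y) (hχ1'.differentiable one_ne_zero y)]
      ring
    rw [integral_congr_ae (Eventually.of_forall e2), integral_add i1 i2] at h0
    calc ∫ y, χ y * pd (Fin.last n) (strip e) y = ∫ y, -(strip e y * pd (Fin.last n) χ y) := by
          rw [integral_neg]; linarith
      _ ≤ ∫ y, |pd (Fin.last n) χ y| := by
          refine integral_mono i1.neg hχi fun y => ?_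
          refine (neg_le_abs _).trans ?_
          rw [abs_mul]
          exact mul_le_of_le_one_left (abs_nonneg _) (strip_abs e y)
  have hC0 : 0 ≤ 3 * C * (4 * e) ^ α :=
    mul_nonneg (mul_nonneg (by norm_num) F.nonneg_C) (Real.rpow_nonneg (by positivity) _)
  refine (abs_integral_le_integral_abs).trans ((integral_mono_of_nonneg
    (Eventually.of_forall fun y => abs_nonneg _) (i2.const_mul (3 * C * (4 * e) ^ α * B))
    (Eventually.of_forall fun y => ?_)).trans ?_)
  · simp only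
    by_cases h : φ y = 0 ∨ pd (Fin.last n) (strip e) y = 0
    · have hz : φ y * pd (Fin.last n) (strip e) y * hodoFlux (Gf v P ρ y) (Fin.last n) = 0 := by
        rcases h with h | h <;> simp [h]
      rw [hz, abs_zero]
      exact mul_nonneg (mul_nonneg hC0 hB0) (mul_nonneg (hχ01 y).1 (pd_strip_nonneg he y))
    · rw [not_or] at h
      have hys : y ∈ tsupport φ := subset_tsupport φ h.1
      have hχy : χ y = 1 := (hχ1.filter_mono (nhds_le_nhdsSet hys)).self_of_nhds
      have g1 : e / 2 ≤ y (Fin.last n) := not_lt.1 fun h' => h.2 (pd_strip_eq_zero he (Or.inl h'))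
      have g2 : y (Fin.last n) ≤ e := not_lt.1 fun h' => h.2 (pd_strip_eq_zero he (Or.inr h'))
      have hyd : y ∈ dom n ρ := ⟨show -0 ≤ y (Fin.last n) by linarith,
        closedBall_subset_closedBall (by linarith) (ball_subset_closedBall (hφs hys))⟩
      rw [abs_mul, abs_mul, hχy, one_mul, abs_of_nonneg (pd_strip_nonneg he y)]
      calc |φ y| * pd (Fin.last n) (strip e) y * |hodoFlux (Gf v P ρ y) (Fin.last n)|
          ≤ B * pd (Fin.last n) (strip e) y * (3 * C * (4 * e) ^ α) :=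
            mul_le_mul (mul_le_mul_of_nonneg_right (hB y) (pd_strip_nonneg he y))
              (F.flux_last_le hs hyd g2) (abs_nonneg _) (mul_nonneg hB0 (pd_strip_nonneg he y))
        _ = _ := by ring
  · rw [integral_const_mul]
    calc 3 * C * (4 * e) ^ α * B * ∫ y, χ y * pd (Fin.last n) (strip e) y
        ≤ 3 * C * (4 * e) ^ α * B * ∫ y, |pd (Fin.last n) χ y| :=
          mul_le_mul_of_nonneg_left hstep2 (mul_nonneg hC0 hB0)
      _ = _ := by ring

/-- The equation in weak form up to the flat side. -/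
theorem Front.weak_eq (F : Front v α C r P) (hs : Small C α r ρ) {φ : Pt (n + 1) → ℝ}
    (hφ : ContDiff ℝ ∞ φ) (hφc : HasCompactSupport φ) (hφs : tsupport φ ⊆ ball 0 (ρ / 16)) :
    ∫ x in Ho n 0, fderiv ℝ φ x (hodoFlux (Gf v P ρ x)) = 0 := by
  have hp := hs.pos
  have hφ1 : ContDiff ℝ 1 φ := hφ.of_le (WithTop.coe_le_coe.2 le_top)
  obtain ⟨W, hW⟩ : ∃ W : Pt (n + 1) → Pt (n + 1), W = fun y => hodoFlux (Gf v P ρ y) := ⟨_, rfl⟩
  have hWc : ContinuousOn W (dom n ρ) := hW ▸ F.continuousOn_flux hs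
  have hfc : ContinuousOn (fun y => fderiv ℝ φ y (W y)) (dom n ρ) :=
    ((hφ1.continuous_fderiv one_ne_zero).continuousOn).clm_apply hWc
  have hKsub : tsupport φ ∩ Hc n 0 ⊆ dom n ρ := fun y hy =>
    ⟨hy.2, closedBall_subset_closedBall (by linarith) (ball_subset_closedBall (hφs hy.1))⟩
  have hfint : IntegrableOn (fun y => fderiv ℝ φ y (W y)) (Ho n 0) := by
    have h1 : IntegrableOn (fun y => fderiv ℝ φ y (W y)) (tsupport φ ∩ Hc n 0) :=
      (hfc.mono hKsub).integrableOn_compact (hφc.isCompact.inter_right (isClosed_Hc (n := n) 0))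
    refine (h1.mono_set (s := Ho n 0 ∩ tsupport φ) fun x hx => ⟨hx.2, Ho_subset_Hc 0 hx.1⟩
      ).of_forall_sdiff_eq_zero (isOpen_Ho 0).measurableSet fun x hx => ?_
    rw [fderiv_of_notMem_tsupport ℝ fun h => hx.2 ⟨hx.1, h⟩]
    rfl
  obtain ⟨e, he⟩ : ∃ e : ℕ → ℝ, e = fun (m : ℕ) => 1 / ((m : ℝ) + 1) := ⟨_, rfl⟩
  have hep : ∀ m, 0 < e m := fun m => by rw [he]; positivity
  have he0 : Tendsto e atTop (𝓝 0) := he ▸ tendsto_one_div_add_atTop_nhds_zero_nat
  have hlimL : Tendsto (fun m => ∫ y, strip (e m) y * fderiv ℝ φ y (W y)) atTop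
      (𝓝 (∫ y in Ho n 0, fderiv ℝ φ y (W y))) := by
    have e1 : ∀ m, ∫ y, strip (e m) y * fderiv ℝ φ y (W y) =
        ∫ y in Ho n 0, strip (e m) y * fderiv ℝ φ y (W y) :=
      fun m => (setIntegral_eq_integral_of_forall_compl_eq_zero fun y hy => by
        have h1 : y (Fin.last n) ≤ 0 := by simpa [Ho] using hy
        rw [strip_zero (hep m) (by linarith [hep m]), zero_mul]).symm
    simp only [e1]
    refine tendsto_integral_of_dominated_convergence (fun y => |fderiv ℝ φ y (W y)|)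
      (fun m => (strip_contDiff (e m)).continuous.aestronglyMeasurable.mul hfint.aestronglyMeasurable)
      hfint.abs (fun m => Eventually.of_forall fun y => ?_) ?_
    · rw [Real.norm_eq_abs, abs_mul]
      exact mul_le_of_le_one_left (abs_nonneg _) (strip_abs _ y)
    · refine (ae_restrict_iff' (isOpen_Ho 0).measurableSet).2 (Eventually.of_forall fun y hy => ?_)
      have hpos : (0 : ℝ) < y (Fin.last n) := by simpa [Ho] using hy
      refine tendsto_const_nhds.congr' ?_
      filter_upwards [he0.eventually (gt_mem_nhds hpos)] with m hm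
      rw [strip_one (hep m) hm.le, one_mul]
  obtain ⟨K, hK⟩ := F.strip_bound hs hφ1 hφc hφs
  have hlimR : Tendsto (fun m => ∫ y, strip (e m) y * fderiv ℝ φ y (W y)) atTop (𝓝 0) := by
    refine squeeze_zero_norm (fun m => ?_) (a := fun m : ℕ => K * (4 * e m) ^ α) ?_
    · rw [hW, F.strip_identity hs hφ1 hφc hφs (hep m), norm_neg, Real.norm_eq_abs]
      exact hK _ (hep m)
    · have h4 : Tendsto (fun m : ℕ => 4 * e m) atTop (𝓝 0) := by simpa using he0.const_mul 4
      simpa [Real.zero_rpow F.alpha.ne'] using (h4.rpow_const (Or.inr F.alpha.le)).const_mul K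
  have := tendsto_nhds_unique hlimL hlimR
  rw [hW] at this
  exact this

/-- The hodograph transform at a point in normal form. -/
theorem Front.hodograph (F : Front v α C r P) :
    ∃ (M r1 : ℝ) (g : Pt (n + 1) → ℝ) (G : Pt (n + 1) → Pt (n + 1)), 0 < r1 ∧
      Jet1 α M (Hc n 0 ∩ closedBall 0 r1) g G ∧ G 0 = EuclideanSpace.single (Fin.last n) 1 ∧
      ContDiffOn ℝ ∞ g (Ho n 0 ∩ ball 0 r1) ∧
      (∀ x ∈ Ho n 0 ∩ ball 0 r1, ∑ a, pd a (fun y => hodoFlux (G y) a) x = 0) ∧
      (∀ φ : Pt (n + 1) → ℝ, ContDiff ℝ ∞ φ → HasCompactSupport φ →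
        tsupport φ ⊆ ball 0 r1 → ∫ x in Ho n 0, fderiv ℝ φ x (hodoFlux (G x)) = 0) ∧
      g 0 = 0 ∧
      ∀ᶠ x in 𝓝 (0 : Pt (n + 1)), 0 < v x → lift (psi v x) (g (psi v x)) = x := by
  obtain ⟨ρ, hs⟩ := exists_small (C := C) F.alpha F.pos_r
  have hp := hs.pos
  have h0d : (0 : Pt (n + 1)) ∈ dom n ρ := ⟨by simp [Hc], by simp; positivity⟩
  have hg0 : gf v ρ 0 = 0 := by
    obtain ⟨a1, a2, a3, -⟩ := F.gf_spec hs h0d
    have hc0 : lift (0 : Pt (n + 1)) 0 ∈ closure {x | 0 < v x} := by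
      simpa [lift] using frontier_subset_closure F.mem_free
    rcases lt_trichotomy (gf v ρ 0) 0 with h | h | h
    · have := F.grow_up hs (y := 0) (by simp; positivity) a3 h (by linarith) (by simp; positivity)
      change v (hf v ρ 0) + _ ≤ v (lift 0 0) at this
      rw [a2, show lift (0 : Pt (n + 1)) 0 = 0 by simp [lift], F.v_zero] at this
      simp at this
      linarith
    · exact h
    · have := F.grow_up hs (y := 0) (by simp; positivity) hc0 h (by simp; positivity) (by linarith)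
      change v (lift 0 0) + _ ≤ v (hf v ρ 0) at this
      rw [a2, show lift (0 : Pt (n + 1)) 0 = 0 by simp [lift], F.v_zero] at this
      simp at this
      linarith
  have hh0 : hf v ρ 0 = 0 := by simp [hf, hg0, lift]
  have hG0 : Gf v P ρ 0 = eL n := by rw [Gf, hh0, F.zero]; exact flipV_eL
  refine ⟨3 * C * 4 ^ α, ρ / 16, gf v ρ, Gf v P ρ, by positivity, F.jet_gf hs, hG0,
    (contDiffOn_infty.2 (F.gf_smooth hs)).mono (inter_subset_inter_right _ (ball_subset_ball (by linarith))),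
    fun x hx => F.flux_div hs ⟨hx.1, ball_subset_ball (by linarith) hx.2⟩,
    fun φ hφ hφc hφs => F.weak_eq hs hφ hφc hφs, hg0, ?_⟩
  have hc : Continuous (psi v) := by
    unfold psi lift
    exact continuous_id.add ((F.lmin.continuous.sub continuous_last).smul continuous_const)
  have h0 : psi v 0 = 0 := by simp [psi, lift, F.v_zero]
  have e1 : ∀ᶠ x in 𝓝 (0 : Pt (n + 1)), psi v x ∈ closedBall (0 : Pt (n + 1)) (ρ / 8) :=
    (hc.tendsto 0).eventually (by rw [h0]; exact closedBall_mem_nhds _ (by positivity))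
  filter_upwards [e1, closedBall_mem_nhds (0 : Pt (n + 1)) (show 0 < ρ / 4 by positivity)] with x hx hx' hpos
  exact F.hf_psi hs hpos (mem_closedBall_zero_iff.1 hx') ⟨by simp [Hc, psi]; linarith, hx⟩

end

end Vale.Agent.P098.Reg.High
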