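import Vale.Agent.P098.Reg.High.Taylor

/-! Limits of normalised blow-ups of a weak equation, and their rigidity. -/

noncomputable section

namespace Vale.Agent.P098.Reg.High

open MeasureTheory Set Filter Topology Metric
open scoped ContDiff InnerProductSpace

variable {n : ℕ}

/-- A normalised blow-up: derivative of Hölder constant one, data of size `e`. -/
structure Blown (α h e : ℝ) (v : EuclideanSpace ℝ (Fin (n + 1)) → ℝ)
    (V F : EuclideanSpace ℝ (Fin (n + 1)) → EuclideanSpace ℝ (Fin (n + 1)))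
    (g : EuclideanSpace ℝ (Fin (n + 1)) → ℝ) : Prop where
  h_nonneg : 0 ≤ h
  jet : Jet1 α 1 (Hc n h) v V
  v0 : v 0 = 0
  V0 : V 0 = 0
  contF : ContinuousOn F (Hc n h)
  contg : ContinuousOn g (Hc n h)
  smallF : ∀ x ∈ Hc n h, ‖F x - F 0‖ ≤ e * ‖x‖ ^ α
  smallg : ∀ x ∈ Hc n h, |g x| ≤ e
  flux : Flux h (fun x => V x + F x) g

variable {α : ℝ}

theorem blown_rest {h e : ℝ} {v : EuclideanSpace ℝ (Fin (n + 1)) → ℝ}
    {V F : EuclideanSpace ℝ (Fin (n + 1)) → EuclideanSpace ℝ (Fin (n + 1))}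
    {g : EuclideanSpace ℝ (Fin (n + 1)) → ℝ} (hα : 0 < α) (H : Blown α h e v V F g)
    {φ : EuclideanSpace ℝ (Fin (n + 1)) → ℝ} (hφ : ContDiff ℝ ∞ φ) (hs : HasCompactSupport φ)
    (hc : ∫ x in Ho n h, fderiv ℝ φ x (F 0) = 0) :
    ∫ x in Ho n h, (fderiv ℝ φ x (V x + (F x - F 0)) + g x * φ x) = 0 := by
  have hz : ∀ x, x ∉ tsupport φ → fderiv ℝ φ x = 0 := fun x hx => fderiv_of_notMem_tsupport ℝ hx
  have hW : ContinuousOn (fun x => V x + (F x - F 0)) (Hc n h) :=
    (H.jet.continuousOn hα).add (H.contF.sub continuousOn_const)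
  have i1 : IntegrableOn (fun x => fderiv ℝ φ x (V x + (F x - F 0)) + g x * φ x) (Ho n h) :=
    integrableOn_Ho ((continuousOn_fderiv_apply hφ hW).add (H.contg.mul hφ.continuous.continuousOn)) hs
      fun x _ hx => by simp [hz x hx, image_eq_zero_of_notMem_tsupport hx]
  have i2 : IntegrableOn (fun x => fderiv ℝ φ x (F 0)) (Ho n h) :=
    integrableOn_Ho (continuousOn_fderiv_apply hφ continuousOn_const) hs fun x _ hx => by simp [hz x hx]
  have h2 := integral_add i1 i2
  rw [hc, add_zero] at h2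
  rw [← h2, ← H.flux φ hφ hs]
  refine integral_congr_ae (Eventually.of_forall fun x => ?_)
  simp only [map_add, map_sub]
  ring

/-- Extraction of a limit. -/
theorem blow_limit (hα : 0 < α) {h e : ℕ → ℝ} {v : ℕ → EuclideanSpace ℝ (Fin (n + 1)) → ℝ}
    {V F : ℕ → EuclideanSpace ℝ (Fin (n + 1)) → EuclideanSpace ℝ (Fin (n + 1))}
    {g : ℕ → EuclideanSpace ℝ (Fin (n + 1)) → ℝ} (H : ∀ k, Blown α (h k) (e k) (v k) (V k) (F k) (g k))
    (he : Tendsto e atTop (𝓝 0)) :
    ∃ (ψ : ℕ → ℕ) (w : EuclideanSpace ℝ (Fin (n + 1)) → ℝ)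
      (W : EuclideanSpace ℝ (Fin (n + 1)) → EuclideanSpace ℝ (Fin (n + 1))), StrictMono ψ ∧
      (∀ x y, ‖W x - W y‖ ≤ dist x y ^ α) ∧ W 0 = 0 ∧
      (∀ U : Set (EuclideanSpace ℝ (Fin (n + 1))), (∀ x ∈ U, ∀ᶠ k in atTop, x ∈ Hc n (h k)) →
        Jet1 α 1 U w W) ∧
      (∀ (p : ℕ → EuclideanSpace ℝ (Fin (n + 1))) (q : EuclideanSpace ℝ (Fin (n + 1))),
        Tendsto p atTop (𝓝 q) → (∀ k, p k ∈ Hc n (h k)) →
          Tendsto (fun k => V (ψ k) (p (ψ k))) atTop (𝓝 (W q))) ∧
      ∀ T : Set (EuclideanSpace ℝ (Fin (n + 1))), MeasurableSet T →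
        (∀ x, ∀ᶠ k in atTop, (x ∈ Ho n (h k) ↔ x ∈ T)) →
        ∀ φ : EuclideanSpace ℝ (Fin (n + 1)) → ℝ, ContDiff ℝ ∞ φ → HasCompactSupport φ →
          (∀ᶠ k in atTop, ∫ x in Ho n (h k), fderiv ℝ φ x (F k 0) = 0) →
          ∫ x in T, fderiv ℝ φ x (W x) = 0 := by
  have h0 : ∀ k, (0 : EuclideanSpace ℝ (Fin (n + 1))) ∈ Hc n (h k) := fun k => by
    show -h k ≤ (0 : EuclideanSpace ℝ (Fin (n + 1))) (Fin.last n)
    simpa using (H k).h_nonneg
  obtain ⟨Vb, eVb⟩ : ∃ Vb : ℕ → EuclideanSpace ℝ (Fin (n + 1)) → EuclideanSpace ℝ (Fin (n + 1)),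
      Vb = fun k x => V k (clamp (h k) x) := ⟨_, rfl⟩
  obtain ⟨vb, evb⟩ : ∃ vb : ℕ → EuclideanSpace ℝ (Fin (n + 1)) → ℝ,
      vb = fun k x => v k (clamp (h k) x) := ⟨_, rfl⟩
  have hVd : ∀ k x y, ‖Vb k x - Vb k y‖ ≤ dist x y ^ α := fun k x y => by
    have := (H k).jet.hol _ (clamp_mem (h k) x) _ (clamp_mem (h k) y)
    rw [one_mul] at this
    rw [eVb]
    exact this.trans (Real.rpow_le_rpow dist_nonneg (clamp_dist _ _ _) hα.le)
  have hV0 : ∀ k, Vb k 0 = 0 := fun k => by
    rw [eVb]; simp only; rw [clamp_zero_eq (H k).h_nonneg, (H k).V0]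
  have hVb : ∀ k x, ‖Vb k x‖ ≤ ‖x‖ ^ α := fun k x => by
    have := hVd k x 0
    rwa [hV0, sub_zero, dist_zero_right] at this
  have hvd : ∀ k R x y, ‖x‖ ≤ R → ‖y‖ ≤ R → |vb k x - vb k y| ≤ 3 * (2 * R) ^ α * dist x y := by
    intro k R x y hx hy
    have hR : 0 ≤ R := (norm_nonneg _).trans hx
    rw [evb]
    refine ((H k).jet.abs_sub_le hα (h0 k) (H k).V0 (clamp_mem _ x) (clamp_mem _ y)
      ((norm_clamp_le (H k).h_nonneg x).trans hx) ((norm_clamp_le (H k).h_nonneg y).trans hy)).trans ?_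
    exact mul_le_mul_of_nonneg_left (clamp_dist _ _ _)
      (mul_nonneg (by norm_num) (Real.rpow_nonneg (by linarith) _))
  have hpair : ∀ x, ∀ ε > 0, ∃ δ > 0, ∀ k y, dist y x < δ → dist (vb k y, Vb k y) (vb k x, Vb k x) ≤ ε := by
    intro x ε hε
    obtain ⟨L, eL⟩ : ∃ L, L = 3 * (2 * (‖x‖ + 1)) ^ α + 1 := ⟨_, rfl⟩
    have hL : 0 < L := eL ▸ add_pos_of_nonneg_of_pos
      (mul_nonneg (by norm_num) (Real.rpow_nonneg (by positivity) _)) one_pos
    refine ⟨min 1 (min (ε / L) (ε ^ α⁻¹)), lt_min one_pos (lt_min (div_pos hε hL) (Real.rpow_pos_of_pos hε _)),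
      fun k y hy => ?_⟩
    simp only [lt_min_iff] at hy
    rw [Prod.dist_eq, max_le_iff]
    refine ⟨?_, ?_⟩
    · rw [Real.dist_eq]
      have hyn : ‖y‖ ≤ ‖x‖ + 1 := by
        linarith [norm_le_norm_add_norm_sub' y x, (dist_eq_norm y x).symm.trans_lt hy.1]
      refine (hvd k (‖x‖ + 1) y x hyn (by linarith)).trans ?_
      calc 3 * (2 * (‖x‖ + 1)) ^ α * dist y x ≤ L * dist y x :=
            mul_le_mul_of_nonneg_right (by rw [eL]; linarith) dist_nonneg
        _ ≤ L * (ε / L) := mul_le_mul_of_nonneg_left hy.2.1.le hL.le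
        _ = ε := by field_simp
    · rw [dist_eq_norm]
      refine (hVd k y x).trans ?_
      calc dist y x ^ α ≤ (ε ^ α⁻¹) ^ α := Real.rpow_le_rpow dist_nonneg hy.2.2.le hα.le
        _ = ε := Real.rpow_inv_rpow hε.le hα.ne'
  obtain ⟨ψ, G, hψ, hG⟩ := exists_subseq (fun k x => (vb k x, Vb k x)) (0, 0)
    (B := fun x => max (3 * (2 * ‖x‖) ^ α * ‖x‖) (‖x‖ ^ α)) (fun k x => by
      rw [Prod.dist_eq]
      refine max_le_max ?_ ?_
      · have h1 := hvd k ‖x‖ x 0 le_rfl (by simp)
        have hz : vb k 0 = 0 := by rw [evb]; simp only; rw [clamp_zero_eq (H k).h_nonneg, (H k).v0]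
        rw [hz, sub_zero, dist_zero_right] at h1
        rwa [Real.dist_0_eq_abs]
      · rw [dist_zero_right]; exact hVb k x) hpair
  have hGv : ∀ x, Tendsto (fun k => vb (ψ k) x) atTop (𝓝 (G x).1) := fun x =>
    (continuous_fst.tendsto _).comp (hG x)
  have hGV : ∀ x, Tendsto (fun k => Vb (ψ k) x) atTop (𝓝 (G x).2) := fun x =>
    (continuous_snd.tendsto _).comp (hG x)
  refine ⟨ψ, fun x => (G x).1, fun x => (G x).2, hψ, fun x y => ?_, ?_, fun U hU => ⟨?_, ?_⟩,
    fun p q hpq hpm => ?_, ?_⟩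
  · exact le_of_tendsto' ((hGV x).sub (hGV y)).norm fun k => hVd _ x y
  · exact tendsto_nhds_unique (hGV 0) (by simpa [hV0] using tendsto_const_nhds)
  · intro x _ y _
    rw [one_mul]
    exact le_of_tendsto' ((hGV x).sub (hGV y)).norm fun k => hVd _ x y
  · intro x hx y hy
    refine le_of_tendsto (((hGv y).sub (hGv x)).sub (((hGV x)).inner tendsto_const_nhds)).abs ?_
    filter_upwards [hψ.tendsto_atTop.eventually (hU x hx), hψ.tendsto_atTop.eventually (hU y hy)] with k hxk hyk
    rw [evb, eVb]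
    simp only
    rw [clamp_of_mem hxk, clamp_of_mem hyk]
    exact (H (ψ k)).jet.tay x hxk y hyk
  · have hp' : ∀ k, V (ψ k) (p (ψ k)) = Vb (ψ k) (p (ψ k)) := fun k => by
      rw [eVb]; simp only; rw [clamp_of_mem (hpm (ψ k))]
    simp only [hp']
    have hd : Tendsto (fun k => dist (p (ψ k)) q ^ α) atTop (𝓝 0) := by
      simpa [Real.zero_rpow hα.ne'] using
        ((tendsto_iff_dist_tendsto_zero.1 hpq).comp hψ.tendsto_atTop).rpow_const (Or.inr hα.le)
    have h1 : Tendsto (fun k => Vb (ψ k) (p (ψ k)) - Vb (ψ k) q) atTop (𝓝 0) :=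
      squeeze_zero_norm (fun k => hVd _ _ _) hd
    simpa using h1.add (hGV q)
  · intro T hT hev φ hφ hs hconst
    have hz : ∀ x, x ∉ tsupport φ → fderiv ℝ φ x = 0 := fun x hx => fderiv_of_notMem_tsupport ℝ hx
    obtain ⟨J, eJ⟩ : ∃ J : ℕ → EuclideanSpace ℝ (Fin (n + 1)) → ℝ, J = fun k =>
        (Ho n (h (ψ k))).indicator (fun x => fderiv ℝ φ x (V (ψ k) x + (F (ψ k) x - F (ψ k) 0))
          + g (ψ k) x * φ x) := ⟨_, rfl⟩
    have hJ0 : ∀ᶠ k in atTop, ∫ x, J k x = 0 := by
      filter_upwards [hψ.tendsto_atTop.eventually hconst] with k hk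
      rw [eJ]
      simp only
      rw [integral_indicator (isOpen_Ho _).measurableSet]
      exact blown_rest hα (H (ψ k)) hφ hs hk
    have hlim : Tendsto (fun k => ∫ x, J k x) atTop (𝓝 (∫ x, T.indicator (fun x => fderiv ℝ φ x (G x).2) x)) := by
      refine tendsto_integral_filter_of_dominated_convergence
        (fun x => ‖fderiv ℝ φ x‖ * (2 * ‖x‖ ^ α) + |φ x|) (Eventually.of_forall fun k => ?_) ?_ ?_ ?_
      · rw [eJ]
        refine (aestronglyMeasurable_indicator_iff (isOpen_Ho _).measurableSet).2 ?_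
        refine ((ContinuousOn.mono ?_ (Ho_subset_Hc _)).aestronglyMeasurable (isOpen_Ho _).measurableSet)
        exact (continuousOn_fderiv_apply hφ (((H _).jet.continuousOn hα).add
          ((H _).contF.sub continuousOn_const))).add ((H _).contg.mul hφ.continuous.continuousOn)
      · filter_upwards [hψ.tendsto_atTop.eventually (he.eventually (ge_mem_nhds zero_lt_one))] with k hk
        refine Eventually.of_forall fun x => ?_
        rw [eJ]
        simp only
        by_cases hx : x ∈ Ho n (h (ψ k))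
        · rw [indicator_of_mem hx]
          have hxc := Ho_subset_Hc _ hx
          refine (norm_add_le _ _).trans (add_le_add ?_ ?_)
          · refine ((fderiv ℝ φ x).le_opNorm _).trans (mul_le_mul_of_nonneg_left ?_ (norm_nonneg _))
            have h1 : ‖V (ψ k) x‖ ≤ ‖x‖ ^ α := by
              have := hVb (ψ k) x
              rw [eVb] at this
              simp only at this
              rwa [clamp_of_mem hxc] at this
            have h2 := ((H (ψ k)).smallF x hxc).trans
              (mul_le_of_le_one_left (Real.rpow_nonneg (norm_nonneg x) α) hk)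
            linarith [norm_add_le (V (ψ k) x) (F (ψ k) x - F (ψ k) 0)]
          · rw [Real.norm_eq_abs, abs_mul]
            exact mul_le_of_le_one_left (abs_nonneg _) (((H (ψ k)).smallg x hxc).trans hk)
        · rw [indicator_of_notMem hx, norm_zero]
          positivity
      · refine ((((hφ.continuous_fderiv (by simp)).norm.mul (continuous_const.mul
          (continuous_norm.rpow_const fun _ => Or.inr hα.le))).add hφ.continuous.abs)).integrable_of_hasCompactSupport
          (HasCompactSupport.intro hs fun x hx => by simp [hz x hx, image_eq_zero_of_notMem_tsupport hx])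
      · refine Eventually.of_forall fun x => ?_
        rw [eJ]
        by_cases hxT : x ∈ T
        · rw [indicator_of_mem hxT]
          have hin : ∀ᶠ k in atTop, x ∈ Ho n (h (ψ k)) :=
            (hψ.tendsto_atTop.eventually (hev x)).mono fun k hk => hk.2 hxT
          have hsum : Tendsto (fun k => fderiv ℝ φ x (Vb (ψ k) x)) atTop (𝓝 (fderiv ℝ φ x (G x).2)) :=
            ((fderiv ℝ φ x).continuous.tendsto _).comp (hGV x)
          have hsmall : Tendsto (fun k => fderiv ℝ φ x (Vb (ψ k) x)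
              - ((Ho n (h (ψ k))).indicator (fun x => fderiv ℝ φ x (V (ψ k) x + (F (ψ k) x - F (ψ k) 0))
                + g (ψ k) x * φ x) x)) atTop (𝓝 0) := by
            refine squeeze_zero_norm' ?_ (a := fun k => (‖fderiv ℝ φ x‖ * ‖x‖ ^ α + |φ x|) * |e (ψ k)|) ?_
            · filter_upwards [hin] with k hk
              have hxc := Ho_subset_Hc _ hk
              rw [indicator_of_mem hk, eVb]
              simp only
              rw [clamp_of_mem hxc, map_add, sub_add_eq_sub_sub, sub_add_cancel_left, add_mul]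
              refine (norm_sub_le _ _).trans (add_le_add ?_ ?_)
              · rw [norm_neg]
                refine ((fderiv ℝ φ x).le_opNorm _).trans ?_
                rw [mul_assoc]
                refine mul_le_mul_of_nonneg_left (((H (ψ k)).smallF x hxc).trans ?_) (norm_nonneg _)
                rw [mul_comm]
                exact mul_le_mul_of_nonneg_left (le_abs_self _) (Real.rpow_nonneg (norm_nonneg _) _)
              · rw [Real.norm_eq_abs, abs_mul, mul_comm |φ x|]
                exact mul_le_mul_of_nonneg_right (((H (ψ k)).smallg x hxc).trans (le_abs_self _)) (abs_nonneg _)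
            · simpa using ((he.comp hψ.tendsto_atTop).abs.const_mul (‖fderiv ℝ φ x‖ * ‖x‖ ^ α + |φ x|))
          simpa using hsum.sub hsmall
        · rw [indicator_of_notMem hxT]
          refine tendsto_const_nhds.congr' ?_
          filter_upwards [hψ.tendsto_atTop.eventually (hev x)] with k hk
          exact (indicator_of_notMem (mt hk.1 hxT) _).symm
    have h1 := tendsto_nhds_unique (hlim.congr' hJ0) tendsto_const_nhds
    rwa [integral_indicator hT] at h1

end Vale.Agent.P098.Reg.High
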