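import Vale.Agent.P098.Reg.High.Quot

/-! Tangential regularity of linear equations, to every order. -/

noncomputable section

namespace Vale.Agent.P098.Reg.High

open MeasureTheory Set Filter Topology Metric
open scoped ContDiff InnerProductSpace

variable {n : ℕ} {α δ r : ℝ}

theorem eventually_small {c : ℝ} (hc : 0 < c) : ∀ᶠ s in 𝓝[>] (0 : ℝ), 0 < s ∧ s ≤ c :=
  (eventually_mem_nhdsWithin.mono fun _ hs => hs).and
    (eventually_nhdsWithin_of_eventually_nhds (eventually_le_nhds hc))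

theorem base_of_jet (hα : 0 < α) {M : ℝ} {w : (EuclideanSpace ℝ (Fin (n + 1))) → ℝ} {W : (EuclideanSpace ℝ (Fin (n + 1))) → (EuclideanSpace ℝ (Fin (n + 1)))} (hr : 0 < r)
    (hJ : Jet1 α M (Hc n 0 ∩ closedBall 0 r) w W) : Base α r 0 W := by
  have hsub : half n r ⊆ Hc n 0 ∩ closedBall (0 : (EuclideanSpace ℝ (Fin (n + 1)))) r := inter_subset_inter_right _ ball_subset_closedBall
  refine ⟨contDiffOn_zero.2 ((hJ.continuousOn hα).mono hsub), max (‖W 0‖ + |M| * r ^ α) |M|,
    fun x hx => ⟨?_, fun y hy => ?_⟩⟩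
  · refine le_max_of_le_left ((norm_le_norm_add_norm_sub' (W x) (W 0)).trans (add_le_add le_rfl ?_))
    refine (hJ.hol x (hsub hx) 0 ⟨by simp [Hc], mem_closedBall_self hr.le⟩).trans
      (mul_le_mul (le_abs_self M) ?_ (by positivity) (abs_nonneg _))
    exact Real.rpow_le_rpow dist_nonneg (mem_closedBall.1 (hsub hx).2) hα.le
  · exact (hJ.hol x (hsub hx) y (hsub hy)).trans
      (mul_le_mul_of_nonneg_right ((le_abs_self M).trans (le_max_right _ _)) (by positivity))

theorem TC.affine {k : ℕ} {j : ℕ} {A' : (EuclideanSpace ℝ (Fin (n + 1))) → ((EuclideanSpace ℝ (Fin (n + 1))) →L[ℝ] (EuclideanSpace ℝ (Fin (n + 1))))} {F' W : (EuclideanSpace ℝ (Fin (n + 1))) → (EuclideanSpace ℝ (Fin (n + 1)))} {s : ℝ}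
    (hA : TC α s j k A') (hF : TC α s j k F') (hW : TC α s j k W) :
    TC α s j k (fun x => A' x (W x) + F' x) :=
  ((hA.prod hF).prod hW).comp' (N := fun p : (((EuclideanSpace ℝ (Fin (n + 1))) →L[ℝ] (EuclideanSpace ℝ (Fin (n + 1)))) × (EuclideanSpace ℝ (Fin (n + 1)))) × (EuclideanSpace ℝ (Fin (n + 1))) => p.1.1 p.2 + p.1.2)
    ((contDiff_fst.fst.clm_apply contDiff_snd).add contDiff_fst.snd)

/-- A solution with tangentially regular data is tangentially regular. -/
theorem lin_reg (hα : 0 < α) (hE : Est n α δ) (hδ : 0 ≤ δ) :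
    ∀ (k : ℕ) (r : ℝ) (A : (EuclideanSpace ℝ (Fin (n + 1))) → ((EuclideanSpace ℝ (Fin (n + 1))) →L[ℝ] (EuclideanSpace ℝ (Fin (n + 1))))) (F : (EuclideanSpace ℝ (Fin (n + 1))) → (EuclideanSpace ℝ (Fin (n + 1)))) (w : (EuclideanSpace ℝ (Fin (n + 1))) → ℝ) (W : (EuclideanSpace ℝ (Fin (n + 1))) → (EuclideanSpace ℝ (Fin (n + 1)))),
      Sol α δ r A F w W → TC α r 0 k A → TC α r 0 k F → ∀ᶠ s in 𝓝[>] 0, TC α s 0 k W := by
  intro k
  induction k with
  | zero =>
    intro r A F w W hS _ _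
    obtain ⟨⟨M, MA, MF, B, _, D⟩, -⟩ := hS
    filter_upwards [eventually_small D.r_pos] with s hs
    exact (base_of_jet hα D.r_pos D.jet).mono hs.2
  | succ k ih =>
    intro r A F w W hS hA hF
    obtain ⟨M, MA, MF, B, _, D⟩ := hS.loc
    have hr := D.r_pos
    choose A' F' W' hA' hF' hS' hd' using fun i => lin_step hα hE hδ hS hA hF i
    obtain ⟨s0, hW0, hs0, hs0r⟩ := ((ih r A F w W hS hA.le_succ hF.le_succ).and
      (eventually_small (show (0:ℝ) < r / 32 by positivity))).exists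
    have hk : ∀ i, ∀ᶠ s in 𝓝[>] 0, TC α s 0 k (W' i) := fun i =>
      ih s0 A _ _ _ ((hS' i).mono hs0 hs0r) (hA.le_succ.mono (by linarith))
        (((hA' i).mono (by linarith)).affine ((hF' i).mono (by linarith)) hW0)
    filter_upwards [eventually_all.2 hk, eventually_small hs0] with s hs hs'
    exact ⟨(base_of_jet hα hr D.jet).mono (by linarith [hs'.2]),
      fun i => ⟨W' i, hs i, fun x hx => hd' i x (hi_mono (by linarith [hs'.2]) hx)⟩⟩

end Vale.Agent.P098.Reg.High
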