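import Vale.Agent.P098.Calc

/-! Entire harmonic functions of sublinear growth are constant (Caccioppoli, iterated). -/

noncomputable section

namespace Vale.Agent.P098.Reg.High

open MeasureTheory Set Filter Topology Metric
open scoped ContDiff

variable {d : ℕ}

/-- Iterated partial derivatives. -/
def pds : List (Fin d) → (EuclideanSpace ℝ (Fin d) → ℝ) → EuclideanSpace ℝ (Fin d) → ℝ
  | [], f => f
  | i :: l, f => pd i (pds l f)

theorem contDiff_pds {f : EuclideanSpace ℝ (Fin d) → ℝ} (hf : ContDiff ℝ ∞ f) :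
    ∀ l : List (Fin d), ContDiff ℝ ∞ (pds l f)
  | [] => hf
  | i :: l => contDiff_pd (m := ∞) (contDiff_pds hf l) le_rfl

theorem harmonic_pd {f : EuclideanSpace ℝ (Fin d) → ℝ} (hf : ContDiff ℝ ∞ f)
    (hl : ∀ x, ∑ i, pd i (pd i f) x = 0) (j : Fin d) (x : EuclideanSpace ℝ (Fin d)) :
    ∑ i, pd i (pd i (pd j f)) x = 0 := by
  have hdf : ∀ i, ContDiff ℝ ∞ (pd i f) := fun i => contDiff_pd (m := ∞) hf le_rfl
  have e : ∀ i, pd i (pd i (pd j f)) x = pd j (pd i (pd i f)) x := fun i => by
    have h1 : pd i (pd j f) = pd j (pd i f) :=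
      funext fun y => pd_comm isOpen_univ hf.contDiffOn (mem_univ y) (WithTop.coe_le_coe.2 le_top)
    rw [h1]
    exact pd_comm isOpen_univ (hdf i).contDiffOn (mem_univ x) (WithTop.coe_le_coe.2 le_top)
  rw [Finset.sum_congr rfl fun i _ => e i, ← pd_sum Finset.univ (F := fun i => pd i (pd i f))
    fun i _ => (contDiff_pd (m := 1) (hdf i) (WithTop.coe_le_coe.2 le_top)).differentiable one_ne_zero x,
    show (fun y => ∑ i, pd i (pd i f) y) = fun _ => (0 : ℝ) from funext hl, pd_const]

theorem harmonic_pds {f : EuclideanSpace ℝ (Fin d) → ℝ} (hf : ContDiff ℝ ∞ f)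
    (hl : ∀ x, ∑ i, pd i (pd i f) x = 0) :
    ∀ (l : List (Fin d)) (x : EuclideanSpace ℝ (Fin d)), ∑ i, pd i (pd i (pds l f)) x = 0
  | [], x => hl x
  | j :: l, x => harmonic_pd (contDiff_pds hf l) (harmonic_pds hf hl l) j x

/-- The Caccioppoli inequality. -/
theorem caccioppoli {w η : EuclideanSpace ℝ (Fin d) → ℝ} (hw : ContDiff ℝ 2 w)
    (hl : ∀ x, ∑ i, pd i (pd i w) x = 0) (hη : ContDiff ℝ 1 η) (hs : HasCompactSupport η) :
    ∫ x, η x ^ 2 * ∑ i, pd i w x ^ 2 ≤ 4 * ∫ x, w x ^ 2 * ∑ i, pd i η x ^ 2 := by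
  have hw1 : ContDiff ℝ 1 w := hw.of_le one_le_two
  have hwi : ∀ i, ContDiff ℝ 1 (pd i w) := fun i => contDiff_pd (m := 1) hw (by norm_num)
  have hηi : ∀ i, Continuous (pd i η) := fun i => (contDiff_pd (m := 0) hη le_rfl).continuous
  obtain ⟨Y, eY⟩ : ∃ Y : Fin d → EuclideanSpace ℝ (Fin d) → ℝ,
      Y = fun i x => η x * η x * (w x * pd i w x) := ⟨_, rfl⟩
  have hY : ∀ i, ContDiff ℝ 1 (Y i) := fun i => eY ▸ (hη.mul hη).mul (hw1.mul (hwi i))
  have hYs : ∀ i, HasCompactSupport (Y i) := fun i => eY ▸ (hs.mul_right).mul_right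
  have h0 := integral_dvg_eq_zero hY hYs
  have hdv : ∀ x, dvg Y x = η x ^ 2 * ∑ i, pd i w x ^ 2
      + 2 * (η x * w x * ∑ i, pd i η x * pd i w x) := fun x => by
    have e : ∀ i, pd i (Y i) x = η x ^ 2 * pd i w x ^ 2 + 2 * (η x * w x * (pd i η x * pd i w x))
        + η x ^ 2 * w x * pd i (pd i w) x := fun i => by
      have dη := hη.differentiable one_ne_zero x
      have dw := hw1.differentiable one_ne_zero x
      have dwi := (hwi i).differentiable one_ne_zero x
      rw [eY]
      simp only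
      rw [pd_mul (dη.fun_mul dη) (dw.fun_mul dwi), pd_mul dη dη, pd_mul dw dwi]
      ring
    rw [dvg, Finset.sum_congr rfl fun i _ => e i]
    simp only [Finset.sum_add_distrib, ← Finset.mul_sum]
    rw [hl x]; ring
  have c1 : Continuous fun x => η x ^ 2 * ∑ i, pd i w x ^ 2 :=
    (hη.continuous.pow 2).mul (continuous_finsetSum _ fun i _ => (hwi i).continuous.pow 2)
  have i1 : Integrable fun x => η x ^ 2 * ∑ i, pd i w x ^ 2 :=
    c1.integrable_of_hasCompactSupport ((hs.comp_left (g := fun t : ℝ => t ^ 2) (by simp)).mul_right)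
  have c2 : Continuous fun x => w x ^ 2 * ∑ i, pd i η x ^ 2 :=
    (hw1.continuous.pow 2).mul (continuous_finsetSum _ fun i _ => (hηi i).pow 2)
  have i2 : Integrable fun x => w x ^ 2 * ∑ i, pd i η x ^ 2 := by
    refine c2.integrable_of_hasCompactSupport (HasCompactSupport.intro hs fun x hx => ?_)
    have : ∀ i, pd i η x = 0 := fun i => by
      rw [pd, fderiv_of_notMem_tsupport ℝ hx]; rfl
    simp [this]
  have i3 : Integrable fun x => η x * w x * ∑ i, pd i η x * pd i w x :=
    ((hη.continuous.mul hw1.continuous).mul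
      (continuous_finsetSum _ fun i _ => (hηi i).mul (hwi i).continuous)).integrable_of_hasCompactSupport
      ((hs.mul_right).mul_right)
  have h1 : (∫ x, η x ^ 2 * ∑ i, pd i w x ^ 2)
      + 2 * ∫ x, η x * w x * ∑ i, pd i η x * pd i w x = 0 := by
    rw [← integral_const_mul, ← integral_add i1 (i3.const_mul 2), ← h0]
    exact integral_congr_ae (Eventually.of_forall fun x => (hdv x).symm)
  have h2 : -(2 * ∫ x, η x * w x * ∑ i, pd i η x * pd i w x)
      ≤ (1 / 2) * (∫ x, η x ^ 2 * ∑ i, pd i w x ^ 2) + 2 * ∫ x, w x ^ 2 * ∑ i, pd i η x ^ 2 := by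
    rw [← integral_const_mul, ← integral_const_mul, ← integral_const_mul, ← integral_neg,
      ← integral_add (i1.const_mul _) (i2.const_mul _)]
    refine integral_mono (i3.const_mul 2).neg ((i1.const_mul _).add (i2.const_mul _)) fun x => ?_
    simp only [Finset.mul_sum, ← Finset.sum_add_distrib, ← Finset.sum_neg_distrib]
    refine Finset.sum_le_sum fun i _ => ?_
    nlinarith [sq_nonneg (η x * pd i w x + 2 * (w x * pd i η x))]
  linarith

theorem le_cutoff_energy {w η : EuclideanSpace ℝ (Fin d) → ℝ} (hw : ContDiff ℝ 2 w) (hη : ContDiff ℝ 1 η)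
    (hs : HasCompactSupport η) {R : ℝ} (h1 : ∀ x ∈ closedBall (0 : EuclideanSpace ℝ (Fin d)) R, η x = 1)
    (j : Fin d) : ∫ x in closedBall 0 R, pd j w x ^ 2 ≤ ∫ x, η x ^ 2 * ∑ i, pd i w x ^ 2 := by
  have hwi : ∀ i, Continuous (pd i w) := fun i => (contDiff_pd (m := 0) hw (by norm_num)).continuous
  have c1 : Continuous fun x => η x ^ 2 * ∑ i, pd i w x ^ 2 :=
    (hη.continuous.pow 2).mul (continuous_finsetSum _ fun i _ => (hwi i).pow 2)
  have i1 : Integrable fun x => η x ^ 2 * ∑ i, pd i w x ^ 2 :=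
    c1.integrable_of_hasCompactSupport ((hs.comp_left (g := fun t : ℝ => t ^ 2) (by simp)).mul_right)
  have i2 : IntegrableOn (fun x => pd j w x ^ 2) (closedBall 0 R) :=
    ((hwi j).pow 2).continuousOn.integrableOn_compact (isCompact_closedBall _ _)
  rw [← integral_indicator measurableSet_closedBall]
  refine integral_mono (i2.integrable_indicator measurableSet_closedBall) i1 fun x => ?_
  by_cases hx : x ∈ closedBall (0 : EuclideanSpace ℝ (Fin d)) R
  · rw [indicator_of_mem hx, h1 x hx, one_pow, one_mul]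
    exact Finset.single_le_sum (f := fun i => pd i w x ^ 2) (fun i _ => sq_nonneg _) (Finset.mem_univ j)
  · rw [indicator_of_notMem hx]
    exact mul_nonneg (sq_nonneg _) (Finset.sum_nonneg fun i _ => sq_nonneg _)

theorem exists_step_bound (d : ℕ) : ∃ K, 0 ≤ K ∧ ∀ (w : EuclideanSpace ℝ (Fin d) → ℝ), ContDiff ℝ 2 w →
    (∀ x, ∑ i, pd i (pd i w) x = 0) → ∀ R : ℝ, 0 < R → ∀ j,
      ∫ x in closedBall 0 R, pd j w x ^ 2 ≤ K / R ^ 2 * ∫ x in closedBall 0 (2 * R), w x ^ 2 := by
  obtain ⟨χ, hχ, hχc, hχs, hχ01, hχ1⟩ := exists_cutoff (d := d) (isCompact_closedBall 0 1) isOpen_ball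
    (closedBall_subset_ball (show (1 : ℝ) < 2 by norm_num))
  have hχ' : ContDiff ℝ 1 χ := hχ.of_le (WithTop.coe_le_coe.2 le_top)
  have hgc : Continuous fun x => ∑ i, pd i χ x ^ 2 :=
    continuous_finsetSum _ fun i _ => ((contDiff_pd (m := 0) hχ' le_rfl).continuous).pow 2
  obtain ⟨M, hM⟩ := hgc.bounded_above_of_compact_support (HasCompactSupport.intro hχc fun x hx => by
    simp [pd, fderiv_of_notMem_tsupport ℝ hx])
  have hM0 : 0 ≤ M := (norm_nonneg _).trans (hM 0)
  refine ⟨4 * M, by positivity, fun w hw hl R hR j => ?_⟩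
  obtain ⟨η, eη⟩ : ∃ η : EuclideanSpace ℝ (Fin d) → ℝ, η = fun x => χ (R⁻¹ • x) := ⟨_, rfl⟩
  have hη : ContDiff ℝ 1 η := eη ▸ hχ'.comp (contDiff_id.const_smul R⁻¹)
  have hpd : ∀ i x, pd i η x = R⁻¹ * pd i χ (R⁻¹ • x) := fun i x => by
    have h := (hχ'.differentiable one_ne_zero (R⁻¹ • x)).hasFDerivAt.comp x
      ((hasFDerivAt_id (𝕜 := ℝ) x).const_smul R⁻¹)
    rw [eη, pd, show (fun x => χ (R⁻¹ • x)) = χ ∘ HSMul.hSMul R⁻¹ from rfl, h.fderiv]
    simp [pd]
  have hout : ∀ x, x ∉ closedBall (0 : EuclideanSpace ℝ (Fin d)) (2 * R) → R⁻¹ • x ∉ tsupport χ := by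
    intro x hx h
    refine hx (mem_closedBall_zero_iff.2 ?_)
    have h2 := mem_ball_zero_iff.1 (hχs h)
    rw [norm_smul, norm_inv, Real.norm_of_nonneg hR.le, inv_mul_lt_iff₀ hR] at h2
    linarith
  have hηs : HasCompactSupport η := HasCompactSupport.intro (isCompact_closedBall 0 (2 * R)) fun x hx => by
    rw [eη]; exact image_eq_zero_of_notMem_tsupport (hout x hx)
  have hc := caccioppoli hw hl hη hηs
  have hlow : ∫ x in closedBall 0 R, pd j w x ^ 2 ≤ ∫ x, η x ^ 2 * ∑ i, pd i w x ^ 2 := by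
    refine le_cutoff_energy hw hη hηs (fun x hx => ?_) j
    rw [eη]
    refine hχ1.self_of_nhdsSet _ (mem_closedBall_zero_iff.2 ?_)
    rw [norm_smul, norm_inv, Real.norm_of_nonneg hR.le, inv_mul_le_iff₀ hR, mul_one]
    exact mem_closedBall_zero_iff.1 hx
  have hz : ∀ x, x ∉ closedBall (0 : EuclideanSpace ℝ (Fin d)) (2 * R) → ∀ i, pd i η x = 0 := fun x hx i => by
    rw [hpd, pd, fderiv_of_notMem_tsupport ℝ (hout x hx)]
    simp
  have hhigh : ∫ x, w x ^ 2 * ∑ i, pd i η x ^ 2 ≤ M / R ^ 2 * ∫ x in closedBall 0 (2 * R), w x ^ 2 := by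
    rw [← integral_const_mul, ← integral_indicator measurableSet_closedBall]
    refine integral_mono ?_ (((hw.continuous.pow 2).const_smul (M / R ^ 2)).continuousOn.integrableOn_compact
      (isCompact_closedBall _ _) |>.integrable_indicator measurableSet_closedBall) fun x => ?_
    · exact ((hw.continuous.pow 2).mul (continuous_finsetSum _ fun i _ =>
        (contDiff_pd (m := 0) hη le_rfl).continuous.pow 2)).integrable_of_hasCompactSupport
        (HasCompactSupport.intro (isCompact_closedBall 0 (2 * R)) fun x hx => by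
          simp [hz x hx])
    · by_cases hx : x ∈ closedBall (0 : EuclideanSpace ℝ (Fin d)) (2 * R)
      · rw [indicator_of_mem hx]
        simp only [hpd, mul_pow, ← Finset.mul_sum]
        have h2 := (le_abs_self _).trans (hM (R⁻¹ • x))
        calc w x ^ 2 * (R⁻¹ ^ 2 * ∑ i, pd i χ (R⁻¹ • x) ^ 2) ≤ w x ^ 2 * (R⁻¹ ^ 2 * M) := by gcongr
          _ = M / R ^ 2 * w x ^ 2 := by rw [inv_pow]; ring
      · rw [indicator_of_notMem hx]
        simp [hz x hx]
  calc ∫ x in closedBall 0 R, pd j w x ^ 2 ≤ 4 * ∫ x, w x ^ 2 * ∑ i, pd i η x ^ 2 := hlow.trans hc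
    _ ≤ 4 * (M / R ^ 2 * ∫ x in closedBall 0 (2 * R), w x ^ 2) := by linarith
    _ = _ := by ring

/-- An entire harmonic function of sublinear growth is constant. -/
theorem liouville {f : EuclideanSpace ℝ (Fin d) → ℝ} (hf : ContDiff ℝ ∞ f)
    (hl : ∀ x, ∑ i, pd i (pd i f) x = 0) {C a : ℝ} (ha0 : 0 ≤ a) (ha : a < 1)
    (hb : ∀ x, |f x| ≤ C * (1 + ‖x‖ ^ a)) (x : EuclideanSpace ℝ (Fin d)) : f x = f 0 := by
  rcases Nat.eq_zero_or_pos d with hd | hd
  · subst hd; rw [Subsingleton.elim x 0]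
  haveI : Nonempty (Fin d) := ⟨⟨0, hd⟩⟩
  obtain ⟨K, hK0, hK⟩ := exists_step_bound d
  have hC : 0 ≤ C := by
    have h1 := (abs_nonneg _).trans (hb 0)
    have : (0 : ℝ) < 1 + ‖(0 : EuclideanSpace ℝ (Fin d))‖ ^ a :=
      add_pos_of_pos_of_nonneg one_pos (Real.rpow_nonneg (norm_nonneg _) _)
    exact (mul_nonneg_iff_of_pos_right this).1 h1
  have hsm : ∀ l, ContDiff ℝ 2 (pds l f) := fun l =>
    (contDiff_pds hf l).of_le (WithTop.coe_le_coe.2 le_top)
  obtain ⟨v, ev⟩ : ∃ v, v = (volume : Measure (EuclideanSpace ℝ (Fin d))).real (closedBall 0 1) := ⟨_, rfl⟩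
  have hv : 0 < v := by
    rw [ev, measureReal_def]
    exact ENNReal.toReal_pos ((measure_closedBall_pos volume _ one_pos).ne') measure_closedBall_lt_top.ne
  have hvol : ∀ R : ℝ, 0 ≤ R →
      (volume : Measure (EuclideanSpace ℝ (Fin d))).real (closedBall 0 R) = R ^ d * v := by
    intro R hR
    rw [ev, measureReal_def, measureReal_def, Measure.addHaar_closedBall_eq_addHaar_ball,
      Measure.addHaar_closedBall_eq_addHaar_ball, Measure.addHaar_ball _ _ hR, ENNReal.toReal_mul,
      ENNReal.toReal_ofReal (pow_nonneg hR _), finrank_euclideanSpace_fin]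
  -- growth of the squared integrals
  have hgr : ∀ l : List (Fin d), ∃ A, ∀ R : ℝ, 1 ≤ R →
      R ^ (2 * l.length) * ∫ x in closedBall 0 R, pds l f x ^ 2 ≤ A * (R ^ d * (R ^ a) ^ 2) := by
    intro l
    induction l with
    | nil =>
      refine ⟨4 * C ^ 2 * v, fun R hR => ?_⟩
      have hR0 : 0 ≤ R := zero_le_one.trans hR
      simp only [List.length_nil, mul_zero, pow_zero, one_mul, pds]
      calc ∫ x in closedBall 0 R, f x ^ 2 ≤ ∫ _x in closedBall (0 : EuclideanSpace ℝ (Fin d)) R, (2 * C * R ^ a) ^ 2 := by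
            refine setIntegral_mono_on ((hf.continuous.pow 2).continuousOn.integrableOn_compact
              (isCompact_closedBall _ _)) (integrableOn_const measure_closedBall_lt_top.ne)
              measurableSet_closedBall fun x hx => ?_
            rw [← sq_abs]
            refine pow_le_pow_left₀ (abs_nonneg _) ((hb x).trans ?_) 2
            have h1 : ‖x‖ ^ a ≤ R ^ a :=
              Real.rpow_le_rpow (norm_nonneg _) (mem_closedBall_zero_iff.1 hx) ha0
            have h2 : (1 : ℝ) ≤ R ^ a := Real.one_le_rpow hR ha0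
            calc C * (1 + ‖x‖ ^ a) ≤ C * (2 * R ^ a) := by gcongr; linarith
              _ = _ := by ring
        _ = _ := by rw [setIntegral_const, hvol R hR0, smul_eq_mul]; ring
    | cons j l ih =>
      obtain ⟨A, hA⟩ := ih
      refine ⟨K * A * (2 : ℝ) ^ d * ((2 : ℝ) ^ a) ^ 2, fun R hR => ?_⟩
      have hR0 : 0 < R := zero_lt_one.trans_le hR
      have h1 := hK (pds l f) (hsm l) (harmonic_pds hf hl l) R hR0 j
      have h2 := hA (2 * R) (by linarith)
      rw [Real.mul_rpow zero_le_two hR0.le] at h2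
      have hI : 0 ≤ ∫ x in closedBall (0 : EuclideanSpace ℝ (Fin d)) (2 * R), pds l f x ^ 2 :=
        setIntegral_nonneg measurableSet_closedBall fun x _ => sq_nonneg _
      simp only [List.length_cons, pds]
      calc R ^ (2 * (l.length + 1)) * ∫ x in closedBall 0 R, pd j (pds l f) x ^ 2
          ≤ R ^ (2 * (l.length + 1)) * (K / R ^ 2 * ∫ x in closedBall 0 (2 * R), pds l f x ^ 2) :=
            mul_le_mul_of_nonneg_left h1 (by positivity)
        _ = K * (R ^ (2 * l.length) * ∫ x in closedBall 0 (2 * R), pds l f x ^ 2) := by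
            field_simp; ring
        _ ≤ K * ((2 * R) ^ (2 * l.length) * ∫ x in closedBall 0 (2 * R), pds l f x ^ 2) := by
            gcongr; linarith
        _ ≤ K * (A * ((2 * R) ^ d * (2 ^ a * R ^ a) ^ 2)) := mul_le_mul_of_nonneg_left h2 hK0
        _ = _ := by ring
  -- all derivatives of positive order vanish
  have hlim : ∀ m : ℕ, 1 ≤ m → Tendsto (fun R : ℝ => (R ^ a) ^ 2 / R ^ (2 * m)) atTop (𝓝 0) := by
    intro m hm
    have h := tendsto_rpow_neg_atTop (show (0 : ℝ) < 2 * m - 2 * a by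
      have : (1 : ℝ) ≤ m := Nat.one_le_cast.2 hm
      linarith)
    refine h.congr' ?_
    filter_upwards [eventually_gt_atTop 0] with R hR
    rw [← Real.rpow_natCast (R ^ a), ← Real.rpow_mul hR.le, ← Real.rpow_natCast R (2 * m), ← Real.rpow_sub hR]
    congr 1
    push_cast; ring
  have hbig : ∀ l : List (Fin d), d + 1 ≤ l.length → ∀ x, pds l f x = 0 := by
    intro l hlen x
    obtain ⟨A, hA⟩ := hgr l
    by_contra hne
    obtain ⟨r, hr⟩ : ∃ r, r = ‖x‖ + 1 := ⟨_, rfl⟩
    have hpos : 0 < ∫ y in closedBall (0 : EuclideanSpace ℝ (Fin d)) r, pds l f y ^ 2 := by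
      rw [setIntegral_pos_iff_support_of_nonneg_ae (Eventually.of_forall fun y => sq_nonneg _)
        (((contDiff_pds hf l).continuous.pow 2).continuousOn.integrableOn_compact (isCompact_closedBall _ _))]
      refine lt_of_lt_of_le ((((contDiff_pds hf l).continuous.isOpen_preimage _ isOpen_compl_singleton).inter
        (isOpen_ball (x := (0 : EuclideanSpace ℝ (Fin d))) (ε := r))).measure_pos volume ⟨x, hne, mem_ball_zero_iff.2 (by linarith)⟩) (measure_mono ?_)
      exact fun y hy => ⟨pow_ne_zero 2 hy.1, ball_subset_closedBall hy.2⟩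
    have hev : ∀ᶠ R : ℝ in atTop, (∫ y in closedBall (0 : EuclideanSpace ℝ (Fin d)) r, pds l f y ^ 2)
        ≤ |A| * ((R ^ a) ^ 2 / R ^ (2 * 1)) := by
      filter_upwards [eventually_ge_atTop 1, eventually_ge_atTop r] with R hR hRr
      have hR0 : 0 < R := zero_lt_one.trans_le hR
      have hm : ∫ y in closedBall (0 : EuclideanSpace ℝ (Fin d)) r, pds l f y ^ 2
          ≤ ∫ y in closedBall (0 : EuclideanSpace ℝ (Fin d)) R, pds l f y ^ 2 :=
        setIntegral_mono_set (((contDiff_pds hf l).continuous.pow 2).continuousOn.integrableOn_compact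
          (isCompact_closedBall _ _)) (Eventually.of_forall fun y => sq_nonneg _)
          (closedBall_subset_closedBall hRr).eventuallyLE
      refine hm.trans ?_
      rw [mul_div_assoc', le_div_iff₀ (by positivity), mul_comm]
      refine le_of_mul_le_mul_left ?_ (show (0 : ℝ) < R ^ d by positivity)
      calc R ^ d * (R ^ (2 * 1) * ∫ y in closedBall 0 R, pds l f y ^ 2)
          ≤ R ^ (2 * l.length) * ∫ y in closedBall 0 R, pds l f y ^ 2 := by
            rw [← mul_assoc, ← pow_add]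
            exact mul_le_mul_of_nonneg_right (pow_le_pow_right₀ hR (by omega))
              (setIntegral_nonneg measurableSet_closedBall fun y _ => sq_nonneg _)
        _ ≤ A * (R ^ d * (R ^ a) ^ 2) := hA R hR
        _ ≤ |A| * (R ^ d * (R ^ a) ^ 2) := mul_le_mul_of_nonneg_right (le_abs_self A) (by positivity)
        _ = _ := by ring
    exact absurd (ge_of_tendsto (by simpa using (hlim 1 le_rfl).const_mul |A|) hev) (not_le.2 hpos)
  have hdown : ∀ m, ∀ l : List (Fin d), 1 ≤ l.length → d + 1 ≤ l.length + m → ∀ x, pds l f x = 0 := by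
    intro m
    induction m with
    | zero => exact fun l _ h => hbig l (by omega)
    | succ m ih =>
      intro l h1 h2 x
      have hd' : ∀ y, fderiv ℝ (pds l f) y = 0 := fun y => by
        ext v
        rw [fderiv_eq_sum_pd]
        exact Finset.sum_eq_zero fun i _ => by
          rw [show pd i (pds l f) y = pds (i :: l) f y from rfl,
            ih (i :: l) (by simp) (by simp only [List.length_cons]; omega) y, mul_zero]
      have hconst : ∀ y, pds l f y = pds l f x := fun y =>
        is_const_of_fderiv_eq_zero ((hsm l).differentiable two_ne_zero) hd' y x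
      obtain ⟨A, hA⟩ := hgr l
      have hle : ∀ᶠ R : ℝ in atTop, pds l f x ^ 2 * v ≤ |A| * ((R ^ a) ^ 2 / R ^ (2 * l.length)) := by
        filter_upwards [eventually_ge_atTop 1] with R hR
        have hR0 : 0 < R := zero_lt_one.trans_le hR
        have h := hA R hR
        simp only [hconst, setIntegral_const, hvol R hR0.le, smul_eq_mul] at h
        rw [mul_div_assoc', le_div_iff₀ (by positivity)]
        refine le_of_mul_le_mul_left ?_ (show (0 : ℝ) < R ^ d by positivity)
        calc R ^ d * (pds l f x ^ 2 * v * R ^ (2 * l.length))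
            = R ^ (2 * l.length) * (R ^ d * v * pds l f x ^ 2) := by ring
          _ ≤ A * (R ^ d * (R ^ a) ^ 2) := h
          _ ≤ |A| * (R ^ d * (R ^ a) ^ 2) := mul_le_mul_of_nonneg_right (le_abs_self A) (by positivity)
          _ = _ := by ring
      have h0 : pds l f x ^ 2 * v ≤ 0 := ge_of_tendsto (by simpa using (hlim _ h1).const_mul |A|) hle
      exact pow_eq_zero_iff two_ne_zero |>.1
        (le_antisymm (nonpos_of_mul_nonpos_left h0 hv) (sq_nonneg _))
  refine is_const_of_fderiv_eq_zero ((hsm []).differentiable two_ne_zero) (fun y => ?_) x 0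
  ext v'
  rw [fderiv_eq_sum_pd]
  refine Finset.sum_eq_zero fun i _ => ?_
  rw [show pd i (pds [] f) y = pds [i] f y from rfl, hdown d [i] (by simp) (by simp) y, mul_zero]

end Vale.Agent.P098.Reg.High
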