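import Vale.Agent.P098.Reg.High.Glue

/-! The localised estimate at one centre. -/

noncomputable section

namespace Vale.Agent.P098.Reg.High

open MeasureTheory Set Filter Topology Metric
open scoped ContDiff InnerProductSpace

variable {n : ℕ} {α : ℝ}

/-- A weak equation with Hölder coefficients near the identity on a half ball. -/
structure LocDatum (α M MA δ MF B r : ℝ)
    (A : EuclideanSpace ℝ (Fin (n + 1)) → (EuclideanSpace ℝ (Fin (n + 1)) →L[ℝ] EuclideanSpace ℝ (Fin (n + 1))))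
    (F : EuclideanSpace ℝ (Fin (n + 1)) → EuclideanSpace ℝ (Fin (n + 1)))
    (w : EuclideanSpace ℝ (Fin (n + 1)) → ℝ)
    (W : EuclideanSpace ℝ (Fin (n + 1)) → EuclideanSpace ℝ (Fin (n + 1))) : Prop where
  r_pos : 0 < r
  r_le : r ≤ 1
  jet : Jet1 α M (Hc n 0 ∩ closedBall 0 r) w W
  nearA : ∀ x ∈ Hc n 0 ∩ closedBall 0 r, ‖A x - ContinuousLinearMap.id ℝ _‖ ≤ δ
  holA : ∀ x ∈ Hc n 0 ∩ closedBall 0 r, ∀ y ∈ Hc n 0 ∩ closedBall 0 r, ‖A x - A y‖ ≤ MA * dist x y ^ α
  bdF : ∀ x ∈ Hc n 0 ∩ closedBall 0 r, ‖F x‖ ≤ MF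
  holF : ∀ x ∈ Hc n 0 ∩ closedBall 0 r, ∀ y ∈ Hc n 0 ∩ closedBall 0 r, ‖F x - F y‖ ≤ MF * dist x y ^ α
  bdw : ∀ x ∈ Hc n 0 ∩ closedBall 0 r, |w x| ≤ B
  flux : ∀ φ : EuclideanSpace ℝ (Fin (n + 1)) → ℝ, ContDiff ℝ ∞ φ → HasCompactSupport φ →
    tsupport φ ⊆ ball 0 r → ∫ x in Ho n 0, fderiv ℝ φ x (A x (W x) + F x) = 0

variable {M MA δ MF B r : ℝ}
  {A : EuclideanSpace ℝ (Fin (n + 1)) → (EuclideanSpace ℝ (Fin (n + 1)) →L[ℝ] EuclideanSpace ℝ (Fin (n + 1)))}
  {F : EuclideanSpace ℝ (Fin (n + 1)) → EuclideanSpace ℝ (Fin (n + 1))}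
  {w : EuclideanSpace ℝ (Fin (n + 1)) → ℝ}
  {W : EuclideanSpace ℝ (Fin (n + 1)) → EuclideanSpace ℝ (Fin (n + 1))}

theorem sub_half_ball {z : EuclideanSpace ℝ (Fin (n + 1))} {s : ℝ} (h : ‖z‖ + s ≤ r) :
    Hc n 0 ∩ closedBall z s ⊆ Hc n 0 ∩ closedBall 0 r := fun x hx => by
  refine ⟨hx.1, mem_closedBall_zero_iff.2 ?_⟩
  have h2 := mem_closedBall.1 hx.2
  rw [dist_eq_norm] at h2
  linarith [norm_le_norm_add_norm_sub' x z]

/-- Interpolation: the gradient is bounded by the sup of the function and the seminorm. -/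
theorem LocDatum.sup_step (hα : 0 < α) (D : LocDatum α M MA δ MF B r A F w W)
    {z : EuclideanSpace ℝ (Fin (n + 1))} (hzr : ‖z‖ < r) {H t : ℝ} (hH : 0 ≤ H)
    (hW : ∀ x ∈ Hc n 0 ∩ closedBall z ((r - ‖z‖) / 2), ∀ y ∈ Hc n 0 ∩ closedBall z ((r - ‖z‖) / 2),
      ‖W x - W y‖ ≤ H * dist x y ^ α)
    (ht : 0 < t) (ht' : t ≤ (r - ‖z‖) / 16) {x : EuclideanSpace ℝ (Fin (n + 1))}
    (hx : x ∈ Hc n 0 ∩ closedBall z (7 * (r - ‖z‖) / 16)) :
    ‖W x‖ ≤ (n + 1) * (2 * B / t + H * t ^ α) := by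
  have hd : 0 < r - ‖z‖ := by linarith
  have hsub : Hc n 0 ∩ closedBall z ((r - ‖z‖) / 2) ⊆ Hc n 0 ∩ closedBall 0 r := sub_half_ball (by linarith)
  have hJ := (Jet1.improve (S := Hc n 0 ∩ closedBall z ((r - ‖z‖) / 2))
    ⟨fun a ha b hb => D.jet.hol a (hsub ha) b (hsub hb), fun a ha b hb => D.jet.tay a (hsub ha) b (hsub hb)⟩
    ((convex_Hc 0).inter (convex_closedBall _ _)) hα hH hW)
  have hx2 : x ∈ Hc n 0 ∩ closedBall z ((r - ‖z‖) / 2) :=
    ⟨hx.1, closedBall_subset_closedBall (by linarith) hx.2⟩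
  have hcoord : ∀ i, |W x i| ≤ 2 * B / t + H * t ^ α := fun i => by
    obtain ⟨y, ey⟩ : ∃ y : EuclideanSpace ℝ (Fin (n + 1)), y = x + EuclideanSpace.single i t := ⟨_, rfl⟩
    have hdxy : dist x y = t := by
      rw [ey, dist_self_add_right, PiLp.norm_single, Real.norm_of_nonneg ht.le]
    have hy : y ∈ Hc n 0 ∩ closedBall z ((r - ‖z‖) / 2) := by
      refine ⟨?_, mem_closedBall.2 ?_⟩
      · have hx' : -(0 : ℝ) ≤ x (Fin.last n) := hx.1
        show -(0 : ℝ) ≤ y (Fin.last n)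
        rw [ey, PiLp.add_apply, PiLp.single_apply]
        split_ifs <;> linarith
      · have := mem_closedBall.1 hx.2
        linarith [dist_triangle y x z, (dist_comm y x).trans hdxy]
    have h := hJ.tay x hx2 y hy
    have hi : ⟪W x, y - x⟫_ℝ = t * W x i := by
      rw [ey, add_sub_cancel_left, EuclideanSpace.inner_single_right]; simp
    rw [hdxy, hi, Real.rpow_add ht, Real.rpow_one] at h
    have hwx := abs_le.1 (D.bdw x (hsub hx2))
    have hwy := abs_le.1 (D.bdw y (hsub hy))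
    have h' := abs_le.1 h
    have e : 2 * B / t + H * t ^ α = (2 * B + H * (t * t ^ α)) / t := by field_simp
    rw [e, le_div_iff₀ ht, ← abs_of_pos ht, ← abs_mul, abs_of_pos ht, abs_le]
    constructor <;> linarith [mul_comm (W x i) t]
  have hn1 : ‖W x‖ ≤ ∑ i, |W x i| := by
    calc ‖W x‖ = ‖∑ i, W x i • (EuclideanSpace.basisFun (Fin (n + 1)) ℝ) i‖ := congrArg norm
            (((EuclideanSpace.basisFun (Fin (n + 1)) ℝ).sum_repr (W x)).symm.trans
              (Finset.sum_congr rfl fun i _ => by rw [EuclideanSpace.basisFun_repr]))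
      _ ≤ _ := (norm_sum_le _ _).trans (le_of_eq (Finset.sum_congr rfl fun i _ => by simp [norm_smul]))
  refine hn1.trans ((Finset.sum_le_sum fun i _ => hcoord i).trans_eq ?_)
  rw [Finset.sum_const, Finset.card_univ, Fintype.card_fin, nsmul_eq_mul]
  push_cast
  ring

theorem local_step (n : ℕ) (hα : 0 < α) (hα1 : α < 1) :
    ∃ C : ℝ, 0 < C ∧ ∀ (M MA δ MF B r : ℝ)
      (A : EuclideanSpace ℝ (Fin (n + 1)) → (EuclideanSpace ℝ (Fin (n + 1)) →L[ℝ] EuclideanSpace ℝ (Fin (n + 1))))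
      (F : EuclideanSpace ℝ (Fin (n + 1)) → EuclideanSpace ℝ (Fin (n + 1)))
      (w : EuclideanSpace ℝ (Fin (n + 1)) → ℝ)
      (W : EuclideanSpace ℝ (Fin (n + 1)) → EuclideanSpace ℝ (Fin (n + 1))),
      LocDatum α M MA δ MF B r A F w W → 0 ≤ δ → δ ≤ 1 → 0 ≤ MA →
      ∀ z ∈ Hc n 0, ‖z‖ < r → ∀ H T : ℝ, 0 ≤ H →
        (∀ x ∈ Hc n 0 ∩ closedBall z ((r - ‖z‖) / 2), ∀ y ∈ Hc n 0 ∩ closedBall z ((r - ‖z‖) / 2),
          ‖W x - W y‖ ≤ H * dist x y ^ α) →
        (∀ x ∈ Hc n 0 ∩ closedBall z (7 * (r - ‖z‖) / 16), ‖W x‖ ≤ T / (r - ‖z‖)) →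
        ∀ x ∈ Hc n 0 ∩ closedBall z ((r - ‖z‖) / 4), ∀ y ∈ Hc n 0 ∩ closedBall z ((r - ‖z‖) / 4),
          (r - ‖z‖) ^ (1 + α) * ‖W x - W y‖
            ≤ C * (δ * ((r - ‖z‖) ^ (1 + α) * H) + (1 + MA) * (T + B + MF)) * dist x y ^ α := by
  obtain ⟨Cs, hCs, hS⟩ := schauder n hα hα1
  obtain ⟨c, hc, hcut⟩ := exists_cut n hα hα1
  refine ⟨Cs * (40 * c), by positivity, fun M MA δ MF B r A F w W D hδ0 hδ1 hMA z hz hzr H T hH hWH hWT => ?_⟩
  obtain ⟨d, ed⟩ : ∃ d, d = r - ‖z‖ := ⟨_, rfl⟩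
  rw [← ed] at hWH hWT ⊢
  have hd : 0 < d := by linarith
  have hd1 : d ≤ 1 := by linarith [norm_nonneg z, D.r_le]
  obtain ⟨η, Dη, hη, hηc, hηd, hη1, hη4, hη0, hDηb, hηh, hDηh⟩ := hcut z d hd
  obtain ⟨S, eS⟩ : ∃ S, S = Hc n 0 ∩ closedBall z (7 * d / 16) := ⟨_, rfl⟩
  have hS2 : S ⊆ Hc n 0 ∩ closedBall z (d / 2) := fun x hx => by
    rw [eS] at hx; exact ⟨hx.1, closedBall_subset_closedBall (by linarith) hx.2⟩
  have hSr : S ⊆ Hc n 0 ∩ closedBall 0 r := hS2.trans (sub_half_ball (by linarith))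
  have hzS : z ∈ S := eS ▸ ⟨hz, mem_closedBall_self (by positivity)⟩
  have hT : 0 ≤ T := by
    have := (norm_nonneg _).trans (hWT z (eS ▸ hzS))
    rwa [le_div_iff₀ hd, zero_mul] at this
  have hB : 0 ≤ B := (abs_nonneg _).trans (D.bdw z (hSr hzS))
  have hMF : 0 ≤ MF := (norm_nonneg _).trans (D.bdF z (hSr hzS))
  have hA2 : ∀ x ∈ S, ‖A x‖ ≤ 2 := fun x hx => by
    have h1 := D.nearA x (hSr hx)
    have h2 : ‖ContinuousLinearMap.id ℝ (EuclideanSpace ℝ (Fin (n + 1)))‖ ≤ 1 := ContinuousLinearMap.norm_id_le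
    linarith [norm_le_norm_add_norm_sub' (A x) (ContinuousLinearMap.id ℝ _)]
  have hconv : Convex ℝ S := eS ▸ (convex_Hc 0).inter (convex_closedBall _ _)
  have hwd : ∀ x ∈ S, HasFDerivWithinAt w (innerSL ℝ (W x)) S x := fun x hx =>
    (D.jet.hasFDerivWithinAt hα (hSr hx)).mono hSr
  have hwh : ∀ x ∈ S, ∀ y ∈ S, |w x - w y| ≤ T / d ^ α * dist x y ^ α := fun x hx y hy => by
    have h := hconv.norm_image_sub_le_of_norm_hasFDerivWithin_le hwd
      (fun q hq => (innerSL_apply_norm ℝ (W q)).trans_le (hWT q (eS ▸ hq))) hy hx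
    rw [Real.norm_eq_abs, ← dist_eq_norm] at h
    refine h.trans ?_
    have hdd : dist x y ≤ d := by
      have hx' := mem_closedBall.1 (eS ▸ hx : x ∈ Hc n 0 ∩ closedBall z (7 * d / 16)).2
      have hy' := mem_closedBall.1 (eS ▸ hy : y ∈ Hc n 0 ∩ closedBall z (7 * d / 16)).2
      linarith [dist_triangle_right x y z]
    rcases (dist_nonneg (x := x) (y := y)).eq_or_lt with h0 | h0
    · rw [← h0, Real.zero_rpow hα.ne', mul_zero]
      simp
    calc T / d * dist x y = T / d * (dist x y ^ α * dist x y ^ (1 - α)) := by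
          rw [← Real.rpow_add h0, add_sub_cancel, Real.rpow_one]
      _ ≤ T / d * (dist x y ^ α * d ^ (1 - α)) := by
          gcongr
      _ = T / d ^ α * dist x y ^ α := by
          rw [Real.rpow_sub hd, Real.rpow_one]; field_simp
  have hdα : 0 < d ^ α := Real.rpow_pos_of_pos hd _
  have hdp : d ^ (1 + α) = d * d ^ α := by rw [Real.rpow_add hd, Real.rpow_one]
  have hdp0 : 0 < d ^ (1 + α) := Real.rpow_pos_of_pos hd _
  -- the localised jet
  obtain ⟨v, ev⟩ : ∃ v : EuclideanSpace ℝ (Fin (n + 1)) → ℝ, v = fun x => η x * w x := ⟨_, rfl⟩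
  obtain ⟨V, eV⟩ : ∃ V : EuclideanSpace ℝ (Fin (n + 1)) → EuclideanSpace ℝ (Fin (n + 1)),
      V = fun x => η x • W x + w x • Dη x := ⟨_, rfl⟩
  have hV0 : ∀ x, x ∉ closedBall z (3 * d / 8) → V x = 0 := fun x hx => by simp [eV, hη0 x hx]
  have hWS : ∀ x ∈ S, ∀ y ∈ S, ‖W x - W y‖ ≤ H * dist x y ^ α := fun x hx y hy => hWH x (hS2 hx) y (hS2 hy)
  have hWb : ∀ x ∈ S, ‖W x‖ ≤ T / d := fun x hx => hWT x (eS ▸ hx)
  have hwb : ∀ x ∈ S, |w x| ≤ B := fun x hx => D.bdw x (hSr hx)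
  obtain ⟨KV, eKV⟩ : ∃ KV, KV = (c / d ^ α * (T / d) + 1 * H) + (T / d ^ α * (c / d) + B * (c / d ^ (1 + α))) :=
    ⟨_, rfl⟩
  obtain ⟨SV, eSV⟩ : ∃ SV, SV = T / d + B * (c / d) := ⟨_, rfl⟩
  have hVhS : ∀ x ∈ S, ∀ y ∈ S, ‖V x - V y‖ ≤ KV * dist x y ^ α := fun x hx y hy => by
    rw [eV, eKV, add_mul]
    simp only [add_sub_add_comm]
    exact (norm_add_le _ _).trans (add_le_add
      (hol_smul (fun a _ b _ => hηh a b) (fun a _ => hη1 a) hWS hWb x hx y hy)
      (hol_smul hwh hwb (fun a _ b _ => hDηh a b) (fun a _ => hDηb a) x hx y hy))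
  have hVbS : ∀ x ∈ S, ‖V x‖ ≤ SV := fun x hx => by
    rw [eV, eSV]
    refine (norm_add_le _ _).trans (add_le_add ?_ ?_) <;> rw [norm_smul, Real.norm_eq_abs]
    · exact (mul_le_of_le_one_left (norm_nonneg _) (hη1 x)).trans (hWb x hx)
    · exact mul_le_mul (hwb x hx) (hDηb x) (norm_nonneg _) hB
  have hKV : 0 ≤ KV := eKV ▸ by positivity
  have hglue : ∀ {f : EuclideanSpace ℝ (Fin (n + 1)) → EuclideanSpace ℝ (Fin (n + 1))} {K : ℝ}, 0 ≤ K →
      (∀ x ∈ S, ∀ y ∈ S, ‖f x - f y‖ ≤ K * dist x y ^ α) → (∀ x ∈ Hc n 0, x ∉ closedBall z (3 * d / 8) → f x = 0) →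
      ∀ x ∈ Hc n 0, ∀ y ∈ Hc n 0, ‖f x - f y‖ ≤ K * dist x y ^ α := fun hK h h0 =>
    hol_glue hα.le (convex_Hc 0) (show 3 * d / 8 < 7 * d / 16 by linarith) hK (fun x hx y hy =>
      h x (eS ▸ hx) y (eS ▸ hy)) h0
  have hJet : Jet1 α KV (Hc n 0) v V := by
    refine Jet1.of_deriv hα (convex_Hc 0) hKV (fun x hx => ?_) (hglue hKV hVhS fun x _ hx => hV0 x hx)
    by_cases hxb : x ∈ ball z (7 * d / 16)
    · have hnh : S ∈ 𝓝[Hc n 0] x := by
        rw [eS]
        exact inter_mem self_mem_nhdsWithin (mem_nhdsWithin_of_mem_nhds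
          (mem_of_superset (isOpen_ball.mem_nhds hxb) ball_subset_closedBall))
      have hxS : x ∈ S := eS ▸ ⟨hx, ball_subset_closedBall hxb⟩
      rw [ev, eV]
      refine (((hηd x).hasFDerivWithinAt.fun_mul ((hwd x hxS).mono_of_mem_nhdsWithin hnh))).congr_fderiv ?_
      simp [map_add, map_smul]
    · have hx8 : x ∉ closedBall z (3 * d / 8) := fun h => hxb (mem_ball.2 (by linarith [mem_closedBall.1 h]))
      rw [hV0 x hx8, map_zero]
      refine HasFDerivAt.hasFDerivWithinAt ((hasFDerivAt_const (0 : ℝ) x).congr_of_eventuallyEq ?_)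
      filter_upwards [isClosed_closedBall.isOpen_compl.mem_nhds hx8] with q hq
      simp [ev, hη0 q hq]
  obtain ⟨F', eF'⟩ : ∃ F' : EuclideanSpace ℝ (Fin (n + 1)) → EuclideanSpace ℝ (Fin (n + 1)),
      F' = fun x => η x • (A x (W x) + F x) - V x := ⟨_, rfl⟩
  obtain ⟨g, eg⟩ : ∃ g : EuclideanSpace ℝ (Fin (n + 1)) → ℝ, g = fun x => ⟪Dη x, A x (W x) + F x⟫_ℝ := ⟨_, rfl⟩
  obtain ⟨KF, eKF⟩ : ∃ KF, KF = ((MA * SV + δ * KV) + (T / d ^ α * (2 * (c / d))
      + B * (MA * (c / d) + 2 * (c / d ^ (1 + α))))) + (c / d ^ α * MF + 1 * MF) := ⟨_, rfl⟩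
  have hF'S : ∀ x ∈ S, ∀ y ∈ S, ‖F' x - F' y‖ ≤ KF * dist x y ^ α := by
    have e : ∀ x, F' x = ((A x - ContinuousLinearMap.id ℝ (EuclideanSpace ℝ (Fin (n + 1)))) (V x) - w x • A x (Dη x)) + η x • F x := fun x => by
      rw [eF', eV]
      simp only [map_add, map_smul, smul_add, sub_apply, ContinuousLinearMap.id_apply]
      module
    intro x hx y hy
    rw [e, e, eKF, add_mul, add_mul (MA * SV + δ * KV), add_sub_add_comm, sub_sub_sub_comm]
    refine (norm_add_le _ _).trans (add_le_add ((norm_sub_le _ _).trans (add_le_add ?_ ?_)) ?_)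
    · exact hol_apply (f := fun q => A q - ContinuousLinearMap.id ℝ (EuclideanSpace ℝ (Fin (n + 1)))) (fun a ha b hb => by
        simpa using D.holA a (hSr ha) b (hSr hb)) (fun a ha => D.nearA a (hSr ha)) hVhS hVbS x hx y hy
    · exact hol_smul hwh hwb (hol_apply (fun a ha b hb => D.holA a (hSr ha) b (hSr hb)) hA2
        (fun a _ b _ => hDηh a b) (fun a _ => hDηb a))
        (fun a ha => ((A a).le_opNorm _).trans (mul_le_mul (hA2 a ha) (hDηb a) (norm_nonneg _) zero_le_two))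
        x hx y hy
    · exact hol_smul (fun a _ b _ => hηh a b) (fun a _ => hη1 a) (fun a ha b hb => D.holF a (hSr ha) b (hSr hb))
        (fun a ha => D.bdF a (hSr ha)) x hx y hy
  have hSVn : 0 ≤ SV := eSV ▸ by positivity
  have hKFn : 0 ≤ KF := eKF ▸ by positivity
  have hF'0 : ∀ x ∈ Hc n 0, x ∉ closedBall z (3 * d / 8) → F' x = 0 := fun x _ hx => by
    simp [eF', hV0 x hx, (hη0 x hx).1]
  obtain ⟨G, eG⟩ : ∃ G, G = c / d * (2 * (T / d) + MF) := ⟨_, rfl⟩
  have hgb : ∀ x ∈ Hc n 0, |g x| ≤ G := fun x hx => by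
    by_cases h8 : x ∈ closedBall z (3 * d / 8)
    · have hxS : x ∈ S := eS ▸ ⟨hx, closedBall_subset_closedBall (by linarith) h8⟩
      rw [eg, eG]
      refine (abs_real_inner_le_norm _ _).trans (mul_le_mul (hDηb x) ?_ (norm_nonneg _) (by positivity))
      exact (norm_add_le _ _).trans (add_le_add (((A x).le_opNorm _).trans
        (mul_le_mul (hA2 x hxS) (hWb x hxS) (norm_nonneg _) zero_le_two)) (D.bdF x (hSr hxS)))
    · rw [eg, eG]; simp [(hη0 x h8).2]; positivity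
  have hgc : ContinuousOn g (Hc n 0) := by
    have hcS : ContinuousOn g S := by
      have hAc : ContinuousOn A S := fun x hx => tendsto_iff_norm_sub_tendsto_zero.2 (by
        refine squeeze_zero' (Eventually.of_forall fun y => norm_nonneg _)
          (eventually_nhdsWithin_of_forall fun y hy => D.holA y (hSr hy) x (hSr hx)) ?_
        have := ((continuous_id.dist (continuous_const (y := x))).tendsto x).mono_left
          (nhdsWithin_le_nhds (s := S))
        simp only [id_eq, dist_self] at this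
        simpa [Real.zero_rpow hα.ne'] using (this.rpow_const (Or.inr hα.le)).const_mul MA)
      have hFc : ContinuousOn F S := fun x hx => tendsto_iff_norm_sub_tendsto_zero.2 (by
        refine squeeze_zero' (Eventually.of_forall fun y => norm_nonneg _)
          (eventually_nhdsWithin_of_forall fun y hy => D.holF y (hSr hy) x (hSr hx)) ?_
        have := ((continuous_id.dist (continuous_const (y := x))).tendsto x).mono_left
          (nhdsWithin_le_nhds (s := S))
        simp only [id_eq, dist_self] at this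
        simpa [Real.zero_rpow hα.ne'] using (this.rpow_const (Or.inr hα.le)).const_mul MF)
      have hWc : ContinuousOn W S := ((D.jet.continuousOn hα).mono hSr)
      have hDc : Continuous Dη := continuous_iff_continuousAt.2 fun x => tendsto_iff_norm_sub_tendsto_zero.2 (by
        refine squeeze_zero (fun y => norm_nonneg _) (fun y => hDηh y x) ?_
        simpa [Real.zero_rpow hα.ne'] using
          (((continuous_id.dist (continuous_const (y := x))).tendsto x).rpow_const (Or.inr hα.le)).const_mul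
            (c / d ^ (1 + α)))
      rw [eg]
      exact hDc.continuousOn.inner ((hAc.clm_apply hWc).add hFc)
    intro x hx
    by_cases hxb : x ∈ ball z (7 * d / 16)
    · refine (hcS x (eS ▸ ⟨hx, ball_subset_closedBall hxb⟩)).mono_of_mem_nhdsWithin ?_
      rw [eS]
      exact inter_mem self_mem_nhdsWithin (mem_nhdsWithin_of_mem_nhds
        (mem_of_superset (isOpen_ball.mem_nhds hxb) ball_subset_closedBall))
    · refine (ContinuousAt.congr (continuousAt_const (y := (0 : ℝ))) ?_).continuousWithinAt (f := g)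
      have hx8 : x ∉ closedBall z (3 * d / 8) := fun h => hxb (mem_ball.2 (by linarith [mem_closedBall.1 h]))
      filter_upwards [isClosed_closedBall.isOpen_compl.mem_nhds hx8] with q hq
      simp [eg, (hη0 q hq).2]
  have hflux : Flux 0 (fun x => V x + F' x) g := by
    intro φ hφ hs
    have hts : tsupport (fun x => η x * φ x) ⊆ ball 0 r := fun x hx => by
      have h1 : x ∈ tsupport η := tsupport_mul_subset_left hx
      have h2 : tsupport η ⊆ closedBall z (3 * d / 8) :=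
        closure_minimal (fun q hq => by_contra fun hq8 => hq (hη0 q hq8).1) isClosed_closedBall
      have h3 := mem_closedBall.1 (h2 h1)
      rw [dist_eq_norm] at h3
      rw [mem_ball_zero_iff]
      linarith [norm_le_norm_add_norm_sub' x z]
    refine Eq.trans ?_ (D.flux (fun x => η x * φ x) (hη.mul hφ) hηc.mul_right hts)
    refine integral_congr_ae (Eventually.of_forall fun x => ?_)
    simp only
    rw [eF', eg, ((hηd x).fun_mul (hφ.differentiable (by simp) x).hasFDerivAt).fderiv]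
    simp
    ring
  have hD : Datum α KV KF G (3 * d / 8) z v V F' g :=
    ⟨by positivity, hJet, fun x _ hx => hV0 x hx, hKFn, hglue hKFn hF'S hF'0, hgc, hgb, hflux⟩
  intro x hx y hy
  have hVW : ∀ q ∈ Hc n 0 ∩ closedBall z (d / 4), V q = W q := fun q hq => by
    have hDq : Dη q = 0 ∨ True := Or.inr trivial
    rw [eV]
    simp only [hη4 q hq.2, one_smul]
    have : Dη q = 0 := by
      rcases hDq with h | _
      · exact h
      · have hmin : IsLocalMax η q := Eventually.of_forall fun p => by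
          rw [hη4 q hq.2]; exact (abs_le.1 (hη1 p)).2
        have h0 := hmin.hasFDerivAt_eq_zero (hηd q)
        have : ⟪Dη q, Dη q⟫_ℝ = 0 := by
          have := congrArg (fun L => L (Dη q)) h0
          simpa using this
        exact inner_self_eq_zero.1 this
    rw [this, smul_zero, add_zero]
  have h := hS _ _ _ _ z v V F' g hD x hx.1 y hy.1
  rw [hVW x hx, hVW y hy] at h
  refine (mul_le_mul_of_nonneg_left h hdp0.le).trans ?_
  rw [← mul_assoc]
  refine mul_le_mul_of_nonneg_right ?_ (Real.rpow_nonneg dist_nonneg _)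
  obtain ⟨a, ea⟩ : ∃ a, a = d ^ α := ⟨_, rfl⟩
  have ha0 : 0 < a := ea ▸ hdα
  have ha1 : a ≤ 1 := ea ▸ Real.rpow_le_one hd.le hd1 hα.le
  have hG : d ^ (1 + α) * (G * (3 * d / 8) ^ (1 - α)) ≤ c * (2 * T + MF) := by
    have h1 : (3 * d / 8) ^ (1 - α) ≤ d ^ (1 - α) :=
      Real.rpow_le_rpow (by positivity) (by linarith) (by linarith)
    calc d ^ (1 + α) * (G * (3 * d / 8) ^ (1 - α)) ≤ d ^ (1 + α) * (G * d ^ (1 - α)) := by
          refine mul_le_mul_of_nonneg_left (mul_le_mul_of_nonneg_left h1 ?_) hdp0.le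
          rw [eG]; positivity
      _ = G * (d * d) := by
          rw [mul_left_comm, ← Real.rpow_add hd, show (1 + α) + (1 - α) = (2 : ℕ) by push_cast; ring,
            Real.rpow_natCast]; ring
      _ = c * (2 * T + MF * d) := by rw [eG]; field_simp
      _ ≤ c * (2 * T + MF) := mul_le_mul_of_nonneg_left (by linarith [mul_le_of_le_one_right hMF hd1]) (by linarith)
  have hKFd : d ^ (1 + α) * KF
      = MA * (T + B * c) * a + δ * ((c * T + d * a * H) + (c * T + B * c)) + (2 * c * T + B * (MA * c * a + 2 * c))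
        + (c * d + d * a) * MF := by
    rw [eKF, eKV, eSV, hdp, ea]
    field_simp
  have hda : d * a ≤ 1 := mul_le_one₀ hd1 ha0.le ha1
  calc d ^ (1 + α) * (Cs * (KF + G * (3 * d / 8) ^ (1 - α)))
      = Cs * (d ^ (1 + α) * KF + d ^ (1 + α) * (G * (3 * d / 8) ^ (1 - α))) := by ring
    _ ≤ Cs * ((MA * (T + B * c) + δ * (d * a * H) + (c * T + (c * T + B * c)) + (2 * c * T + B * (MA * c + 2 * c))
        + (c + 1) * MF) + c * (2 * T + MF)) := by
        refine mul_le_mul_of_nonneg_left (add_le_add ?_ hG) hCs.le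
        rw [hKFd]
        have e1 : MA * (T + B * c) * a ≤ MA * (T + B * c) := mul_le_of_le_one_right (by positivity) ha1
        have e2 : B * (MA * c * a + 2 * c) ≤ B * (MA * c + 2 * c) := mul_le_mul_of_nonneg_left
          (by linarith [mul_le_of_le_one_right (mul_nonneg hMA (show (0 : ℝ) ≤ c by linarith)) ha1]) hB
        have e3 : δ * ((c * T + d * a * H) + (c * T + B * c)) ≤ δ * (d * a * H) + (c * T + (c * T + B * c)) := by
          have : δ * (c * T + (c * T + B * c)) ≤ c * T + (c * T + B * c) := mul_le_of_le_one_left (by positivity) hδ1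
          linarith
        have e4 : (c * d + d * a) * MF ≤ (c + 1) * MF := mul_le_mul_of_nonneg_right
          (by linarith [mul_le_of_le_one_right (show (0 : ℝ) ≤ c by linarith) hd1]) hMF
        linarith
    _ ≤ Cs * (40 * c) * (δ * (d ^ (1 + α) * H) + (1 + MA) * (T + B + MF)) := by
        rw [hdp, ← ea, mul_assoc Cs (40 * c)]
        refine mul_le_mul_of_nonneg_left ?_ hCs.le
        have pH : 0 ≤ δ * (d * a * H) := mul_nonneg hδ0 (mul_nonneg (mul_nonneg hd.le ha0.le) hH)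
        have p1 := le_mul_of_one_le_left pH hc
        have p2 := le_mul_of_one_le_left (mul_nonneg hMA hT) hc
        have p3 := le_mul_of_one_le_left hMF hc
        have q1 : 0 ≤ c * (MA * B) := mul_nonneg (by linarith) (mul_nonneg hMA hB)
        have q2 : 0 ≤ c * (MA * T) := mul_nonneg (by linarith) (mul_nonneg hMA hT)
        have q3 : 0 ≤ c * (MA * MF) := mul_nonneg (by linarith) (mul_nonneg hMA hMF)
        have q4 : 0 ≤ c * T := mul_nonneg (by linarith) hT
        have q5 : 0 ≤ c * B := mul_nonneg (by linarith) hB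
        have q6 : 0 ≤ c * MF := mul_nonneg (by linarith) hMF
        have q7 : 0 ≤ c * (δ * (d * a * H)) := mul_nonneg (by linarith) pH
        linarith

end Vale.Agent.P098.Reg.High
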