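import Vale.Agent.P098.Reg.High.Tang
import Vale.Agent.P098.Reg.High.Estimate

/-! Tangential difference quotients and their limit. -/

noncomputable section

namespace Vale.Agent.P098.Reg.High

open MeasureTheory Set Filter Topology Metric
open scoped ContDiff InnerProductSpace

variable {n : ℕ} {α δ r : ℝ}

theorem tendsto_apply {ι : Type*} {l : Filter ι} {a : ι → ((EuclideanSpace ℝ (Fin (n + 1))) →L[ℝ] (EuclideanSpace ℝ (Fin (n + 1))))} {a₀ : (EuclideanSpace ℝ (Fin (n + 1))) →L[ℝ] (EuclideanSpace ℝ (Fin (n + 1)))} {v : ι → (EuclideanSpace ℝ (Fin (n + 1)))} {v₀ : (EuclideanSpace ℝ (Fin (n + 1)))}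
    (ha : Tendsto a l (𝓝 a₀)) (hv : Tendsto v l (𝓝 v₀)) : Tendsto (fun x => a x (v x)) l (𝓝 (a₀ v₀)) :=
  (isBoundedBilinearMap_apply.continuous.tendsto (a₀, v₀)).comp (ha.prodMk_nhds hv)

/-- What the a priori estimate gives for the smallness `δ`. -/
def Est (n : ℕ) (α δ : ℝ) : Prop :=
  ∀ MA r : ℝ, 0 ≤ MA → 0 < r → r ≤ 1 → ∃ C : ℝ, 0 ≤ C ∧ ∀ (M MF B : ℝ)
    (A : EuclideanSpace ℝ (Fin (n + 1)) → (EuclideanSpace ℝ (Fin (n + 1)) →L[ℝ] EuclideanSpace ℝ (Fin (n + 1))))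
    (F : EuclideanSpace ℝ (Fin (n + 1)) → EuclideanSpace ℝ (Fin (n + 1)))
    (w : EuclideanSpace ℝ (Fin (n + 1)) → ℝ)
    (W : EuclideanSpace ℝ (Fin (n + 1)) → EuclideanSpace ℝ (Fin (n + 1))),
    LocDatum α M MA δ MF B r A F w W →
      Jet1 α (C * (B + MF)) (Hc n 0 ∩ closedBall 0 (r / 4)) w W ∧
        ∀ x ∈ Hc n 0 ∩ closedBall 0 (r / 4), ‖W x‖ ≤ C * (B + MF)

/-- A solution, smooth inside. -/
structure Sol (α δ r : ℝ) (A : (EuclideanSpace ℝ (Fin (n + 1))) → ((EuclideanSpace ℝ (Fin (n + 1))) →L[ℝ] (EuclideanSpace ℝ (Fin (n + 1))))) (F : (EuclideanSpace ℝ (Fin (n + 1))) → (EuclideanSpace ℝ (Fin (n + 1)))) (w : (EuclideanSpace ℝ (Fin (n + 1))) → ℝ) (W : (EuclideanSpace ℝ (Fin (n + 1))) → (EuclideanSpace ℝ (Fin (n + 1)))) : Prop where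
  loc : ∃ M MA MF B : ℝ, 0 ≤ MA ∧ LocDatum α M MA δ MF B r A F w W
  smooth : ContDiffOn ℝ ∞ W (hi n r)

theorem Sol.mono {A : (EuclideanSpace ℝ (Fin (n + 1))) → ((EuclideanSpace ℝ (Fin (n + 1))) →L[ℝ] (EuclideanSpace ℝ (Fin (n + 1))))} {F : (EuclideanSpace ℝ (Fin (n + 1))) → (EuclideanSpace ℝ (Fin (n + 1)))} {w : (EuclideanSpace ℝ (Fin (n + 1))) → ℝ} {W : (EuclideanSpace ℝ (Fin (n + 1))) → (EuclideanSpace ℝ (Fin (n + 1)))}
    (h : Sol α δ r A F w W) {s : ℝ} (hs : 0 < s) (hsr : s ≤ r) : Sol α δ s A F w W := by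
  obtain ⟨⟨M, MA, MF, B, hMA, D⟩, hW⟩ := h
  have hsub : Hc n 0 ∩ closedBall 0 s ⊆ Hc n 0 ∩ closedBall 0 r :=
    inter_subset_inter_right _ (closedBall_subset_closedBall hsr)
  exact ⟨⟨M, MA, MF, B, hMA, hs, hsr.trans D.r_le,
    ⟨fun x hx y hy => D.jet.hol x (hsub hx) y (hsub hy), fun x hx y hy => D.jet.tay x (hsub hx) y (hsub hy)⟩,
    fun x hx => D.nearA x (hsub hx), fun x hx y hy => D.holA x (hsub hx) y (hsub hy),
    fun x hx => D.bdF x (hsub hx), fun x hx y hy => D.holF x (hsub hx) y (hsub hy),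
    fun x hx => D.bdw x (hsub hx), fun φ h1 h2 h3 => D.flux φ h1 h2 (h3.trans (ball_subset_ball hsr))⟩,
    hW.mono (hi_mono hsr)⟩

theorem contOn_hol {V : Type*} [SeminormedAddCommGroup V] {S : Set (EuclideanSpace ℝ (Fin (n + 1)))} {f : (EuclideanSpace ℝ (Fin (n + 1))) → V} {K : ℝ} (hα : 0 < α)
    (h : ∀ x ∈ S, ∀ y ∈ S, ‖f x - f y‖ ≤ K * dist x y ^ α) : ContinuousOn f S := by
  intro x hx
  refine tendsto_iff_norm_sub_tendsto_zero.2 ?_
  refine squeeze_zero' (Eventually.of_forall fun y => norm_nonneg _)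
    (eventually_nhdsWithin_of_forall fun y hy => h y hy x hx) ?_
  have hd : Tendsto (fun y => dist y x) (𝓝[S] x) (𝓝 0) := by
    have := (continuous_id.dist (continuous_const (y := x))).tendsto x
    simp only [id_eq, dist_self] at this
    exact this.mono_left nhdsWithin_le_nhds
  simpa [Real.zero_rpow hα.ne'] using (hd.rpow_const (Or.inr hα.le)).const_mul K

/-- A bound in two points passes to the flat side. -/
theorem le_of_interior2 {s : ℝ} {F G : (EuclideanSpace ℝ (Fin (n + 1))) → (EuclideanSpace ℝ (Fin (n + 1))) → ℝ}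
    (hF1 : ∀ y ∈ half n s, ContinuousOn (fun x => F x y) (half n s))
    (hF2 : ∀ x ∈ half n s, ContinuousOn (F x) (half n s))
    (hG1 : ∀ y ∈ half n s, ContinuousOn (fun x => G x y) (half n s))
    (hG2 : ∀ x ∈ half n s, ContinuousOn (G x) (half n s))
    (h : ∀ x ∈ hi n s, ∀ y ∈ hi n s, F x y ≤ G x y) : ∀ x ∈ half n s, ∀ y ∈ half n s, F x y ≤ G x y := by
  intro x hx
  refine le_of_interior (hF2 x hx) (hG2 x hx) fun y hy => ?_
  exact le_of_interior (f := fun x => F x y) (g := fun x => G x y) (hF1 y (hi_subset_half s hy))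
    (hG1 y (hi_subset_half s hy)) (fun x' hx' => h x' hx' y hy) x hx

/-- Difference quotients of a function with Hölder tangential derivative are Hölder. -/
theorem quot_hol {V : Type*} [NormedAddCommGroup V] [NormedSpace ℝ V] {i : Fin n} {f f' : (EuclideanSpace ℝ (Fin (n + 1))) → V}
    {s h K : ℝ} (hα : 0 < α) (hf : ContinuousOn f (half n s))
    (hd : ∀ x ∈ hi n s, HasLineDerivAt ℝ f (f' x) x (tang i))
    (hf' : ∀ x ∈ hi n s, ∀ y ∈ hi n s, ‖f' x - f' y‖ ≤ K * dist x y ^ α) :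
    ∀ x ∈ half n (s - |h|), ∀ y ∈ half n (s - |h|),
      ‖(f (x + h • tang i) - f x) - (f (y + h • tang i) - f y)‖ ≤ |h| * (K * dist x y ^ α) := by
  have hm : MapsTo (fun w => w + h • tang i) (half n (s - |h|)) (half n s) := fun w hw =>
    (add_tang_mem i h (by linarith [mem_ball_zero_iff.1 hw.2])).1 hw.1
  have hs : half n (s - |h|) ⊆ half n s := half_mono (by linarith [abs_nonneg h])
  have hc : ContinuousOn (fun w => f (w + h • tang i) - f w) (half n (s - |h|)) :=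
    (hf.comp (by fun_prop) hm).sub (hf.mono hs)
  refine le_of_interior2 (fun y _ => (hc.sub continuousOn_const).norm) (fun x _ => (continuousOn_const.sub hc).norm)
    (fun y _ => ?_) (fun x _ => ?_) fun x hx y hy => ?_
  · exact (((continuous_id.dist continuous_const).rpow_const fun _ => Or.inr hα.le).const_mul K).const_mul _ |>.continuousOn
  · exact (((continuous_const.dist continuous_id).rpow_const fun _ => Or.inr hα.le).const_mul K).const_mul _ |>.continuousOn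
  have hmem : ∀ {z : (EuclideanSpace ℝ (Fin (n + 1)))}, z ∈ hi n (s - |h|) → ∀ t ∈ uIcc (0 : ℝ) h, z + t • tang i ∈ hi n s := fun {z} hz t ht => by
    have : |t| ≤ |h| := by simpa using abs_sub_left_of_mem_uIcc ht
    exact (add_tang_mem i t (by linarith [mem_ball_zero_iff.1 hz.2])).2 hz.1
  have hder : ∀ t ∈ uIcc (0 : ℝ) h, HasDerivWithinAt (fun t => f (x + t • tang i) - f (y + t • tang i))
      (f' (x + t • tang i) - f' (y + t • tang i)) (uIcc 0 h) t := fun t ht =>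
    ((hasDerivAt_line (hd _ (hmem hx t ht))).sub (hasDerivAt_line (hd _ (hmem hy t ht)))).hasDerivWithinAt
  have := (convex_uIcc (0 : ℝ) h).norm_image_sub_le_of_norm_hasDerivWithin_le hder (C := K * dist x y ^ α)
    (fun t ht => by
      refine (hf' _ (hmem hx t ht) _ (hmem hy t ht)).trans_eq ?_
      rw [dist_add_right]) left_mem_uIcc right_mem_uIcc
  simpa [Real.norm_eq_abs, mul_comm, sub_sub_sub_comm] using this

theorem fderiv_test_zero {φ : (EuclideanSpace ℝ (Fin (n + 1))) → ℝ} {x : (EuclideanSpace ℝ (Fin (n + 1)))} (h : x ∉ tsupport φ) : fderiv ℝ φ x = 0 :=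
  fderiv_of_notMem_tsupport ℝ h

theorem contOn_test {φ : (EuclideanSpace ℝ (Fin (n + 1))) → ℝ} (hφ : ContDiff ℝ ∞ φ) {g : (EuclideanSpace ℝ (Fin (n + 1))) → (EuclideanSpace ℝ (Fin (n + 1)))} {s : ℝ} (hg : ContinuousOn g (hi n s))
    (hs : tsupport φ ⊆ ball 0 s) : ContinuousOn (fun x => fderiv ℝ φ x (g x)) (Ho n 0) := by
  intro x hx
  refine ContinuousAt.continuousWithinAt ?_
  by_cases h : x ∈ tsupport φ
  · exact ((hφ.continuous_fderiv (by simp)).continuousAt).clm_apply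
      (hg.continuousAt ((isOpen_hi s).mem_nhds ⟨hx, hs h⟩))
  · refine (continuousAt_const (y := (0 : ℝ))).congr ?_
    filter_upwards [(isClosed_tsupport φ).isOpen_compl.mem_nhds h] with y hy
    rw [fderiv_test_zero hy]; simp

/-- A vector field shifted along a tangential direction is still flux free. -/
theorem flux_shift {Φ : (EuclideanSpace ℝ (Fin (n + 1))) → (EuclideanSpace ℝ (Fin (n + 1)))}
    (h : ∀ φ : (EuclideanSpace ℝ (Fin (n + 1))) → ℝ, ContDiff ℝ ∞ φ → HasCompactSupport φ → tsupport φ ⊆ ball 0 r →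
      ∫ x in Ho n 0, fderiv ℝ φ x (Φ x) = 0) (i : Fin n) {t s : ℝ} (hs : s + |t| ≤ r)
    {φ : (EuclideanSpace ℝ (Fin (n + 1))) → ℝ} (hφ : ContDiff ℝ ∞ φ) (hφc : HasCompactSupport φ) (hφs : tsupport φ ⊆ ball 0 s) :
    ∫ x in Ho n 0, fderiv ℝ φ x (Φ (x + t • tang i)) = 0 := by
  have hψ : ContDiff ℝ ∞ (fun q => φ (q - t • tang i)) := hφ.comp (contDiff_id.sub contDiff_const)
  have hψc : HasCompactSupport (fun q => φ (q - t • tang i)) :=
    hφc.comp_homeomorph (Homeomorph.subRight (t • tang i))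
  have hsupp : tsupport (fun q => φ (q - t • tang i)) ⊆ ball 0 r := by
    intro q hq
    have hq' : q - t • tang i ∈ tsupport φ :=
      tsupport_comp_subset_preimage φ (f := fun q => q - t • tang i) (by fun_prop) hq
    have h1 := mem_ball_zero_iff.1 (hφs hq')
    have h2 := norm_le_norm_add_norm_sub' q (t • tang i)
    rw [norm_smul, norm_tang, mul_one, Real.norm_eq_abs] at h2
    exact mem_ball_zero_iff.2 (by linarith)
  have h0 := h _ hψ hψc hsupp
  have h1 := integral_Ho_comp (fun x => fderiv ℝ (fun q => φ (q - t • tang i)) x (Φ x)) (t • tang i)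
    (ρ := 1) one_pos
  rw [h0, mul_zero] at h1
  simpa [tang_last, fderiv_comp_sub, add_comm] using h1

theorem pos_of_mem_hi {s : ℝ} {x : (EuclideanSpace ℝ (Fin (n + 1)))} (h : x ∈ hi n s) : 0 < s :=
  lt_of_le_of_lt (norm_nonneg x) (mem_ball_zero_iff.1 h.2)

/-- The limit of the difference quotients solves the differentiated equation. -/
theorem quot_limit (hα : 0 < α) (hE : Est n α δ) (hδ : 0 ≤ δ) (hr : 0 < r) (hr1 : r ≤ 1) {M MA MF B : ℝ}
    (hMA : 0 ≤ MA) (i : Fin n) {w : (EuclideanSpace ℝ (Fin (n + 1))) → ℝ} {W : (EuclideanSpace ℝ (Fin (n + 1))) → (EuclideanSpace ℝ (Fin (n + 1)))} (hJ : Jet1 α M (Hc n 0 ∩ closedBall 0 r) w W)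
    (hW : ContDiffOn ℝ ∞ W (hi n r)) {Ah : ℝ → (EuclideanSpace ℝ (Fin (n + 1))) → ((EuclideanSpace ℝ (Fin (n + 1))) →L[ℝ] (EuclideanSpace ℝ (Fin (n + 1))))} {Fh : ℝ → (EuclideanSpace ℝ (Fin (n + 1))) → (EuclideanSpace ℝ (Fin (n + 1)))}
    (hD : ∀ h : ℝ, h ≠ 0 → |h| ≤ r / 4 → ∃ Mh, LocDatum α Mh MA δ MF B (r / 4) (Ah h) (Fh h)
      (fun x => h⁻¹ * (w (x + h • tang i) - w x)) (fun x => h⁻¹ • (W (x + h • tang i) - W x)))
    {A : (EuclideanSpace ℝ (Fin (n + 1))) → ((EuclideanSpace ℝ (Fin (n + 1))) →L[ℝ] (EuclideanSpace ℝ (Fin (n + 1))))} {F : (EuclideanSpace ℝ (Fin (n + 1))) → (EuclideanSpace ℝ (Fin (n + 1)))}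
    (hAlim : ∀ x ∈ hi n (r / 32), Tendsto (fun h => Ah h x) (𝓝[≠] 0) (𝓝 (A x)))
    (hFlim : ∀ x ∈ hi n (r / 32), Tendsto (fun h => Fh h x) (𝓝[≠] 0) (𝓝 (F x)))
    {MA' MF' : ℝ} (hMA' : 0 ≤ MA')
    (hnear : ∀ x ∈ Hc n 0 ∩ closedBall 0 (r / 32), ‖A x - ContinuousLinearMap.id ℝ _‖ ≤ δ)
    (hholA : ∀ x ∈ Hc n 0 ∩ closedBall 0 (r / 32), ∀ y ∈ Hc n 0 ∩ closedBall 0 (r / 32),
      ‖A x - A y‖ ≤ MA' * dist x y ^ α)
    (hbdF : ∀ x ∈ Hc n 0 ∩ closedBall 0 (r / 32), ‖F x‖ ≤ MF')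
    (hholF : ∀ x ∈ Hc n 0 ∩ closedBall 0 (r / 32), ∀ y ∈ Hc n 0 ∩ closedBall 0 (r / 32),
      ‖F x - F y‖ ≤ MF' * dist x y ^ α) :
    ∃ W' : (EuclideanSpace ℝ (Fin (n + 1))) → (EuclideanSpace ℝ (Fin (n + 1))), Sol α δ (r / 32) A F (fun x => ⟪W x, tang i⟫_ℝ) W' ∧
      ∀ x ∈ hi n (r / 32), HasLineDerivAt ℝ W (W' x) x (tang i) := by
  obtain ⟨C, hC, hCest⟩ := hE MA (r / 4) hMA (by positivity) (by linarith)
  obtain ⟨K, eK⟩ : ∃ K, K = C * (B + MF) := ⟨_, rfl⟩
  have hsub : Hc n 0 ∩ closedBall (0 : (EuclideanSpace ℝ (Fin (n + 1)))) (r / 32) ⊆ half n (r / 16) :=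
    inter_subset_inter_right _ (closedBall_subset_ball (by linarith))
  have hh16 : half n (r / 16) ⊆ Hc n 0 ∩ closedBall (0 : (EuclideanSpace ℝ (Fin (n + 1)))) (r / 4 / 4) :=
    inter_subset_inter_right _ (ball_subset_closedBall.trans (closedBall_subset_closedBall (by linarith)))
  have hhr : half n (r / 16) ⊆ Hc n 0 ∩ closedBall (0 : (EuclideanSpace ℝ (Fin (n + 1)))) r :=
    inter_subset_inter_right _ (ball_subset_closedBall.trans (closedBall_subset_closedBall (by linarith)))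
  have hev : ∀ᶠ h : ℝ in 𝓝[≠] 0, h ≠ 0 ∧ |h| ≤ r / 4 := by
    refine (eventually_mem_nhdsWithin.mono fun h hh => hh).and ?_
    filter_upwards [nhdsWithin_le_nhds (closedBall_mem_nhds (0 : ℝ) (show (0:ℝ) < r / 4 by positivity))] with h hh
    simpa using hh
  have hest : ∀ᶠ h : ℝ in 𝓝[≠] 0, Jet1 α K (Hc n 0 ∩ closedBall 0 (r / 4 / 4))
      (fun x => h⁻¹ * (w (x + h • tang i) - w x)) (fun x => h⁻¹ • (W (x + h • tang i) - W x)) ∧
      ∀ x ∈ Hc n 0 ∩ closedBall 0 (r / 4 / 4), ‖h⁻¹ • (W (x + h • tang i) - W x)‖ ≤ K := hev.mono fun h hh => by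
    obtain ⟨Mh, D⟩ := hD h hh.1 hh.2
    exact eK ▸ hCest Mh MF B _ _ _ _ D
  have hWd : ∀ x ∈ hi n r, DifferentiableAt ℝ W x := fun x hx =>
    (hW.differentiableOn (by simp)).differentiableAt ((isOpen_hi r).mem_nhds hx)
  obtain ⟨P, eP⟩ : ∃ P : (EuclideanSpace ℝ (Fin (n + 1))) → (EuclideanSpace ℝ (Fin (n + 1))), P = fun x => fderiv ℝ W x (tang i) := ⟨_, rfl⟩
  have hlineW : ∀ x ∈ hi n r, HasLineDerivAt ℝ W (P x) x (tang i) := fun x hx =>
    eP ▸ (hWd x hx).hasFDerivAt.hasLineDerivAt _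
  have hlimW : ∀ x ∈ hi n r, Tendsto (fun h : ℝ => h⁻¹ • (W (x + h • tang i) - W x)) (𝓝[≠] 0) (𝓝 (P x)) :=
    fun x hx => by simpa using HasDerivAt.tendsto_slope_zero (hlineW x hx)
  have hlimw : ∀ x ∈ hi n r,
      Tendsto (fun h : ℝ => h⁻¹ * (w (x + h • tang i) - w x)) (𝓝[≠] 0) (𝓝 ⟪W x, tang i⟫_ℝ) := fun x hx => by
    have hx' : x ∈ Hc n 0 ∩ closedBall 0 r := ⟨Ho_subset_Hc 0 hx.1, ball_subset_closedBall hx.2⟩
    have hd := (hJ.hasFDerivWithinAt hα hx').hasFDerivAt (Filter.mem_of_superset ((isOpen_hi r).mem_nhds hx)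
      fun y hy => ⟨Ho_subset_Hc 0 hy.1, ball_subset_closedBall hy.2⟩)
    simpa using HasDerivAt.tendsto_slope_zero (hd.hasLineDerivAt (tang i))
  have h16r : hi n (r / 16) ⊆ hi n r := hi_mono (by linarith)
  have hi16 : ∀ {x : (EuclideanSpace ℝ (Fin (n + 1)))}, x ∈ hi n (r / 16) → x ∈ Hc n 0 ∩ closedBall 0 (r / 4 / 4) :=
    fun {x} hx => hh16 (hi_subset_half _ hx)
  have hK : 0 ≤ K := by
    obtain ⟨h, hh⟩ := hest.exists
    exact (norm_nonneg _).trans (hh.2 0 ⟨by simp [Hc], mem_closedBall_self (by positivity)⟩)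
  have hPb : ∀ x ∈ hi n (r / 16), ‖P x‖ ≤ K := fun x hx =>
    le_of_tendsto (hlimW x (h16r hx)).norm (hest.mono fun h hh => hh.2 x (hi16 hx))
  have hPh : ∀ x ∈ hi n (r / 16), ∀ y ∈ hi n (r / 16), ‖P x - P y‖ ≤ K * dist x y ^ α := fun x hx y hy =>
    le_of_tendsto ((hlimW x (h16r hx)).sub (hlimW y (h16r hy))).norm
      (hest.mono fun h hh => hh.1.hol x (hi16 hx) y (hi16 hy))
  obtain ⟨W', hWe, hWb, hWh⟩ := exists_ext hα hK hPb hPh
  have hWc : ContinuousOn W' (half n (r / 16)) := contOn_hol hα hWh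
  have hWc0 : ContinuousOn W (half n (r / 16)) := (hJ.continuousOn hα).mono hhr
  have hwc : ContinuousOn (fun x => ⟪W x, tang i⟫_ℝ) (half n (r / 16)) := hWc0.inner continuousOn_const
  have htay : ∀ x ∈ half n (r / 16), ∀ y ∈ half n (r / 16),
      |⟪W y, tang i⟫_ℝ - ⟪W x, tang i⟫_ℝ - ⟪W' x, y - x⟫_ℝ| ≤ K * dist x y ^ (1 + α) := by
    refine le_of_interior2
      (fun y _ => ((continuousOn_const.sub hwc).sub (hWc.inner (continuousOn_const.sub continuousOn_id))).abs)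
      (fun x _ => ((hwc.sub continuousOn_const).sub (continuousOn_const.inner (continuousOn_id.sub continuousOn_const))).abs)
      (fun y _ => ?_) (fun x _ => ?_) fun x hx y hy => ?_
    · exact ((continuous_id.dist continuous_const).rpow_const fun _ => Or.inr (by linarith)).const_mul K |>.continuousOn
    · exact ((continuous_const.dist continuous_id).rpow_const fun _ => Or.inr (by linarith)).const_mul K |>.continuousOn
    rw [hWe x hx]
    exact le_of_tendsto (((hlimw y (h16r hy)).sub (hlimw x (h16r hx))).sub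
      ((hlimW x (h16r hx)).inner tendsto_const_nhds)).abs (hest.mono fun h hh => hh.1.tay x (hi16 hx) y (hi16 hy))
  have h32 : hi n (r / 32) ⊆ hi n (r / 16) := hi_mono (by linarith)
  have hW0 : ∀ x ∈ Hc n 0 ∩ closedBall (0 : (EuclideanSpace ℝ (Fin (n + 1)))) (r / 32), ‖W x‖ ≤ ‖W 0‖ + |M| * (r ^ α) := fun x hx => by
    have hx' : x ∈ Hc n 0 ∩ closedBall (0 : (EuclideanSpace ℝ (Fin (n + 1)))) r :=
      ⟨hx.1, closedBall_subset_closedBall (by linarith) hx.2⟩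
    refine (norm_le_norm_add_norm_sub' (W x) (W 0)).trans (add_le_add le_rfl ?_)
    refine (hJ.hol x hx' 0 ⟨by simp [Hc], mem_closedBall_self hr.le⟩).trans
      (mul_le_mul (le_abs_self M) ?_ (by positivity) (abs_nonneg _))
    exact Real.rpow_le_rpow dist_nonneg (mem_closedBall.1 hx'.2) hα.le
  refine ⟨W', ⟨⟨K, MA', MF', ‖W 0‖ + |M| * (r ^ α), hMA', by positivity, by linarith,
    ⟨fun x hx y hy => hWh x (hsub hx) y (hsub hy), fun x hx y hy => htay x (hsub hx) y (hsub hy)⟩,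
    hnear, hholA, hbdF, hholF, fun x hx => ?_, fun φ hφ hφc hφs => ?_⟩, ?_⟩,
    fun x hx => (hWe x (h32 hx)).symm ▸ hlineW x (h16r (h32 hx))⟩
  · refine (abs_real_inner_le_norm _ _).trans ?_
    rw [norm_tang, mul_one]
    exact hW0 x hx
  · refine tendsto_nhds_unique (tendsto_integral_filter_of_dominated_convergence (l := 𝓝[≠] (0 : ℝ))
      (fun x => ‖fderiv ℝ φ x‖ * ((1 + δ) * K + MF)) ?_ ?_ ?_ ?_ (F := fun h x =>
        fderiv ℝ φ x (Ah h x (h⁻¹ • (W (x + h • tang i) - W x)) + Fh h x))) ?_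
    · filter_upwards [hev] with h hh
      obtain ⟨Mh, D⟩ := hD h hh.1 hh.2
      have hsub4 : hi n (r / 32) ⊆ Hc n 0 ∩ closedBall (0 : (EuclideanSpace ℝ (Fin (n + 1)))) (r / 4) := fun x hx =>
        ⟨Ho_subset_Hc 0 hx.1, closedBall_subset_closedBall (by linarith) (ball_subset_closedBall hx.2)⟩
      refine (contOn_test hφ ?_ hφs).aestronglyMeasurable (isOpen_Ho 0).measurableSet
      exact (((contOn_hol hα D.holA).mono hsub4).clm_apply ((D.jet.continuousOn hα).mono hsub4)).add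
        ((contOn_hol hα D.holF).mono hsub4)
    · filter_upwards [hev, hest] with h hh hh'
      obtain ⟨Mh, D⟩ := hD h hh.1 hh.2
      refine (ae_restrict_iff' (isOpen_Ho 0).measurableSet).2 (Eventually.of_forall fun x hx => ?_)
      by_cases hxs : x ∈ tsupport φ
      · have hx4 : x ∈ Hc n 0 ∩ closedBall (0 : (EuclideanSpace ℝ (Fin (n + 1)))) (r / 4) :=
          ⟨Ho_subset_Hc 0 hx, closedBall_subset_closedBall (by linarith) (ball_subset_closedBall (hφs hxs))⟩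
        have hx16 : x ∈ Hc n 0 ∩ closedBall (0 : (EuclideanSpace ℝ (Fin (n + 1)))) (r / 4 / 4) :=
          ⟨Ho_subset_Hc 0 hx, closedBall_subset_closedBall (by linarith) (ball_subset_closedBall (hφs hxs))⟩
        refine (ContinuousLinearMap.le_opNorm _ _).trans (mul_le_mul_of_nonneg_left ?_ (norm_nonneg _))
        refine (norm_add_le _ _).trans (add_le_add ?_ (D.bdF x hx4))
        refine (ContinuousLinearMap.le_opNorm _ _).trans (mul_le_mul ?_ (hh'.2 x hx16) (norm_nonneg _) (by linarith))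
        have h2 : ‖ContinuousLinearMap.id ℝ (EuclideanSpace ℝ (Fin (n + 1)))‖ ≤ 1 := ContinuousLinearMap.norm_id_le
        linarith [norm_le_norm_add_norm_sub' (Ah h x) (ContinuousLinearMap.id ℝ (EuclideanSpace ℝ (Fin (n + 1)))), D.nearA x hx4]
      · simp [fderiv_test_zero hxs]
    · exact (((hφ.continuous_fderiv (by simp)).norm.mul continuous_const).integrable_of_hasCompactSupport
        (hφc.fderiv ℝ).norm.mul_right).integrableOn
    · refine (ae_restrict_iff' (isOpen_Ho 0).measurableSet).2 (Eventually.of_forall fun x hx => ?_)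
      by_cases hxs : x ∈ tsupport φ
      · have hx32 : x ∈ hi n (r / 32) := ⟨hx, hφs hxs⟩
        have hW' := hWe x (h32 hx32)
        rw [hW']
        exact (((fderiv ℝ φ x).continuous.tendsto _).comp
          ((tendsto_apply (hAlim x hx32) (hlimW x (h16r (h32 hx32)))).add (hFlim x hx32)))
      · simp [fderiv_test_zero hxs]
    · refine tendsto_nhds_of_eventually_eq (hev.mono fun h hh => ?_)
      obtain ⟨Mh, D⟩ := hD h hh.1 hh.2
      exact D.flux φ hφ hφc (hφs.trans (ball_subset_ball (by linarith)))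
  · have : ContDiffOn ℝ ∞ P (hi n (r / 32)) := eP ▸
      (((hW.fderiv_of_isOpen (isOpen_hi r) (m := ∞) (by simp)).clm_apply contDiffOn_const).mono
        (h32.trans h16r))
    exact this.congr fun x hx => hWe x (h32 hx)

/-- Difference quotients of a jet are a jet, with a crude constant. -/
theorem quot_jet {M : ℝ} {i : Fin n} {w : (EuclideanSpace ℝ (Fin (n + 1))) → ℝ} {W : (EuclideanSpace ℝ (Fin (n + 1))) → (EuclideanSpace ℝ (Fin (n + 1)))}
    (hJ : Jet1 α M (Hc n 0 ∩ closedBall 0 r) w W) {h s : ℝ} (hs : s + |h| ≤ r) :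
    Jet1 α (2 * |M| / |h|) (Hc n 0 ∩ closedBall 0 s) (fun x => h⁻¹ * (w (x + h • tang i) - w x))
      (fun x => h⁻¹ • (W (x + h • tang i) - W x)) := by
  have hsh : ∀ x ∈ Hc n 0 ∩ closedBall (0 : (EuclideanSpace ℝ (Fin (n + 1)))) s, x + h • tang i ∈ Hc n 0 ∩ closedBall 0 r := fun x hx => by
    refine ⟨?_, mem_closedBall_zero_iff.2 ((norm_add_le _ _).trans ?_)⟩
    · have h' : -(0 : ℝ) ≤ x (Fin.last n) := hx.1
      show -(0 : ℝ) ≤ _
      simpa [tang_last] using h'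
    · rw [norm_smul, norm_tang, mul_one, Real.norm_eq_abs]
      linarith [mem_closedBall_zero_iff.1 hx.2]
  have hb : Hc n 0 ∩ closedBall (0 : (EuclideanSpace ℝ (Fin (n + 1)))) s ⊆ Hc n 0 ∩ closedBall 0 r :=
    inter_subset_inter_right _ (closedBall_subset_closedBall (by linarith [abs_nonneg h]))
  refine ⟨fun x hx y hy => ?_, fun x hx y hy => ?_⟩
  · rw [← smul_sub, norm_smul, norm_inv, Real.norm_eq_abs, sub_sub_sub_comm,
      show 2 * |M| / |h| * dist x y ^ α = |h|⁻¹ * (2 * |M| * dist x y ^ α) by ring]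
    refine mul_le_mul_of_nonneg_left ((norm_sub_le _ _).trans ?_) (by positivity)
    have e1 := hJ.hol _ (hsh x hx) _ (hsh y hy)
    have e2 := hJ.hol x (hb hx) y (hb hy)
    rw [dist_add_right] at e1
    have e3 := mul_le_mul_of_nonneg_right (le_abs_self M) (Real.rpow_nonneg (dist_nonneg (x := x) (y := y)) α)
    linarith
  · have e1 := hJ.tay _ (hsh x hx) _ (hsh y hy)
    have e2 := hJ.tay x (hb hx) y (hb hy)
    rw [dist_add_right, add_sub_add_right_eq_sub] at e1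
    have e3 := mul_le_mul_of_nonneg_right (le_abs_self M)
      (Real.rpow_nonneg (dist_nonneg (x := x) (y := y)) (1 + α))
    rw [real_inner_smul_left, inner_sub_left,
      show ∀ a b c d p q : ℝ, h⁻¹ * (a - b) - h⁻¹ * (c - d) - h⁻¹ * (p - q)
        = h⁻¹ * ((a - c - p) - (b - d - q)) from fun a b c d p q => by ring,
      abs_mul, abs_inv, show 2 * |M| / |h| * dist x y ^ (1 + α)
        = |h|⁻¹ * (2 * |M| * dist x y ^ (1 + α)) by ring]
    refine mul_le_mul_of_nonneg_left ((abs_sub _ _).trans ?_) (by positivity)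
    linarith

/-- Difference quotients are bounded by the gradient. -/
theorem quot_sup {M SW : ℝ} (hα : 0 < α) {i : Fin n} {w : (EuclideanSpace ℝ (Fin (n + 1))) → ℝ} {W : (EuclideanSpace ℝ (Fin (n + 1))) → (EuclideanSpace ℝ (Fin (n + 1)))}
    (hJ : Jet1 α M (Hc n 0 ∩ closedBall 0 r) w W) (hSW : ∀ x ∈ Hc n 0 ∩ closedBall 0 r, ‖W x‖ ≤ SW)
    {h : ℝ} (hh : h ≠ 0) {x : (EuclideanSpace ℝ (Fin (n + 1)))} (hx : x ∈ Hc n 0 ∩ closedBall 0 r)
    (hxh : x + h • tang i ∈ Hc n 0 ∩ closedBall 0 r) : |h⁻¹ * (w (x + h • tang i) - w x)| ≤ SW := by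
  rw [abs_mul, abs_inv, inv_mul_le_iff₀ (abs_pos.2 hh), ← Real.norm_eq_abs]
  refine ((convex_half_ball 0 r).norm_image_sub_le_of_norm_hasFDerivWithin_le
    (fun z hz => hJ.hasFDerivWithinAt hα hz)
    (fun z hz => (innerSL_apply_norm ℝ (W z)).trans_le (hSW z hz)) hx hxh).trans_eq ?_
  rw [add_sub_cancel_left, norm_smul, norm_tang, Real.norm_eq_abs]; ring

/-- Differentiating a linear equation tangentially. -/
theorem lin_step (hα : 0 < α) (hE : Est n α δ) (hδ : 0 ≤ δ) {k : ℕ} {A : (EuclideanSpace ℝ (Fin (n + 1))) → ((EuclideanSpace ℝ (Fin (n + 1))) →L[ℝ] (EuclideanSpace ℝ (Fin (n + 1))))} {F : (EuclideanSpace ℝ (Fin (n + 1))) → (EuclideanSpace ℝ (Fin (n + 1)))}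
    {w : (EuclideanSpace ℝ (Fin (n + 1))) → ℝ} {W : (EuclideanSpace ℝ (Fin (n + 1))) → (EuclideanSpace ℝ (Fin (n + 1)))} (hS : Sol α δ r A F w W) (hA : TC α r 0 (k + 1) A) (hF : TC α r 0 (k + 1) F)
    (i : Fin n) :
    ∃ (A' : (EuclideanSpace ℝ (Fin (n + 1))) → ((EuclideanSpace ℝ (Fin (n + 1))) →L[ℝ] (EuclideanSpace ℝ (Fin (n + 1))))) (F' W' : (EuclideanSpace ℝ (Fin (n + 1))) → (EuclideanSpace ℝ (Fin (n + 1)))), TC α r 0 k A' ∧ TC α r 0 k F' ∧
      Sol α δ (r / 32) A (fun x => A' x (W x) + F' x) (fun x => ⟪W x, tang i⟫_ℝ) W' ∧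
      ∀ x ∈ hi n (r / 32), HasLineDerivAt ℝ W (W' x) x (tang i) := by
  obtain ⟨⟨M, MA, MF, B, hMA, D⟩, hWs⟩ := hS
  obtain ⟨A', hA', hAd⟩ := hA.2 i
  obtain ⟨F', hF', hFd⟩ := hF.2 i
  obtain ⟨-, KA, hKA⟩ := hA'.base
  obtain ⟨-, KF, hKF⟩ := hF'.base
  have hr := D.r_pos
  have h0 : (0 : (EuclideanSpace ℝ (Fin (n + 1)))) ∈ half n r := ⟨by simp [Hc], mem_ball_self hr⟩
  have hKA0 : 0 ≤ KA := (norm_nonneg _).trans (hKA 0 h0).1
  have hKF0 : 0 ≤ KF := (norm_nonneg _).trans (hKF 0 h0).1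
  have h0c : (0 : (EuclideanSpace ℝ (Fin (n + 1)))) ∈ Hc n 0 ∩ closedBall 0 r := ⟨h0.1, mem_closedBall_self hr.le⟩
  obtain ⟨SW, eSW⟩ : ∃ SW, SW = ‖W 0‖ + |M| * r ^ α := ⟨_, rfl⟩
  have hSW : ∀ x ∈ Hc n 0 ∩ closedBall 0 r, ‖W x‖ ≤ SW := fun x hx => by
    rw [eSW]
    refine (norm_le_norm_add_norm_sub' (W x) (W 0)).trans (add_le_add le_rfl ?_)
    refine (D.jet.hol x hx 0 h0c).trans (mul_le_mul (le_abs_self M) ?_ (by positivity) (abs_nonneg _))
    exact Real.rpow_le_rpow dist_nonneg (mem_closedBall.1 hx.2) hα.le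
  have hSW0 : 0 ≤ SW := (norm_nonneg _).trans (hSW 0 h0c)
  obtain ⟨MFh, eMFh⟩ : ∃ MFh, MFh = KA * SW + KA * |M| + KF := ⟨_, rfl⟩
  have hb4 : Hc n 0 ∩ closedBall (0 : (EuclideanSpace ℝ (Fin (n + 1)))) (r / 4) ⊆ Hc n 0 ∩ closedBall 0 r :=
    inter_subset_inter_right _ (closedBall_subset_closedBall (by linarith))
  have hlinF : ∀ {S : Set (EuclideanSpace ℝ (Fin (n + 1)))}, S ⊆ half n r → S ⊆ Hc n 0 ∩ closedBall 0 r →
      ∀ {a : (EuclideanSpace ℝ (Fin (n + 1))) → ((EuclideanSpace ℝ (Fin (n + 1))) →L[ℝ] (EuclideanSpace ℝ (Fin (n + 1))))} {f : (EuclideanSpace ℝ (Fin (n + 1))) → (EuclideanSpace ℝ (Fin (n + 1)))}, (∀ x ∈ S, ‖a x‖ ≤ KA) →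
      (∀ x ∈ S, ∀ y ∈ S, ‖a x - a y‖ ≤ KA * dist x y ^ α) → (∀ x ∈ S, ‖f x‖ ≤ KF) →
      (∀ x ∈ S, ∀ y ∈ S, ‖f x - f y‖ ≤ KF * dist x y ^ α) →
      (∀ x ∈ S, ‖a x (W x) + f x‖ ≤ MFh) ∧
      ∀ x ∈ S, ∀ y ∈ S, ‖(a x (W x) + f x) - (a y (W y) + f y)‖ ≤ MFh * dist x y ^ α := by
    intro S _ hSc a f ha hah hf hfh
    have hWh : ∀ x ∈ S, ∀ y ∈ S, ‖W x - W y‖ ≤ |M| * dist x y ^ α := fun x hx y hy =>
      (D.jet.hol x (hSc hx) y (hSc hy)).trans (mul_le_mul_of_nonneg_right (le_abs_self M) (by positivity))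
    refine ⟨fun x hx => ?_, fun x hx y hy => ?_⟩
    · refine (norm_add_le _ _).trans ((add_le_add ((ContinuousLinearMap.le_opNorm _ _).trans
        (mul_le_mul (ha x hx) (hSW x (hSc hx)) (norm_nonneg _) hKA0)) (hf x hx)).trans ?_)
      rw [eMFh]; linarith [mul_nonneg hKA0 (abs_nonneg M)]
    · rw [add_sub_add_comm, eMFh, add_mul]
      exact (norm_add_le _ _).trans (add_le_add (hol_apply hah ha hWh (fun z hz => hSW z (hSc hz)) x hx y hy)
        (hfh x hx y hy))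
  obtain ⟨e, ee⟩ : ∃ e, e = tang i := ⟨_, rfl⟩
  have hs32 : Hc n 0 ∩ closedBall (0 : (EuclideanSpace ℝ (Fin (n + 1)))) (r / 32) ⊆ half n r :=
    inter_subset_inter_right _ (closedBall_subset_ball (by linarith))
  have hb32 : Hc n 0 ∩ closedBall (0 : (EuclideanSpace ℝ (Fin (n + 1)))) (r / 32) ⊆ Hc n 0 ∩ closedBall 0 r :=
    inter_subset_inter_right _ (closedBall_subset_closedBall (by linarith))
  have hlim' := hlinF hs32 hb32 (a := A') (f := F') (fun x hx => (hKA x (hs32 hx)).1)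
    (fun x hx y hy => (hKA x (hs32 hx)).2 y (hs32 hy)) (fun x hx => (hKF x (hs32 hx)).1)
    (fun x hx y hy => (hKF x (hs32 hx)).2 y (hs32 hy))
  refine (quot_limit hα hE hδ hr D.r_le (MA := MA) (MF := MFh) (B := SW) hMA i D.jet hWs
    (Ah := fun h x => A (x + h • tang i))
    (Fh := fun h x => (h⁻¹ • (A (x + h • tang i) - A x)) (W x) + h⁻¹ • (F (x + h • tang i) - F x))
    (A := A) (F := fun x => A' x (W x) + F' x) (fun h hh hhr => ?_) (fun x hx => ?_) (fun x hx => ?_)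
    (MA' := MA) hMA (fun x hx => D.nearA x (hb32 hx)) (fun x hx y hy => D.holA x (hb32 hx) y (hb32 hy))
    (MF' := MFh) hlim'.1 hlim'.2).elim fun W' hW' => ⟨A', F', W', hA', hF', hW'.1, hW'.2⟩
  · rw [← ee]
    have hsh : ∀ x ∈ Hc n 0 ∩ closedBall (0 : (EuclideanSpace ℝ (Fin (n + 1)))) (r / 4), x + h • e ∈ Hc n 0 ∩ closedBall 0 r := fun x hx => by
      have := (add_tang_mem i h (s := r) (by linarith [mem_closedBall_zero_iff.1 hx.2])).1 hx.1
      rw [← ee] at this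
      exact ⟨this.1, ball_subset_closedBall this.2⟩
    have hhh : ∀ {x : (EuclideanSpace ℝ (Fin (n + 1)))}, x ∈ Hc n 0 ∩ closedBall 0 (r / 4) → x ∈ half n (r - |h|) := fun {x} hx =>
      ⟨hx.1, mem_ball_zero_iff.2 (by linarith [mem_closedBall_zero_iff.1 hx.2])⟩
    have hq : ∀ {V : Type} [NormedAddCommGroup V] [NormedSpace ℝ V] {f f' : (EuclideanSpace ℝ (Fin (n + 1))) → V} {K : ℝ},
        ContinuousOn f (half n r) → (∀ x ∈ hi n r, HasLineDerivAt ℝ f (f' x) x (tang i)) →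
        (∀ x ∈ half n r, ‖f' x‖ ≤ K ∧ ∀ y ∈ half n r, ‖f' x - f' y‖ ≤ K * dist x y ^ α) →
        (∀ x ∈ Hc n 0 ∩ closedBall 0 (r / 4), ‖h⁻¹ • (f (x + h • e) - f x)‖ ≤ K) ∧
        ∀ x ∈ Hc n 0 ∩ closedBall 0 (r / 4), ∀ y ∈ Hc n 0 ∩ closedBall 0 (r / 4),
          ‖h⁻¹ • (f (x + h • e) - f x) - h⁻¹ • (f (y + h • e) - f y)‖ ≤ K * dist x y ^ α := by
      intro V _ _ f f' K hf hfd hK
      refine ⟨fun x hx => ?_, fun x hx y hy => ?_⟩
      · rw [norm_smul, norm_inv, Real.norm_eq_abs, inv_mul_le_iff₀ (abs_pos.2 hh), ee]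
        exact line_mvt hf hfd hx.1 (by linarith [mem_closedBall_zero_iff.1 hx.2])
          fun z hz => (hK z (hi_subset_half r hz)).1
      · rw [← smul_sub, norm_smul, norm_inv, Real.norm_eq_abs, inv_mul_le_iff₀ (abs_pos.2 hh), ee]
        exact quot_hol hα hf hfd (fun z hz q hq => (hK z (hi_subset_half r hz)).2 q (hi_subset_half r hq))
          x (hhh hx) y (hhh hy)
    obtain ⟨ha1, ha2⟩ := hq hA.base.continuousOn hAd hKA
    obtain ⟨hf1, hf2⟩ := hq hF.base.continuousOn hFd hKF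
    have hF4 := hlinF (inter_subset_inter_right _ (closedBall_subset_ball (show r / 4 < r by linarith))) hb4
      (a := fun x => h⁻¹ • (A (x + h • e) - A x)) (f := fun x => h⁻¹ • (F (x + h • e) - F x)) ha1 ha2 hf1 hf2
    refine ⟨2 * |M| / |h|, by positivity, by linarith [D.r_le], ee ▸ quot_jet D.jet (by linarith),
      fun x hx => D.nearA _ (hsh x hx), fun x hx y hy => ?_, hF4.1, hF4.2,
      fun x hx => ee ▸ quot_sup hα D.jet hSW hh (hb4 hx) (ee ▸ hsh x hx), fun φ hφ hφc hφs => ?_⟩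
    · have := D.holA _ (hsh x hx) _ (hsh y hy)
      rwa [dist_add_right] at this
    · have h1 := flux_shift (Φ := fun x => A x (W x) + F x) D.flux i (t := h) (s := r / 4) (by linarith) hφ hφc hφs
      have h2 := D.flux φ hφ hφc (hφs.trans (ball_subset_ball (by linarith)))
      rw [← ee] at h1
      have hint : ∀ {Φ : (EuclideanSpace ℝ (Fin (n + 1))) → (EuclideanSpace ℝ (Fin (n + 1)))}, ContinuousOn Φ (half n (r / 4)) →
          IntegrableOn (fun x => fderiv ℝ φ x (Φ x)) (Ho n 0) := fun {Φ} hΦ => by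
        refine integrableOn_Ho (fun x hx => ?_) hφc fun x _ hxK => by simp [fderiv_test_zero hxK]
        by_cases hxs : x ∈ tsupport φ
        · exact ((hφ.continuous_fderiv (by simp)).continuousWithinAt).clm_apply
            ((hΦ x ⟨hx, hφs hxs⟩).mono_of_mem_nhdsWithin (inter_mem self_mem_nhdsWithin
              (nhdsWithin_le_nhds (isOpen_ball.mem_nhds (hφs hxs)))))
        · refine ((continuousAt_const (y := (0 : ℝ))).congr ?_).continuousWithinAt
          filter_upwards [(isClosed_tsupport φ).isOpen_compl.mem_nhds hxs] with y hy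
          simp [fderiv_test_zero hy]
      have hΦc : ContinuousOn (fun x => A x (W x) + F x) (Hc n 0 ∩ closedBall 0 r) :=
        ((contOn_hol hα D.holA).clm_apply (D.jet.continuousOn hα)).add (contOn_hol hα D.holF)
      have hs4 : half n (r / 4) ⊆ Hc n 0 ∩ closedBall (0 : (EuclideanSpace ℝ (Fin (n + 1)))) (r / 4) :=
        inter_subset_inter_right _ ball_subset_closedBall
      have hi1 := hint (Φ := fun x => A (x + h • e) (W (x + h • e)) + F (x + h • e))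
        ((hΦc.comp (Continuous.continuousOn (f := fun x : (EuclideanSpace ℝ (Fin (n + 1))) => x + h • e) (by fun_prop))
          fun x hx => hsh x (hs4 hx)))
      have hi2 := hint (Φ := fun x => A x (W x) + F x) (hΦc.mono (hs4.trans hb4))
      calc _ = ∫ x in Ho n 0, h⁻¹ * (fderiv ℝ φ x (A (x + h • e) (W (x + h • e)) + F (x + h • e))
              - fderiv ℝ φ x (A x (W x) + F x)) := integral_congr_ae (Eventually.of_forall fun x => by
            simp only [← smul_eq_mul, ← map_sub, ← map_smul]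
            congr 1
            simp only [smul_apply, sub_apply, map_smul, map_sub, smul_sub, smul_add]
            abel)
        _ = 0 := by rw [integral_const_mul, integral_sub hi1 hi2, h1, h2]; simp
  · have hxr : x ∈ hi n r := hi_mono (by linarith) hx
    have hxc : x ∈ Hc n 0 ∩ closedBall 0 r := ⟨Ho_subset_Hc 0 hxr.1, ball_subset_closedBall hxr.2⟩
    have hn : Hc n 0 ∩ closedBall (0 : (EuclideanSpace ℝ (Fin (n + 1)))) r ∈ 𝓝 x := Filter.mem_of_superset ((isOpen_hi r).mem_nhds hxr)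
      fun y hy => ⟨Ho_subset_Hc 0 hy.1, ball_subset_closedBall hy.2⟩
    have ht : Tendsto (fun h : ℝ => x + h • tang i) (𝓝[≠] 0) (𝓝 x) := by
      have : Continuous fun h : ℝ => x + h • tang i := by fun_prop
      simpa using (this.tendsto 0).mono_left (nhdsWithin_le_nhds (s := {0}ᶜ))
    exact (((contOn_hol hα D.holA) x hxc).continuousAt hn).tendsto.comp ht
  · have hxr : x ∈ hi n r := hi_mono (by linarith) hx
    have h1 : Tendsto (fun h : ℝ => h⁻¹ • (A (x + h • tang i) - A x)) (𝓝[≠] 0) (𝓝 (A' x)) := by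
      simpa using HasDerivAt.tendsto_slope_zero (hAd x hxr)
    have h2 : Tendsto (fun h : ℝ => h⁻¹ • (F (x + h • tang i) - F x)) (𝓝[≠] 0) (𝓝 (F' x)) := by
      simpa using HasDerivAt.tendsto_slope_zero (hFd x hxr)
    exact (tendsto_apply h1 tendsto_const_nhds).add h2

end Vale.Agent.P098.Reg.High
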