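import Vale.Agent.P098.Reg.High.Limit

/-! Rigidity: normalised blow-ups have no oscillation in the limit. -/

noncomputable section

namespace Vale.Agent.P098.Reg.High

open MeasureTheory Set Filter Topology Metric
open scoped ContDiff InnerProductSpace

variable {n : ℕ} {α : ℝ}

/-- The reflection in the hyperplane `x_last = 0`. -/
def refl (n : ℕ) : EuclideanSpace ℝ (Fin (n + 1)) →L[ℝ] EuclideanSpace ℝ (Fin (n + 1)) :=
  ContinuousLinearMap.id ℝ _ - (2 : ℝ) • (EuclideanSpace.proj (𝕜 := ℝ) (ι := Fin (n + 1)) (Fin.last n)).smulRight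
    (EuclideanSpace.single (Fin.last n) 1)

theorem refl_apply (x : EuclideanSpace ℝ (Fin (n + 1))) (i : Fin (n + 1)) :
    refl n x i = if i = Fin.last n then -x i else x i := by
  rcases eq_or_ne i (Fin.last n) with rfl | hi
  · simp [refl]; ring
  · simp [refl, hi]

theorem refl_refl (x : EuclideanSpace ℝ (Fin (n + 1))) : refl n (refl n x) = x := by
  ext i
  simp only [refl_apply]
  split_ifs <;> simp

theorem norm_refl (x : EuclideanSpace ℝ (Fin (n + 1))) : ‖refl n x‖ = ‖x‖ := by
  rw [EuclideanSpace.norm_eq, EuclideanSpace.norm_eq]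
  congr 1
  refine Finset.sum_congr rfl fun i _ => ?_
  rw [refl_apply]
  split_ifs <;> simp

/-- The reflection as an isometry. -/
def reflEquiv (n : ℕ) : EuclideanSpace ℝ (Fin (n + 1)) ≃ₗᵢ[ℝ] EuclideanSpace ℝ (Fin (n + 1)) :=
  { toFun := refl n
    invFun := refl n
    left_inv := refl_refl
    right_inv := refl_refl
    map_add' := map_add _
    map_smul' := map_smul _
    norm_map' := norm_refl }

theorem inner_refl_left (u v : EuclideanSpace ℝ (Fin (n + 1))) : ⟪refl n u, v⟫_ℝ = ⟪u, refl n v⟫_ℝ := by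
  have h : ⟪refl n u, refl n (refl n v)⟫_ℝ = ⟪u, refl n v⟫_ℝ := (reflEquiv n).inner_map_map u (refl n v)
  rwa [refl_refl] at h

theorem integral_comp_refl (f : EuclideanSpace ℝ (Fin (n + 1)) → ℝ) :
    ∫ x, f (refl n x) = ∫ x, f x :=
  MeasurePreserving.integral_comp (f := reflEquiv n) (reflEquiv n).measurePreserving
    (reflEquiv n).toHomeomorph.measurableEmbedding f

theorem last_null (n : ℕ) : volume {x : EuclideanSpace ℝ (Fin (n + 1)) | x (Fin.last n) = 0} = 0 := by
  obtain ⟨P, eP⟩ : ∃ P : Submodule ℝ (EuclideanSpace ℝ (Fin (n + 1))),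
      P = LinearMap.ker (EuclideanSpace.proj (𝕜 := ℝ) (ι := Fin (n + 1)) (Fin.last n)).toLinearMap := ⟨_, rfl⟩
  have he : {x : EuclideanSpace ℝ (Fin (n + 1)) | x (Fin.last n) = 0} = (P : Set _) := by
    rw [eP]; ext x; simp
  rw [he]
  refine Measure.addHaar_submodule volume P fun htop => ?_
  have h1 : EuclideanSpace.single (Fin.last n) (1 : ℝ) ∈ P := htop ▸ Submodule.mem_top
  rw [eP] at h1
  simp at h1

/-- A sublinear weak solution on the half space has constant derivative. -/
theorem rigid_half (hα : 0 < α) (hα1 : α < 1) {w : EuclideanSpace ℝ (Fin (n + 1)) → ℝ}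
    {W : EuclideanSpace ℝ (Fin (n + 1)) → EuclideanSpace ℝ (Fin (n + 1))} (hJ : Jet1 α 1 (Hc n 0) w W)
    (hW : ∀ x y, ‖W x - W y‖ ≤ dist x y ^ α) (hW0 : W 0 = 0)
    (hweak : ∀ φ : EuclideanSpace ℝ (Fin (n + 1)) → ℝ, ContDiff ℝ ∞ φ → HasCompactSupport φ →
      ∫ x in Ho n 0, fderiv ℝ φ x (W x) = 0) : ∀ x ∈ Hc n 0, W x = 0 := by
  have hWc : Continuous W := by
    refine continuous_iff_continuousAt.2 fun x => tendsto_iff_norm_sub_tendsto_zero.2 ?_
    refine squeeze_zero (fun y => norm_nonneg _) (fun y => hW y x) ?_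
    simpa [Real.zero_rpow hα.ne'] using
      ((continuous_id.dist (continuous_const (y := x))).tendsto x).rpow_const (Or.inr hα.le)
  have hWg : ∀ x, ‖W x‖ ≤ ‖x‖ ^ α := fun x => by
    have := hW x 0
    rwa [hW0, sub_zero, dist_zero_right] at this
  obtain ⟨R, eR⟩ : ∃ R : EuclideanSpace ℝ (Fin (n + 1)) → EuclideanSpace ℝ (Fin (n + 1)),
      R = fun x => if 0 ≤ x (Fin.last n) then x else refl n x := ⟨_, rfl⟩
  have hRabs : ∀ x i, R x i = if i = Fin.last n then |x i| else x i := fun x i => by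
    rw [eR]; simp only
    by_cases h : 0 ≤ x (Fin.last n)
    · rw [if_pos h]
      rcases eq_or_ne i (Fin.last n) with rfl | hi
      · rw [if_pos rfl, abs_of_nonneg h]
      · rw [if_neg hi]
    · rw [if_neg h, refl_apply]
      rcases eq_or_ne i (Fin.last n) with rfl | hi
      · rw [if_pos rfl, if_pos rfl, abs_of_neg (not_le.1 h)]
      · rw [if_neg hi, if_neg hi]
  have hRd : ∀ x y, dist (R x) (R y) ≤ dist x y := fun x y => by
    rw [EuclideanSpace.dist_eq, EuclideanSpace.dist_eq]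
    refine Real.sqrt_le_sqrt (Finset.sum_le_sum fun i _ => ?_)
    rw [hRabs, hRabs, Real.dist_eq, Real.dist_eq]
    split_ifs with hi
    · rw [sq_abs, sq_abs, sq_le_sq]; exact abs_abs_sub_abs_le_abs_sub _ _
    · exact le_rfl
  have hRm : ∀ x, R x ∈ Hc n 0 := fun x => by
    show -(0 : ℝ) ≤ R x (Fin.last n)
    rw [hRabs, if_pos rfl, neg_zero]; exact abs_nonneg _
  have hR0 : R 0 = 0 := by rw [eR]; simp
  have hRn : ∀ x, ‖R x‖ ≤ ‖x‖ := fun x => by
    have := hRd x 0
    rwa [hR0, dist_zero_right, dist_zero_right] at this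
  obtain ⟨Z, eZ⟩ : ∃ Z : EuclideanSpace ℝ (Fin (n + 1)) → EuclideanSpace ℝ (Fin (n + 1)),
      Z = fun x => if 0 ≤ x (Fin.last n) then W x else refl n (W (refl n x)) := ⟨_, rfl⟩
  have hZg : ∀ x, ‖Z x‖ ≤ ‖x‖ ^ α := fun x => by
    rw [eZ]; simp only
    split_ifs
    · exact hWg x
    · rw [norm_refl]; exact (hWg _).trans_eq (by rw [norm_refl])
  have hZm : ∀ i, Measurable fun x => Z x i := fun i => by
    rw [eZ]
    refine (EuclideanSpace.proj (𝕜 := ℝ) (ι := Fin (n + 1)) i).measurable.comp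
      (Measurable.ite (measurableSet_le measurable_const continuous_last.measurable) hWc.measurable ?_)
    exact (refl n).measurable.comp (hWc.measurable.comp (refl n).measurable)
  have hlip : ∀ r : ℝ, ∃ K, LipschitzOnWith K (fun x => w (R x)) (closedBall 0 r) := fun r => by
    refine ⟨Real.toNNReal |3 * (2 * r) ^ α + |w 0| + 3 * (2 * r) ^ α|, LipschitzOnWith.of_dist_le_mul fun x hx y hy => ?_⟩
    have hx' := (hRn x).trans (mem_closedBall_zero_iff.1 hx)
    have hy' := (hRn y).trans (mem_closedBall_zero_iff.1 hy)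
    rw [Real.dist_eq, Real.coe_toNNReal _ (abs_nonneg _)]
    refine (hJ.abs_sub_le hα (by simp [Hc]) hW0 (hRm x) (hRm y) hx' hy').trans ?_
    have hr : 0 ≤ r := (norm_nonneg _).trans (mem_closedBall_zero_iff.1 hx)
    have hp : 0 ≤ 3 * (2 * r) ^ α := mul_nonneg (by norm_num) (Real.rpow_nonneg (by linarith) _)
    refine mul_le_mul ?_ (hRd x y) dist_nonneg (abs_nonneg _)
    refine le_trans ?_ (le_abs_self _)
    linarith [abs_nonneg (w 0)]
  have hproj : ∀ u v : EuclideanSpace ℝ (Fin (n + 1)),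
      (∑ i, u i • EuclideanSpace.proj (𝕜 := ℝ) (ι := Fin (n + 1)) i) v = ⟪u, v⟫_ℝ := fun u v => by
    simp [PiLp.inner_apply, mul_comm]
  have hae : ∀ᵐ x, HasFDerivAt (fun x => w (R x)) (∑ i, Z x i • EuclideanSpace.proj (𝕜 := ℝ) (ι := Fin (n + 1)) i) x := by
    filter_upwards [measure_eq_zero_iff_ae_notMem.1 (last_null n)] with x hx
    have hx0 : x (Fin.last n) ≠ 0 := hx
    rcases hx0.lt_or_gt with hneg | hpos
    · have hev : (fun x => w (R x)) =ᶠ[𝓝 x] fun y => w (refl n y) := by
        filter_upwards [(isOpen_lt continuous_last continuous_const).mem_nhds hneg] with y hy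
        rw [eR]; simp only; rw [if_neg (not_le.2 hy)]
      have hin : refl n x ∈ Ho n 0 := by
        show -(0 : ℝ) < refl n x (Fin.last n)
        rw [refl_apply, if_pos rfl]; linarith
      have hd := (hJ.hasFDerivWithinAt hα (Ho_subset_Hc 0 hin)).hasFDerivAt
        (mem_of_superset ((isOpen_Ho 0).mem_nhds hin) (Ho_subset_Hc 0))
      refine ((hd.comp x (refl n).hasFDerivAt).congr_of_eventuallyEq hev).congr_fderiv ?_
      ext v
      rw [hproj, eZ]
      simp only [ContinuousLinearMap.comp_apply, innerSL_apply_apply, if_neg (not_le.2 hneg)]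
      rw [inner_refl_left]
    · have hev : (fun x => w (R x)) =ᶠ[𝓝 x] w := by
        filter_upwards [(isOpen_lt continuous_const continuous_last).mem_nhds hpos] with y hy
        rw [eR]; simp only; rw [if_pos (le_of_lt hy)]
      have hin : x ∈ Ho n 0 := by show -(0 : ℝ) < x (Fin.last n); linarith
      have hd := (hJ.hasFDerivWithinAt hα (Ho_subset_Hc 0 hin)).hasFDerivAt
        (mem_of_superset ((isOpen_Ho 0).mem_nhds hin) (Ho_subset_Hc 0))
      refine (hd.congr_of_eventuallyEq hev).congr_fderiv ?_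
      ext v
      rw [hproj, eZ]
      simp only [innerSL_apply_apply, if_pos hpos.le]
  have hw' : ∀ φ : EuclideanSpace ℝ (Fin (n + 1)) → ℝ, ContDiff ℝ ∞ φ → HasCompactSupport φ →
      ∫ x, ∑ i, Z x i * pd i φ x = 0 := by
    intro φ hφ hs
    obtain ⟨χ, eχ⟩ : ∃ χ : EuclideanSpace ℝ (Fin (n + 1)) → ℝ, χ = fun x => φ (refl n x) := ⟨_, rfl⟩
    have hχ : ContDiff ℝ ∞ χ := eχ ▸ hφ.comp (refl n).contDiff
    have hχs : HasCompactSupport χ := eχ ▸ hs.comp_homeomorph (reflEquiv n).toHomeomorph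
    have hχd : ∀ x v, fderiv ℝ χ x v = fderiv ℝ φ (refl n x) (refl n v) := fun x v => by
      have h := (hφ.differentiable (by simp) (refl n x)).hasFDerivAt.comp x (refl n).hasFDerivAt
      rw [eχ, show (fun x => φ (refl n x)) = φ ∘ refl n from rfl, h.fderiv]
      rfl
    have hi : ∀ ψ : EuclideanSpace ℝ (Fin (n + 1)) → ℝ, ContDiff ℝ ∞ ψ → HasCompactSupport ψ →
        Integrable ((Ho n 0).indicator fun x => fderiv ℝ ψ x (W x)) := fun ψ hψ hψs =>
      (((hψ.continuous_fderiv (by simp)).clm_apply hWc).integrable_of_hasCompactSupport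
        (HasCompactSupport.intro hψs fun x hx => by simp [fderiv_of_notMem_tsupport ℝ hx])).indicator
        (isOpen_Ho 0).measurableSet
    have hj : Integrable fun x => (Ho n 0).indicator (fun x => fderiv ℝ χ x (W x)) (refl n x) :=
      (MeasurePreserving.integrable_comp_emb (reflEquiv n).measurePreserving
        (reflEquiv n).toHomeomorph.measurableEmbedding).2 (hi χ hχ hχs)
    have hsplit : (fun x => ∑ i, Z x i * pd i φ x) =ᵐ[volume] fun x =>
        (Ho n 0).indicator (fun x => fderiv ℝ φ x (W x)) x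
          + (Ho n 0).indicator (fun x => fderiv ℝ χ x (W x)) (refl n x) := by
      filter_upwards [measure_eq_zero_iff_ae_notMem.1 (last_null n)] with x hx
      have hx0 : x (Fin.last n) ≠ 0 := hx
      rw [← fderiv_eq_sum_pd]
      rcases hx0.lt_or_gt with hneg | hpos
      · have h1 : x ∉ Ho n 0 := fun h => by
          have : -(0 : ℝ) < x (Fin.last n) := h
          linarith
        have h2 : refl n x ∈ Ho n 0 := by
          show -(0 : ℝ) < refl n x (Fin.last n)
          rw [refl_apply, if_pos rfl]; linarith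
        rw [indicator_of_notMem h1, indicator_of_mem h2, zero_add, hχd, refl_refl, eZ]
        simp only [if_neg (not_le.2 hneg)]
      · have h1 : x ∈ Ho n 0 := by show -(0 : ℝ) < x (Fin.last n); linarith
        have h2 : refl n x ∉ Ho n 0 := fun h => by
          have : -(0 : ℝ) < refl n x (Fin.last n) := h
          rw [refl_apply, if_pos rfl] at this; linarith
        rw [indicator_of_mem h1, indicator_of_notMem h2, add_zero, eZ]
        simp only [if_pos hpos.le]
    rw [integral_congr_ae hsplit, integral_add (hi φ hφ hs) hj,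
      integral_comp_refl ((Ho n 0).indicator fun x => fderiv ℝ χ x (W x)),
      integral_indicator (isOpen_Ho 0).measurableSet, integral_indicator (isOpen_Ho 0).measurableSet,
      hweak φ hφ hs, hweak χ hχ hχs, add_zero]
  have key : ∀ x ∈ Ho n 0, ∀ y ∈ Ho n 0, W x = W y := by
    intro x hx y hy
    have hcont : ∀ z ∈ Ho n 0, ∀ j, ContinuousAt (fun q => Z q j) z := fun z hz j => by
      refine ((EuclideanSpace.proj (𝕜 := ℝ) (ι := Fin (n + 1)) j).continuous.comp hWc).continuousAt.congr ?_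
      filter_upwards [(isOpen_Ho 0).mem_nhds hz] with q hq
      have hq' : -(0 : ℝ) < q (Fin.last n) := hq
      rw [eZ]
      simp only [if_pos (show 0 ≤ q (Fin.last n) by linarith)]
      rfl
    ext j
    have h := const_of_weak (W := fun i q => Z q i) hlip hae (fun i => (hZm i).aestronglyMeasurable)
      (C := 1) hα.le hα1 (fun i q => by
        rw [one_mul]
        refine (PiLp.norm_apply_le (Z q) i).trans ((hZg q).trans ?_)
        linarith) hw' j (hcont x hx j) (hcont y hy j)
    have hx' : -(0 : ℝ) < x (Fin.last n) := hx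
    have hy' : -(0 : ℝ) < y (Fin.last n) := hy
    rw [eZ] at h
    simp only [if_pos (show 0 ≤ x (Fin.last n) by linarith), if_pos (show 0 ≤ y (Fin.last n) by linarith)] at h
    exact h
  intro x hx
  obtain ⟨e, ee⟩ : ∃ e : EuclideanSpace ℝ (Fin (n + 1)), e = EuclideanSpace.single (Fin.last n) 1 := ⟨_, rfl⟩
  have hxe : ∀ z ∈ Hc n 0, ∀ t : ℝ, 0 < t → z + t • e ∈ Ho n 0 := fun z hz t ht => by
    have hz' : -(0 : ℝ) ≤ z (Fin.last n) := hz
    show -(0 : ℝ) < (z + t • e) (Fin.last n)
    simp [ee]; linarith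
  have hlim : ∀ z, Tendsto (fun t : ℝ => W (z + t • e)) (𝓝[>] 0) (𝓝 (W z)) := fun z => by
    have : Tendsto (fun t : ℝ => W (z + t • e)) (𝓝 0) (𝓝 (W z)) := by
      have := (hWc.comp (continuous_const.add (continuous_id.smul continuous_const))).tendsto (0 : ℝ)
        (f := fun t : ℝ => W (z + t • e))
      simpa using this
    exact this.mono_left nhdsWithin_le_nhds
  have heq : (fun t : ℝ => W (x + t • e)) =ᶠ[𝓝[>] (0 : ℝ)] fun t => W (0 + t • e) :=
    eventually_nhdsWithin_of_forall fun t ht => key _ (hxe x hx t ht) _ (hxe 0 (by simp [Hc]) t ht)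
  have h1 := tendsto_nhds_unique ((hlim x).congr' heq) (hlim 0)
  rwa [hW0] at h1

/-- A sublinear weak solution on the whole space has constant derivative. -/
theorem rigid_full (hα : 0 < α) (hα1 : α < 1) {w : EuclideanSpace ℝ (Fin (n + 1)) → ℝ}
    {W : EuclideanSpace ℝ (Fin (n + 1)) → EuclideanSpace ℝ (Fin (n + 1))} (hJ : Jet1 α 1 Set.univ w W)
    (hW : ∀ x y, ‖W x - W y‖ ≤ dist x y ^ α) (hW0 : W 0 = 0)
    (hweak : ∀ φ : EuclideanSpace ℝ (Fin (n + 1)) → ℝ, ContDiff ℝ ∞ φ → HasCompactSupport φ →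
      ∫ x, fderiv ℝ φ x (W x) = 0) : ∀ x, W x = 0 := by
  have hWc : Continuous W := continuous_iff_continuousAt.2 fun x =>
    (hJ.continuousOn hα).continuousAt univ_mem
  have hWg : ∀ x, ‖W x‖ ≤ ‖x‖ ^ α := fun x => by
    have := hW x 0
    rwa [hW0, sub_zero, dist_zero_right] at this
  intro x
  ext j
  have hcj : ∀ i, Continuous fun q => W q i := fun i =>
    (EuclideanSpace.proj (𝕜 := ℝ) (ι := Fin (n + 1)) i).continuous.comp hWc
  have h := const_of_weak (w := w) (W := fun i q => W q i) (fun r => ?_) (Eventually.of_forall fun q => ?_)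
    (fun i => (hcj i).aestronglyMeasurable) (C := 1) hα.le hα1 (fun i q => ?_) (fun φ hφ hs => ?_)
    j (x := x) (y := 0) (hcj j).continuousAt (hcj j).continuousAt
  · simpa [hW0] using h
  · refine ⟨Real.toNNReal |3 * (2 * r) ^ α|, LipschitzOnWith.of_dist_le_mul fun p hp q hq => ?_⟩
    rw [Real.dist_eq, Real.coe_toNNReal _ (abs_nonneg _)]
    exact (hJ.abs_sub_le hα (Set.mem_univ _) hW0 (Set.mem_univ _) (Set.mem_univ _)
      (mem_closedBall_zero_iff.1 hp) (mem_closedBall_zero_iff.1 hq)).trans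
      (mul_le_mul_of_nonneg_right (le_abs_self _) dist_nonneg)
  · refine ((hJ.hasFDerivWithinAt hα (Set.mem_univ q)).hasFDerivAt univ_mem).congr_fderiv ?_
    ext v
    simp [PiLp.inner_apply, mul_comm]
  · rw [one_mul]
    refine (PiLp.norm_apply_le (W q) i).trans ((hWg q).trans ?_)
    linarith
  · rw [← hweak φ hφ hs]
    exact integral_congr_ae (Eventually.of_forall fun q => (fderiv_eq_sum_pd φ q (W q)).symm)

/-- No oscillation survives along blow-ups centred on the flat side. -/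
theorem no_blow_half (hα : 0 < α) (hα1 : α < 1) {e : ℕ → ℝ} (he : Tendsto e atTop (𝓝 0))
    {v : ℕ → EuclideanSpace ℝ (Fin (n + 1)) → ℝ}
    {V F : ℕ → EuclideanSpace ℝ (Fin (n + 1)) → EuclideanSpace ℝ (Fin (n + 1))}
    {g : ℕ → EuclideanSpace ℝ (Fin (n + 1)) → ℝ} (H : ∀ k, Blown α 0 (e k) (v k) (V k) (F k) (g k))
    (hc : ∀ k, F k 0 (Fin.last n) = 0) {p q : ℕ → EuclideanSpace ℝ (Fin (n + 1))} {L : ℝ}
    (hp : ∀ k, p k ∈ Hc n 0 ∧ ‖p k‖ ≤ L) (hq : ∀ k, q k ∈ Hc n 0 ∧ ‖q k‖ ≤ L)
    (hbig : ∀ k, 1 / 2 ≤ ‖V k (p k) - V k (q k)‖) : False := by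
  obtain ⟨⟨P, Q⟩, hPQ, σ, hσ, hlim⟩ := (((isCompact_closedBall (0 : EuclideanSpace ℝ (Fin (n + 1))) L).inter_right
    (isClosed_Hc (n := n) 0)).prod ((isCompact_closedBall (0 : EuclideanSpace ℝ (Fin (n + 1))) L).inter_right
    (isClosed_Hc (n := n) 0))).tendsto_subseq (x := fun k => (p k, q k))
    fun k => ⟨⟨mem_closedBall_zero_iff.2 (hp k).2, (hp k).1⟩, ⟨mem_closedBall_zero_iff.2 (hq k).2, (hq k).1⟩⟩
  obtain ⟨ψ, w, W, -, hWd, hW0, hU, hconv, hflux⟩ :=
    blow_limit hα (h := fun _ => 0) (fun k => H (σ k)) (he.comp hσ.tendsto_atTop)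
  have hz := rigid_half hα hα1 (hU (Hc n 0) fun x hx => Eventually.of_forall fun _ => hx) hWd hW0
    fun φ hφ hs => hflux (Ho n 0) (isOpen_Ho 0).measurableSet (fun x => Eventually.of_forall fun _ => Iff.rfl) φ hφ hs
      (Eventually.of_forall fun k => by rw [integral_Ho_fderiv_const hφ hs, hc, zero_mul])
  have h1 := hconv (fun k => p (σ k)) P ((continuous_fst.tendsto _).comp hlim) fun k => (hp _).1
  have h2 := hconv (fun k => q (σ k)) Q ((continuous_snd.tendsto _).comp hlim) fun k => (hq _).1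
  rw [hz P hPQ.1.2] at h1
  rw [hz Q hPQ.2.2] at h2
  have := ge_of_tendsto' (h1.sub h2).norm fun k => hbig (σ (ψ k))
  norm_num at this

/-- No oscillation survives along blow-ups that leave the flat side. -/
theorem no_blow_full (hα : 0 < α) (hα1 : α < 1) {e h : ℕ → ℝ} (he : Tendsto e atTop (𝓝 0))
    (hh : Tendsto h atTop atTop) {v : ℕ → EuclideanSpace ℝ (Fin (n + 1)) → ℝ}
    {V F : ℕ → EuclideanSpace ℝ (Fin (n + 1)) → EuclideanSpace ℝ (Fin (n + 1))}
    {g : ℕ → EuclideanSpace ℝ (Fin (n + 1)) → ℝ} (H : ∀ k, Blown α (h k) (e k) (v k) (V k) (F k) (g k))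
    {q : ℕ → EuclideanSpace ℝ (Fin (n + 1))}
    (hq : ∀ k, q k ∈ Hc n (h k) ∧ ‖q k‖ ≤ 1)
    (hbig : ∀ k, 1 / 2 ≤ ‖V k (q k)‖) : False := by
  obtain ⟨Q, -, σ, hσ, hlim⟩ := (isCompact_closedBall (0 : EuclideanSpace ℝ (Fin (n + 1))) 1).tendsto_subseq
    (x := q) fun k => mem_closedBall_zero_iff.2 (hq k).2
  have hh' : Tendsto (fun k => h (σ k)) atTop atTop := hh.comp hσ.tendsto_atTop
  obtain ⟨ψ, w, W, -, hWd, hW0, hU, hconv, hflux⟩ :=
    blow_limit hα (h := fun k => h (σ k)) (fun k => H (σ k)) (he.comp hσ.tendsto_atTop)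
  have hmem : ∀ x : EuclideanSpace ℝ (Fin (n + 1)), ∀ᶠ k in atTop, x ∈ Ho n (h (σ k)) := fun x => by
    filter_upwards [hh'.eventually (eventually_gt_atTop (-x (Fin.last n)))] with k hk
    show -h (σ k) < x (Fin.last n)
    linarith
  have hz := rigid_full hα hα1 (hU Set.univ fun x _ => (hmem x).mono fun k hk => Ho_subset_Hc _ hk) hWd hW0
    fun φ hφ hs => by
      have h0 := hflux Set.univ MeasurableSet.univ
        (fun x => (hmem x).mono fun k hk => iff_of_true hk (Set.mem_univ x)) φ hφ hs ?_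
      · rwa [setIntegral_univ] at h0
      · obtain ⟨r, hr⟩ := hs.isBounded.subset_closedBall 0
        filter_upwards [hh'.eventually (eventually_gt_atTop r)] with k hk
        rw [setIntegral_eq_integral_of_forall_compl_eq_zero fun x hx => ?_]
        · have hi : ∀ i, Integrable fun x => F (σ k) 0 i * pd i φ x := fun i =>
            ((contDiff_pd (m := ∞) hφ le_rfl).continuous.integrable_of_hasCompactSupport
              (hasCompactSupport_pd hs)).const_mul _
          simp only [fderiv_eq_sum_pd]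
          rw [integral_finsetSum _ fun i _ => hi i]
          exact Finset.sum_eq_zero fun i _ => by
            rw [integral_const_mul, integral_pd_eq_zero (hφ.of_le (WithTop.coe_le_coe.2 le_top)) hs, mul_zero]
        · have hx' : x ∉ tsupport φ := fun hm => hx (by
            show -h (σ k) < x (Fin.last n)
            linarith [neg_abs_le (x (Fin.last n)), (PiLp.norm_apply_le x (Fin.last n)).trans
              (mem_closedBall_zero_iff.1 (hr hm)), Real.norm_eq_abs (x (Fin.last n))])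
          simp [fderiv_of_notMem_tsupport ℝ hx']
  have h1 := hconv (fun k => q (σ k)) Q hlim fun k => (hq _).1
  rw [hz Q] at h1
  have := ge_of_tendsto' h1.norm fun k => hbig (σ (ψ k))
  norm_num at this

end Vale.Agent.P098.Reg.High
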