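import Vale.Agent.P098.Reg.High.Rigid

/-! An a priori Hölder estimate for the gradient up to the flat side (scaling argument). -/

noncomputable section

namespace Vale.Agent.P098.Reg.High

open MeasureTheory Set Filter Topology Metric
open scoped ContDiff InnerProductSpace

variable {n : ℕ} {α : ℝ}

/-- Data of a supported weak equation. -/
structure Datum (α M Mf G R : ℝ) (z : EuclideanSpace ℝ (Fin (n + 1)))
    (v : EuclideanSpace ℝ (Fin (n + 1)) → ℝ)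
    (V F : EuclideanSpace ℝ (Fin (n + 1)) → EuclideanSpace ℝ (Fin (n + 1)))
    (g : EuclideanSpace ℝ (Fin (n + 1)) → ℝ) : Prop where
  R_pos : 0 < R
  jet : Jet1 α M (Hc n 0) v V
  supp : ∀ x ∈ Hc n 0, x ∉ closedBall z R → V x = 0
  Mf_nonneg : 0 ≤ Mf
  holF : ∀ x ∈ Hc n 0, ∀ y ∈ Hc n 0, ‖F x - F y‖ ≤ Mf * dist x y ^ α
  contg : ContinuousOn g (Hc n 0)
  bdg : ∀ x ∈ Hc n 0, |g x| ≤ G
  flux : Flux 0 (fun x => V x + F x) g

theorem Datum.contF {M Mf G R : ℝ} {z : EuclideanSpace ℝ (Fin (n + 1))} {v : EuclideanSpace ℝ (Fin (n + 1)) → ℝ}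
    {V F : EuclideanSpace ℝ (Fin (n + 1)) → EuclideanSpace ℝ (Fin (n + 1))} {g : EuclideanSpace ℝ (Fin (n + 1)) → ℝ}
    (hα : 0 < α) (D : Datum α M Mf G R z v V F g) : ContinuousOn F (Hc n 0) := by
  intro x hx
  refine tendsto_iff_norm_sub_tendsto_zero.2 ?_
  refine squeeze_zero' (Eventually.of_forall fun y => norm_nonneg _)
    (eventually_nhdsWithin_of_forall fun y hy => D.holF y hy x hx) ?_
  have hd : Tendsto (fun y => dist y x) (𝓝[Hc n 0] x) (𝓝 0) := by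
    have := (continuous_id.dist (continuous_const (y := x))).tendsto x
    simp only [id_eq, dist_self] at this
    exact this.mono_left nhdsWithin_le_nhds
  simpa [Real.zero_rpow hα.ne'] using (hd.rpow_const (Or.inr hα.le)).const_mul Mf

theorem Datum.G_nonneg {M Mf G R : ℝ} {z : EuclideanSpace ℝ (Fin (n + 1))} {v : EuclideanSpace ℝ (Fin (n + 1)) → ℝ}
    {V F : EuclideanSpace ℝ (Fin (n + 1)) → EuclideanSpace ℝ (Fin (n + 1))} {g : EuclideanSpace ℝ (Fin (n + 1)) → ℝ}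
    (D : Datum α M Mf G R z v V F g) : 0 ≤ G :=
  (abs_nonneg _).trans (D.bdg 0 (by simp [Hc]))

/-- An almost extremal pair at distance comparable to the support. -/
theorem bad_pair (hα : 0 < α) {M Mf G R : ℝ} {z : EuclideanSpace ℝ (Fin (n + 1))}
    {v : EuclideanSpace ℝ (Fin (n + 1)) → ℝ}
    {V F : EuclideanSpace ℝ (Fin (n + 1)) → EuclideanSpace ℝ (Fin (n + 1))} {g : EuclideanSpace ℝ (Fin (n + 1)) → ℝ}
    (D : Datum α M Mf G R z v V F g) {K : ℝ} (hK : 0 < K) {x0 y0 : EuclideanSpace ℝ (Fin (n + 1))}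
    (hx0 : x0 ∈ Hc n 0) (hy0 : y0 ∈ Hc n 0)
    (hbad : K * (Mf + G * R ^ (1 - α)) * dist x0 y0 ^ α < ‖V x0 - V y0‖) :
    ∃ (M' : ℝ) (x y : EuclideanSpace ℝ (Fin (n + 1))), 0 < M' ∧ Jet1 α M' (Hc n 0) v V ∧
      x ∈ Hc n 0 ∧ y ∈ Hc n 0 ∧ 0 < dist x y ∧ dist x y ≤ 6 * R ∧
      3 / 4 * M' * dist x y ^ α ≤ ‖V x - V y‖ ∧ K * (Mf + G * R ^ (1 - α)) ≤ M' := by
  have hd0 : 0 < dist x0 y0 := by
    rcases (dist_nonneg (x := x0) (y := y0)).eq_or_lt with h | h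
    · rw [dist_eq_zero.1 h.symm, sub_self, norm_zero, dist_self, Real.zero_rpow hα.ne', mul_zero] at hbad
      exact absurd hbad (lt_irrefl _)
    · exact h
  obtain ⟨S, eS⟩ : ∃ S : Set ℝ, S = {r | ∃ x ∈ Hc n 0, ∃ y ∈ Hc n 0, x ≠ y ∧ r = ‖V x - V y‖ / dist x y ^ α} :=
    ⟨_, rfl⟩
  have hpow : ∀ {x y : EuclideanSpace ℝ (Fin (n + 1))}, x ≠ y → 0 < dist x y ^ α := fun h =>
    Real.rpow_pos_of_pos (dist_pos.2 h) _
  have hbdd : BddAbove S := ⟨M, by
    rw [eS]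
    rintro r ⟨x, hx, y, hy, hne, rfl⟩
    rw [div_le_iff₀ (hpow hne)]
    exact D.jet.hol x hx y hy⟩
  have hr0 : ‖V x0 - V y0‖ / dist x0 y0 ^ α ∈ S := eS ▸ ⟨x0, hx0, y0, hy0, dist_pos.1 hd0, rfl⟩
  have hK' : K * (Mf + G * R ^ (1 - α)) ≤ sSup S :=
    le_trans ((le_div_iff₀ (Real.rpow_pos_of_pos hd0 _)).2 hbad.le) (le_csSup hbdd hr0)
  have hnn : 0 ≤ Mf + G * R ^ (1 - α) :=
    add_nonneg D.Mf_nonneg (mul_nonneg D.G_nonneg (Real.rpow_nonneg D.R_pos.le _))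
  have hr0p : 0 < ‖V x0 - V y0‖ / dist x0 y0 ^ α := div_pos
    (lt_of_le_of_lt (mul_nonneg (mul_nonneg hK.le hnn) (Real.rpow_nonneg dist_nonneg _)) hbad)
    (Real.rpow_pos_of_pos hd0 _)
  have hM' : 0 < sSup S := hr0p.trans_le (le_csSup hbdd hr0)
  have hjet : Jet1 α (sSup S) (Hc n 0) v V := D.jet.improve (convex_Hc 0) hα hM'.le fun x hx y hy => by
    rcases eq_or_ne x y with rfl | hne
    · simp [Real.zero_rpow hα.ne']
    · rw [← div_le_iff₀ (hpow hne)]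
      exact le_csSup hbdd (eS ▸ ⟨x, hx, y, hy, hne, rfl⟩)
  obtain ⟨r, hrS, hr⟩ := exists_lt_of_lt_csSup ⟨_, hr0⟩ (show 3 / 4 * sSup S < sSup S by linarith)
  rw [eS] at hrS
  obtain ⟨x1, hx1, y1, hy1, hne, rfl⟩ := hrS
  have hout : ∀ a ∈ Hc n 0, ∀ b ∈ Hc n 0, 3 / 4 * sSup S < ‖V a - V b‖ / dist a b ^ α →
      a ∈ closedBall z R → 6 * R < dist a b →
      ∃ y ∈ Hc n 0, 0 < dist a y ∧ dist a y ≤ 6 * R ∧ 3 / 4 * sSup S * dist a y ^ α ≤ ‖V a - V y‖ := by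
    intro a ha b hb hab hin hbig
    have hbout : b ∉ closedBall z R := fun h => by
      have := dist_triangle_right a b z
      linarith [mem_closedBall.1 hin, mem_closedBall.1 h, D.R_pos]
    obtain ⟨y, ey⟩ : ∃ y : EuclideanSpace ℝ (Fin (n + 1)), y = a + (3 * R) • EuclideanSpace.single (Fin.last n) 1 :=
      ⟨_, rfl⟩
    have hy : y ∈ Hc n 0 := by
      have ha' : -(0 : ℝ) ≤ a (Fin.last n) := ha
      show -(0 : ℝ) ≤ y (Fin.last n)
      simp [ey]; linarith [D.R_pos]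
    have hdy : dist a y = 3 * R := by
      rw [ey, dist_self_add_right, norm_smul, PiLp.norm_single, norm_one, mul_one,
        Real.norm_of_nonneg (by linarith [D.R_pos])]
    have hyout : y ∉ closedBall z R := fun h => by
      have := dist_triangle_right a y z
      linarith [mem_closedBall.1 hin, mem_closedBall.1 h, D.R_pos]
    refine ⟨y, hy, by linarith [D.R_pos], by linarith [D.R_pos], ?_⟩
    rw [D.supp b hb hbout] at hab
    rw [D.supp y hy hyout]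
    have hp : 0 < dist a b ^ α := Real.rpow_pos_of_pos (by linarith [D.R_pos]) _
    rw [lt_div_iff₀ hp] at hab
    refine le_trans ?_ hab.le
    exact mul_le_mul_of_nonneg_left (Real.rpow_le_rpow dist_nonneg (by linarith [D.R_pos]) hα.le) (by linarith)
  rcases le_or_gt (dist x1 y1) (6 * R) with hle | hgt
  · refine ⟨sSup S, x1, y1, hM', hjet, hx1, hy1, dist_pos.2 hne, hle, ?_, hK'⟩
    rw [← le_div_iff₀ (hpow hne)]
    exact hr.le
  · by_cases hin : x1 ∈ closedBall z R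
    · obtain ⟨y, hy, h1, h2, h3⟩ := hout x1 hx1 y1 hy1 hr hin hgt
      exact ⟨sSup S, x1, y, hM', hjet, hx1, hy, h1, h2, h3, hK'⟩
    · by_cases hin' : y1 ∈ closedBall z R
      · obtain ⟨y, hy, h1, h2, h3⟩ := hout y1 hy1 x1 hx1 (by rwa [norm_sub_rev, dist_comm]) hin'
          (by rwa [dist_comm])
        exact ⟨sSup S, y1, y, hM', hjet, hy1, hy, h1, h2, h3, hK'⟩
      · rw [D.supp x1 hx1 hin, D.supp y1 hy1 hin', sub_self, norm_zero, zero_div] at hr
        linarith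

/-- A rescaled datum. -/
theorem blown_of_datum (hα : 0 < α) (hα1 : α < 1) {M Mf G R : ℝ} {z : EuclideanSpace ℝ (Fin (n + 1))}
    {v : EuclideanSpace ℝ (Fin (n + 1)) → ℝ}
    {V F : EuclideanSpace ℝ (Fin (n + 1)) → EuclideanSpace ℝ (Fin (n + 1))} {g : EuclideanSpace ℝ (Fin (n + 1)) → ℝ}
    (D : Datum α M Mf G R z v V F g) {M' : ℝ} (hM' : 0 < M') (hJ : Jet1 α M' (Hc n 0) v V) {K : ℝ} (hK : 0 < K)
    (hKM : K * (Mf + G * R ^ (1 - α)) ≤ M') {b : EuclideanSpace ℝ (Fin (n + 1))} (hb : b ∈ Hc n 0) {ρ : ℝ}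
    (hρ : 0 < ρ) (hρR : ρ ≤ 6 * R) :
    Blown α (b (Fin.last n) / ρ) (6 / K)
      (fun y => (M' * ρ ^ α)⁻¹ * (ρ⁻¹ * (v (b + ρ • y) - v b) - ⟪V b, y⟫_ℝ))
      (fun y => (M' * ρ ^ α)⁻¹ • (V (b + ρ • y) - V b))
      (fun y => (M' * ρ ^ α)⁻¹ • (F (b + ρ • y) + V b))
      (fun y => (M' * ρ ^ α)⁻¹ * ρ * g (b + ρ • y)) := by
  have hb' : 0 ≤ b (Fin.last n) := by simpa [Hc] using hb
  have hmem : ∀ y ∈ Hc n (b (Fin.last n) / ρ), b + ρ • y ∈ Hc n 0 := fun y (hy : -(b (Fin.last n) / ρ) ≤ _) => by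
    show -(0 : ℝ) ≤ (b + ρ • y) (Fin.last n)
    simp only [PiLp.add_apply, PiLp.smul_apply, smul_eq_mul, neg_zero]
    have := mul_le_mul_of_nonneg_left hy hρ.le
    rw [mul_neg, mul_div_cancel₀ _ hρ.ne'] at this
    linarith
  have hs : 0 < M' * ρ ^ α := mul_pos hM' (Real.rpow_pos_of_pos hρ _)
  have hdist : ∀ y y' : EuclideanSpace ℝ (Fin (n + 1)), dist (b + ρ • y) (b + ρ • y') = ρ * dist y y' := fun y y' => by
    rw [dist_add_left, dist_smul₀, Real.norm_of_nonneg hρ.le]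
  have hcont : Continuous fun y : EuclideanSpace ℝ (Fin (n + 1)) => b + ρ • y := by fun_prop
  have hsmall : 0 ≤ Mf + G * R ^ (1 - α) ∧ Mf ≤ M' / K ∧ G * R ^ (1 - α) ≤ M' / K := by
    have h1 := D.Mf_nonneg
    have h2 : 0 ≤ G * R ^ (1 - α) := mul_nonneg D.G_nonneg (Real.rpow_nonneg D.R_pos.le _)
    have h3 : Mf + G * R ^ (1 - α) ≤ M' / K := by rw [le_div_iff₀ hK, mul_comm]; exact hKM
    exact ⟨by linarith, by linarith, by linarith⟩
  refine ⟨div_nonneg hb' hρ.le, ⟨fun y hy y' hy' => ?_, fun y hy y' hy' => ?_⟩, by simp, by simp, ?_, ?_,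
    fun y hy => ?_, fun y hy => ?_, ?_⟩
  · rw [← smul_sub, sub_sub_sub_cancel_right, norm_smul, norm_inv, Real.norm_of_nonneg hs.le, one_mul,
      inv_mul_le_iff₀ hs]
    refine (hJ.hol _ (hmem y hy) _ (hmem y' hy')).trans_eq ?_
    rw [hdist, Real.mul_rpow hρ.le dist_nonneg]; ring
  · have h := hJ.tay _ (hmem y hy) _ (hmem y' hy')
    rw [show b + ρ • y' - (b + ρ • y) = ρ • (y' - y) by rw [smul_sub]; abel, inner_smul_right, hdist] at h
    rw [real_inner_smul_left, inner_sub_left,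
      show (M' * ρ ^ α)⁻¹ * (ρ⁻¹ * (v (b + ρ • y') - v b) - ⟪V b, y'⟫_ℝ)
        - (M' * ρ ^ α)⁻¹ * (ρ⁻¹ * (v (b + ρ • y) - v b) - ⟪V b, y⟫_ℝ)
        - (M' * ρ ^ α)⁻¹ * (⟪V (b + ρ • y), y' - y⟫_ℝ - ⟪V b, y' - y⟫_ℝ)
        = (M' * ρ ^ α * ρ)⁻¹ * (v (b + ρ • y') - v (b + ρ • y) - ρ * ⟪V (b + ρ • y), y' - y⟫_ℝ) by
      rw [inner_sub_right (V b)]; field_simp; ring, abs_mul, abs_inv, abs_of_pos (mul_pos hs hρ), one_mul,
      inv_mul_le_iff₀ (mul_pos hs hρ)]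
    refine h.trans_eq ?_
    rw [Real.mul_rpow hρ.le dist_nonneg, Real.rpow_add hρ, Real.rpow_one]; ring
  · exact (continuousOn_const (c := (M' * ρ ^ α)⁻¹)).smul (((D.contF hα).comp hcont.continuousOn fun y hy => hmem y hy).add continuousOn_const)
  · exact continuousOn_const.mul (D.contg.comp hcont.continuousOn fun y hy => hmem y hy)
  · have h0 : (0 : EuclideanSpace ℝ (Fin (n + 1))) ∈ Hc n (b (Fin.last n) / ρ) := by
      show -(b (Fin.last n) / ρ) ≤ (0 : EuclideanSpace ℝ (Fin (n + 1))) (Fin.last n)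
      simpa using div_nonneg hb' hρ.le
    rw [← smul_sub, add_sub_add_right_eq_sub, norm_smul, norm_inv, Real.norm_of_nonneg hs.le, inv_mul_le_iff₀ hs]
    refine (D.holF _ (hmem y hy) _ (hmem 0 h0)).trans ?_
    rw [hdist, Real.mul_rpow hρ.le dist_nonneg, dist_zero_right]
    calc Mf * (ρ ^ α * ‖y‖ ^ α) ≤ M' / K * (ρ ^ α * ‖y‖ ^ α) :=
          mul_le_mul_of_nonneg_right hsmall.2.1 (by positivity)
      _ ≤ M' * (6 / K) * (ρ ^ α * ‖y‖ ^ α) := mul_le_mul_of_nonneg_right (by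
          rw [mul_div_assoc']
          exact (div_le_div_iff_of_pos_right hK).2 (by linarith)) (by positivity)
      _ = M' * ρ ^ α * (6 / K * ‖y‖ ^ α) := by ring
  · rw [abs_mul, abs_mul, abs_inv, abs_of_pos hs, abs_of_pos hρ, mul_assoc, inv_mul_le_iff₀ hs]
    have h6 : (6 : ℝ) ^ (1 - α) ≤ 6 :=
      (Real.rpow_le_rpow_of_exponent_le (by norm_num) (by linarith : 1 - α ≤ (1 : ℝ))).trans_eq (Real.rpow_one 6)
    have hρ' : ρ ^ (1 - α) ≤ 6 * R ^ (1 - α) := by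
      refine (Real.rpow_le_rpow hρ.le hρR (by linarith)).trans ?_
      rw [Real.mul_rpow (by norm_num) D.R_pos.le]
      exact mul_le_mul_of_nonneg_right h6 (Real.rpow_nonneg D.R_pos.le _)
    calc ρ * |g (b + ρ • y)| ≤ ρ * G := mul_le_mul_of_nonneg_left (D.bdg _ (hmem y hy)) hρ.le
      _ = ρ ^ α * (G * ρ ^ (1 - α)) := by
          rw [mul_left_comm, ← Real.rpow_add hρ, add_sub_cancel, Real.rpow_one, mul_comm]
      _ ≤ ρ ^ α * (G * (6 * R ^ (1 - α))) := by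
          gcongr
          exact D.G_nonneg
      _ = ρ ^ α * 6 * (G * R ^ (1 - α)) := by ring
      _ ≤ ρ ^ α * 6 * (M' / K) := mul_le_mul_of_nonneg_left hsmall.2.2 (by positivity)
      _ = M' * ρ ^ α * (6 / K) := by ring
  · have h := flux_rescale D.flux b hρ (M' * ρ ^ α)⁻¹
    intro φ hφ hs
    rw [← h φ hφ hs]
    refine integral_congr_ae (Eventually.of_forall fun y => ?_)
    simp only
    congr 2
    rw [← smul_add, sub_add_add_cancel]

/-- The a priori Schauder estimate up to the flat side. -/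
theorem schauder (n : ℕ) (hα : 0 < α) (hα1 : α < 1) :
    ∃ C : ℝ, 0 < C ∧ ∀ (M Mf G R : ℝ) (z : EuclideanSpace ℝ (Fin (n + 1)))
      (v : EuclideanSpace ℝ (Fin (n + 1)) → ℝ)
      (V F : EuclideanSpace ℝ (Fin (n + 1)) → EuclideanSpace ℝ (Fin (n + 1)))
      (g : EuclideanSpace ℝ (Fin (n + 1)) → ℝ), Datum α M Mf G R z v V F g →
      ∀ x ∈ Hc n 0, ∀ y ∈ Hc n 0, ‖V x - V y‖ ≤ C * (Mf + G * R ^ (1 - α)) * dist x y ^ α := by
  by_contra hne
  push Not at hne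
  choose M Mf G R z v V F g hD x0 hx0 y0 hy0 hbad using fun k : ℕ => hne ((k : ℝ) + 1) (by positivity)
  have hK : ∀ k : ℕ, (0 : ℝ) < (k : ℝ) + 1 := fun k => by positivity
  choose M' x y hM' hJ hx hy hd0 hd6 hbig hKM using fun k => bad_pair hα (hD k) (hK k) (hx0 k) (hy0 k) (hbad k)
  have he : Tendsto (fun k : ℕ => 6 / ((k : ℝ) + 1)) atTop (𝓝 0) := by
    simpa [div_eq_mul_inv] using (tendsto_one_div_add_atTop_nhds_zero_nat (𝕜 := ℝ)).const_mul 6
  have hsc : ∀ k (b : EuclideanSpace ℝ (Fin (n + 1))), 1 / 2 ≤ ‖(M' k * dist (x k) (y k) ^ α)⁻¹ • (V k (x k) - V k b)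
      - (M' k * dist (x k) (y k) ^ α)⁻¹ • (V k (y k) - V k b)‖ := fun k b => by
    rw [← smul_sub, sub_sub_sub_cancel_right, norm_smul, norm_inv,
      Real.norm_of_nonneg (mul_nonneg (hM' k).le (Real.rpow_nonneg dist_nonneg _)),
      le_inv_mul_iff₀ (mul_pos (hM' k) (Real.rpow_pos_of_pos (hd0 k) _))]
    have := hbig k
    have h2 : 0 ≤ M' k * dist (x k) (y k) ^ α := mul_nonneg (hM' k).le (Real.rpow_nonneg dist_nonneg _)
    linarith
  have hback : ∀ k (b q : EuclideanSpace ℝ (Fin (n + 1))),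
      b + dist (x k) (y k) • ((dist (x k) (y k))⁻¹ • (q - b)) = q := fun k b q => by
    rw [smul_smul, mul_inv_cancel₀ (hd0 k).ne', one_smul, add_sub_cancel]
  by_cases hh : Tendsto (fun k => x k (Fin.last n) / dist (x k) (y k)) atTop atTop
  · refine no_blow_full hα hα1 he hh
      (fun k => blown_of_datum hα hα1 (hD k) (hM' k) (hJ k) (hK k) (hKM k) (hx k) (hd0 k) (hd6 k))
      (q := fun k => (dist (x k) (y k))⁻¹ • (y k - x k)) (fun k => ⟨?_, ?_⟩) fun k => ?_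
    · show -(x k (Fin.last n) / dist (x k) (y k)) ≤ ((dist (x k) (y k))⁻¹ • (y k - x k)) (Fin.last n)
      have hy' : -(0 : ℝ) ≤ y k (Fin.last n) := hy k
      simp only [PiLp.smul_apply, PiLp.sub_apply, smul_eq_mul]
      rw [inv_mul_eq_div, ← neg_div, div_le_div_iff_of_pos_right (hd0 k)]
      linarith
    · rw [norm_smul, norm_inv, Real.norm_of_nonneg dist_nonneg, ← dist_eq_norm, dist_comm (y k) (x k),
        inv_mul_cancel₀ (hd0 k).ne']
    · have := hsc k (x k)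
      rw [sub_self, smul_zero, zero_sub, norm_neg] at this
      simpa only [hback] using this
  · rw [Filter.tendsto_atTop] at hh
    push Not at hh
    obtain ⟨L, hL⟩ := hh
    obtain ⟨σ, hσ, hσL⟩ := extraction_of_frequently_atTop hL
    obtain ⟨b, eb⟩ : ∃ b : ℕ → EuclideanSpace ℝ (Fin (n + 1)),
        b = fun k => x k - (x k (Fin.last n)) • EuclideanSpace.single (Fin.last n) 1 := ⟨_, rfl⟩
    have hbl : ∀ k, b k (Fin.last n) = 0 := fun k => by simp [eb]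
    have hbH : ∀ k, b k ∈ Hc n 0 := fun k => by
      show -(0 : ℝ) ≤ b k (Fin.last n)
      rw [hbl, neg_zero]
    have hin : ∀ (k : ℕ) (q : EuclideanSpace ℝ (Fin (n + 1))), q ∈ Hc n 0 →
        (dist (x k) (y k))⁻¹ • (q - b k) ∈ Hc n 0 := fun k q hq => by
      have hq' : -(0 : ℝ) ≤ q (Fin.last n) := hq
      show -(0 : ℝ) ≤ ((dist (x k) (y k))⁻¹ • (q - b k)) (Fin.last n)
      simp only [PiLp.smul_apply, PiLp.sub_apply, smul_eq_mul, hbl, sub_zero, neg_zero]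
      exact mul_nonneg (inv_nonneg.2 dist_nonneg) (by linarith)
    have hxb : ∀ k, dist (x (σ k)) (y (σ k)) ≤ dist (x (σ k)) (y (σ k)) ∧
        ‖x (σ k) - b (σ k)‖ ≤ L * dist (x (σ k)) (y (σ k)) := fun k => by
      refine ⟨le_rfl, ?_⟩
      have hx' : -(0 : ℝ) ≤ x (σ k) (Fin.last n) := hx (σ k)
      rw [eb]
      simp only
      rw [sub_sub_cancel, norm_smul, PiLp.norm_single, norm_one, mul_one, Real.norm_of_nonneg (by linarith)]
      exact ((div_lt_iff₀ (hd0 _)).1 (hσL k)).le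
    refine no_blow_half hα hα1 (he.comp hσ.tendsto_atTop) (L := |L| + 1)
      (fun k => by
        have := blown_of_datum hα hα1 (hD (σ k)) (hM' (σ k)) (hJ (σ k)) (hK (σ k)) (hKM (σ k)) (hbH (σ k))
          (hd0 (σ k)) (hd6 (σ k))
        rwa [hbl, zero_div] at this)
      (fun k => ?_) (p := fun k => (dist (x (σ k)) (y (σ k)))⁻¹ • (x (σ k) - b (σ k)))
      (q := fun k => (dist (x (σ k)) (y (σ k)))⁻¹ • (y (σ k) - b (σ k)))
      (fun k => ⟨hin _ _ (hx _), ?_⟩) (fun k => ⟨hin _ _ (hy _), ?_⟩) fun k => ?_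
    · have hn := natural (((hD (σ k)).jet.continuousOn hα).add ((hD (σ k)).contF hα)) (hD (σ k)).contg
        (hD (σ k)).flux (hbl (σ k))
      simp only [Pi.add_apply, PiLp.smul_apply, PiLp.add_apply, smul_zero, add_zero, smul_eq_mul] at hn ⊢
      linear_combination (M' (σ k) * dist (x (σ k)) (y (σ k)) ^ α)⁻¹ * hn
    · rw [norm_smul, norm_inv, Real.norm_of_nonneg dist_nonneg, inv_mul_le_iff₀ (hd0 _)]
      refine (hxb k).2.trans ?_
      rw [mul_comm]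
      exact mul_le_mul_of_nonneg_left (by linarith [le_abs_self L]) (hd0 _).le
    · rw [norm_smul, norm_inv, Real.norm_of_nonneg dist_nonneg, inv_mul_le_iff₀ (hd0 _)]
      have h1 := norm_sub_le_norm_sub_add_norm_sub (y (σ k)) (x (σ k)) (b (σ k))
      have h3 : ‖y (σ k) - x (σ k)‖ = dist (x (σ k)) (y (σ k)) := by rw [← dist_eq_norm, dist_comm]
      have h2 := (hxb k).2
      have h4 := mul_le_mul_of_nonneg_left (le_abs_self L) (hd0 (σ k)).le
      linarith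
    · simpa only [hback] using hsc (σ k) (b (σ k))

end Vale.Agent.P098.Reg.High
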