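import Vale.Agent.P098.Reg.High.Taylor

/-! Functions on a half ball with tangential derivatives up to the flat side; extension from the
interior by continuity. -/

noncomputable section

namespace Vale.Agent.P098.Reg.High

open MeasureTheory Set Filter Topology Metric
open scoped ContDiff InnerProductSpace

variable {n : ℕ} {α ρ : ℝ} {j : ℕ}

/-- The half ball, containing its flat side. -/
def half (n : ℕ) (ρ : ℝ) : Set (EuclideanSpace ℝ (Fin (n + 1))) := Hc n 0 ∩ ball 0 ρ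

/-- The open half ball. -/
def hi (n : ℕ) (ρ : ℝ) : Set (EuclideanSpace ℝ (Fin (n + 1))) := Ho n 0 ∩ ball 0 ρ

/-- The tangential coordinate vectors. -/
def tang (i : Fin n) : EuclideanSpace ℝ (Fin (n + 1)) := EuclideanSpace.single i.castSucc 1

theorem hi_subset_half (ρ : ℝ) : hi n ρ ⊆ half n ρ := inter_subset_inter_left _ (Ho_subset_Hc 0)

theorem isOpen_hi (ρ : ℝ) : IsOpen (hi n ρ) := (isOpen_Ho 0).inter isOpen_ball

theorem half_mono {s : ℝ} (h : s ≤ ρ) : half n s ⊆ half n ρ := inter_subset_inter_right _ (ball_subset_ball h)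

theorem hi_mono {s : ℝ} (h : s ≤ ρ) : hi n s ⊆ hi n ρ := inter_subset_inter_right _ (ball_subset_ball h)

theorem tang_last (i : Fin n) : tang i (Fin.last n) = 0 := by
  simp [tang, (Fin.castSucc_ne_last i).symm]

theorem norm_tang (i : Fin n) : ‖tang i‖ = 1 := by simp [tang]

theorem add_tang_mem {x : EuclideanSpace ℝ (Fin (n + 1))} (i : Fin n) (t : ℝ) {s : ℝ}
    (hx : ‖x‖ + |t| < s) :
    (x ∈ Hc n 0 → x + t • tang i ∈ half n s) ∧ (x ∈ Ho n 0 → x + t • tang i ∈ hi n s) := by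
  have hb : x + t • tang i ∈ ball 0 s := by
    rw [mem_ball_zero_iff]
    refine lt_of_le_of_lt (norm_add_le _ _) ?_
    rwa [norm_smul, norm_tang, mul_one, Real.norm_eq_abs]
  have he : (x + t • tang i) (Fin.last n) = x (Fin.last n) := by simp [tang_last]
  refine ⟨fun h => ⟨?_, hb⟩, fun h => ⟨?_, hb⟩⟩
  · show -(0 : ℝ) ≤ _
    rw [he]; exact h
  · show -(0 : ℝ) < _
    rw [he]; exact h

variable {V W : Type*} [NormedAddCommGroup V] [NormedSpace ℝ V] [NormedAddCommGroup W] [NormedSpace ℝ W]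

/-- Regularity of order `j`, bounded and Hölder. -/
def Base (α ρ : ℝ) (j : ℕ) (f : EuclideanSpace ℝ (Fin (n + 1)) → V) : Prop :=
  ContDiffOn ℝ j f (half n ρ) ∧ ∃ K : ℝ, ∀ x ∈ half n ρ, ‖f x‖ ≤ K ∧
    ∀ y ∈ half n ρ, ‖f x - f y‖ ≤ K * dist x y ^ α

/-- `k` tangential derivatives of class `Base`. -/
def TC (α ρ : ℝ) (j : ℕ) : ℕ → (EuclideanSpace ℝ (Fin (n + 1)) → V) → Prop
  | 0, f => Base α ρ j f
  | k + 1, f => Base α ρ j f ∧ ∀ i : Fin n, ∃ f' : EuclideanSpace ℝ (Fin (n + 1)) → V,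
      TC α ρ j k f' ∧ ∀ x ∈ hi n ρ, HasLineDerivAt ℝ f (f' x) x (tang i)

theorem TC.base {k : ℕ} {f : EuclideanSpace ℝ (Fin (n + 1)) → V} (h : TC α ρ j k f) : Base α ρ j f := by
  cases k
  · exact h
  · exact h.1

theorem Base.mono {f : EuclideanSpace ℝ (Fin (n + 1)) → V} (h : Base α ρ j f) {s : ℝ} (hs : s ≤ ρ) :
    Base α s j f := by
  obtain ⟨h1, K, h2⟩ := h
  exact ⟨h1.mono (half_mono hs), K, fun x hx => ⟨(h2 x (half_mono hs hx)).1,
    fun y hy => (h2 x (half_mono hs hx)).2 y (half_mono hs hy)⟩⟩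

theorem TC.mono {k : ℕ} {f : EuclideanSpace ℝ (Fin (n + 1)) → V} (h : TC α ρ j k f) {s : ℝ} (hs : s ≤ ρ) :
    TC α s j k f := by
  induction k generalizing f with
  | zero => exact Base.mono h hs
  | succ k ih =>
    refine ⟨Base.mono h.1 hs, fun i => ?_⟩
    obtain ⟨f', hf', hd⟩ := h.2 i
    exact ⟨f', ih hf', fun x hx => hd x (hi_mono hs hx)⟩

theorem TC.le_succ {k : ℕ} {f : EuclideanSpace ℝ (Fin (n + 1)) → V} (h : TC α ρ j (k + 1) f) :
    TC α ρ j k f := by
  induction k generalizing f with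
  | zero => exact h.1
  | succ k ih =>
    refine ⟨h.1, fun i => ?_⟩
    obtain ⟨f', hf', hd⟩ := h.2 i
    exact ⟨f', ih hf', hd⟩

theorem Base.congr {f g : EuclideanSpace ℝ (Fin (n + 1)) → V} (h : Base α ρ j f)
    (e : ∀ x ∈ half n ρ, g x = f x) : Base α ρ j g := by
  obtain ⟨h1, K, h2⟩ := h
  refine ⟨h1.congr e, K, fun x hx => ⟨?_, fun y hy => ?_⟩⟩
  · rw [e x hx]; exact (h2 x hx).1
  · rw [e x hx, e y hy]; exact (h2 x hx).2 y hy

theorem TC.congr {k : ℕ} {f g : EuclideanSpace ℝ (Fin (n + 1)) → V} (h : TC α ρ j k f)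
    (e : ∀ x ∈ half n ρ, g x = f x) : TC α ρ j k g := by
  cases k with
  | zero => exact Base.congr h e
  | succ k =>
    refine ⟨h.1.congr e, fun i => ?_⟩
    obtain ⟨f', hf', hd⟩ := h.2 i
    refine ⟨f', hf', fun x hx => (hd x hx).congr_of_eventuallyEq ?_⟩
    exact eventually_of_mem ((isOpen_hi ρ).mem_nhds hx) fun y hy => e y (hi_subset_half ρ hy)

theorem TC.prod {k : ℕ} {f : EuclideanSpace ℝ (Fin (n + 1)) → V} {g : EuclideanSpace ℝ (Fin (n + 1)) → W}
    (hf : TC α ρ j k f) (hg : TC α ρ j k g) : TC α ρ j k (fun x => (f x, g x)) := by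
  induction k generalizing f g with
  | zero =>
    obtain ⟨h1, K, h2⟩ := hf
    obtain ⟨g1, L, g2⟩ := hg
    refine ⟨h1.prodMk g1, max K L, fun x hx => ⟨?_, fun y hy => ?_⟩⟩
    · exact max_le_max (h2 x hx).1 (g2 x hx).1
    · rw [max_mul_of_nonneg _ _ (by positivity)]
      exact max_le_max ((h2 x hx).2 y hy) ((g2 x hx).2 y hy)
  | succ k ih =>
    refine ⟨(ih hf.le_succ hg.le_succ).base, fun i => ?_⟩
    obtain ⟨f', hf', hd⟩ := hf.2 i
    obtain ⟨g', hg', hd'⟩ := hg.2 i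
    exact ⟨fun x => (f' x, g' x), ih hf' hg', fun x hx => HasDerivAt.prodMk (hd x hx) (hd' x hx)⟩

theorem exists_lip_bound {U : Type*} [NormedAddCommGroup U] [NormedSpace ℝ U] {O K : Set V} (hO : IsOpen O)
    (hK : IsCompact K) (hKO : K ⊆ O) {N : V → U} (hN : ContDiffOn ℝ ∞ N O) :
    ∃ L : ℝ, 0 ≤ L ∧ ∀ p ∈ K, ‖N p‖ ≤ L ∧ ∀ q ∈ K, ‖N p - N q‖ ≤ L * ‖p - q‖ := by
  have hloc : LocallyLipschitzOn K N := fun p hp => by
    obtain ⟨C, t, ht, h⟩ :=
      ((hN.contDiffAt (hO.mem_nhds (hKO hp))).of_le (show (1 : ℕ∞ω) ≤ ∞ by simp)).exists_lipschitzOnWith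
    exact ⟨C, t, mem_nhdsWithin_of_mem_nhds ht, h⟩
  obtain ⟨C, hC⟩ := hloc.exists_lipschitzOnWith_of_compact hK
  obtain ⟨B, hB⟩ := hK.exists_bound_of_continuousOn (hN.continuousOn.mono hKO)
  refine ⟨max B C, le_max_of_le_right C.2, fun p hp => ⟨(hB p hp).trans (le_max_left _ _), fun q hq => ?_⟩⟩
  rw [← dist_eq_norm, ← dist_eq_norm]
  exact (hC.dist_le_mul p hp q hq).trans (mul_le_mul_of_nonneg_right (le_max_right _ _) dist_nonneg)

/-- Closure under composition with smooth maps. -/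
theorem TC.comp [FiniteDimensional ℝ V] {k : ℕ} {U : Type*} [NormedAddCommGroup U] [NormedSpace ℝ U]
    {O K : Set V} (hO : IsOpen O) (hK : IsCompact K) (hKO : K ⊆ O) {N : V → U} (hN : ContDiffOn ℝ ∞ N O)
    {f : EuclideanSpace ℝ (Fin (n + 1)) → V} (hfK : MapsTo f (half n ρ) K) (hf : TC α ρ j k f) :
    TC α ρ j k (fun x => N (f x)) := by
  have hbase : ∀ {V' U' : Type _} [NormedAddCommGroup V'] [NormedSpace ℝ V'] [NormedAddCommGroup U']
      [NormedSpace ℝ U'] {O K : Set V'}, IsOpen O → IsCompact K → K ⊆ O → ∀ {N : V' → U'},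
      ContDiffOn ℝ ∞ N O → ∀ {f : EuclideanSpace ℝ (Fin (n + 1)) → V'}, MapsTo f (half n ρ) K →
      Base α ρ j f → Base α ρ j (fun x => N (f x)) := by
    intro V' U' _ _ _ _ O K hO hK hKO N hN f hfK hf
    obtain ⟨h1, C, h2⟩ := hf
    obtain ⟨L, hL0, hL⟩ := exists_lip_bound hO hK hKO hN
    refine ⟨(hN.of_le (by exact_mod_cast le_top)).comp h1 (hfK.mono_right hKO),
      max L (L * C), fun x hx => ⟨?_, fun y hy => ?_⟩⟩
    · exact (hL _ (hfK hx)).1.trans (le_max_left _ _)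
    · refine ((hL _ (hfK hx)).2 _ (hfK hy)).trans ?_
      refine (mul_le_mul_of_nonneg_left ((h2 x hx).2 y hy) hL0).trans ?_
      rw [← mul_assoc]
      exact mul_le_mul_of_nonneg_right (le_max_right _ _) (by positivity)
  induction k generalizing V U f with
  | zero => exact hbase hO hK hKO hN hfK hf
  | succ k ih =>
    refine ⟨hbase hO hK hKO hN hfK hf.1, fun i => ?_⟩
    obtain ⟨f', hf', hd⟩ := hf.2 i
    obtain ⟨-, C, hC⟩ := hf'.base
    refine ⟨fun x => fderiv ℝ N (f x) (f' x), ?_, fun x hx => ?_⟩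
    · have hN2 : ContDiffOn ℝ ∞ (fun p : V × V => fderiv ℝ N p.1 p.2) (O ×ˢ univ) :=
        ((hN.fderiv_of_isOpen hO (m := ∞) (by simp)).comp contDiffOn_fst fun p hp => hp.1).clm_apply contDiffOn_snd
      exact ih (hO.prod isOpen_univ) (hK.prod (isCompact_closedBall (0 : V) C))
        (prod_mono hKO (subset_univ _)) hN2 (f := fun y => (f y, f' y))
        (fun y hy => ⟨hfK hy, mem_closedBall_zero_iff.2 (hC y hy).1⟩) (hf.le_succ.prod hf')
    · have hd' : HasFDerivAt N (fderiv ℝ N (f x)) (f x) :=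
        (((hN.contDiffAt (hO.mem_nhds (hKO (hfK (hi_subset_half ρ hx))))).differentiableAt (by simp))).hasFDerivAt
      exact hd'.comp_hasDerivAt_of_eq 0 (hd x hx) (by simp)

/-- Composition with a map smooth everywhere. -/
theorem TC.comp' [FiniteDimensional ℝ V] {k : ℕ} {U : Type*} [NormedAddCommGroup U] [NormedSpace ℝ U]
    {N : V → U} (hN : ContDiff ℝ ∞ N) {f : EuclideanSpace ℝ (Fin (n + 1)) → V} (hf : TC α ρ j k f) :
    TC α ρ j k (fun x => N (f x)) := by
  obtain ⟨-, C, hC⟩ := hf.base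
  exact hf.comp isOpen_univ (isCompact_closedBall (0 : V) C) (subset_univ _) hN.contDiffOn
    fun y hy => mem_closedBall_zero_iff.2 (hC y hy).1

theorem Base.continuousOn {f : EuclideanSpace ℝ (Fin (n + 1)) → V} (h : Base α ρ j f) :
    ContinuousOn f (half n ρ) :=
  h.1.continuousOn

/-- A point of the closed half ball is the limit of points of the open one pushed inwards. -/
theorem push_mem {x : EuclideanSpace ℝ (Fin (n + 1))} (hx : x ∈ Hc n 0) {t s : ℝ} (ht : 0 < t)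
    (hs : ‖x‖ + t < s) : x + t • EuclideanSpace.single (Fin.last n) 1 ∈ hi n s := by
  have hx' : -(0 : ℝ) ≤ x (Fin.last n) := hx
  refine ⟨show -(0 : ℝ) < _ by simp; linarith, mem_ball_zero_iff.2 ?_⟩
  refine lt_of_le_of_lt (norm_add_le _ _) ?_
  rwa [norm_smul, PiLp.norm_single, norm_one, mul_one, Real.norm_of_nonneg ht.le]

theorem tendsto_push (x : EuclideanSpace ℝ (Fin (n + 1))) :
    Tendsto (fun m : ℕ => x + (1 / ((m : ℝ) + 1)) • EuclideanSpace.single (Fin.last n) 1) atTop (𝓝 x) := by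
  simpa using ((tendsto_one_div_add_atTop_nhds_zero_nat (𝕜 := ℝ)).smul_const
    (EuclideanSpace.single (Fin.last n) (1 : ℝ))).const_add x

/-- Inequalities between continuous functions pass from the open half ball to its flat side. -/
theorem le_of_interior {s : ℝ} {f g : EuclideanSpace ℝ (Fin (n + 1)) → ℝ} (hf : ContinuousOn f (half n s))
    (hg : ContinuousOn g (half n s)) (h : ∀ x ∈ hi n s, f x ≤ g x) : ∀ x ∈ half n s, f x ≤ g x := by
  intro x hx
  have hxs : ‖x‖ < s := mem_ball_zero_iff.1 hx.2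
  have hev : ∀ᶠ m : ℕ in atTop,
      x + (1 / ((m : ℝ) + 1)) • EuclideanSpace.single (Fin.last n) 1 ∈ hi n s := by
    filter_upwards [tendsto_one_div_add_atTop_nhds_zero_nat.eventually (gt_mem_nhds (show (0:ℝ) < s - ‖x‖ by linarith))]
      with m hm
    exact push_mem hx.1 (by positivity) (by linarith)
  have ht : Tendsto (fun m : ℕ => x + (1 / ((m : ℝ) + 1)) • EuclideanSpace.single (Fin.last n) 1) atTop
      (𝓝[half n s] x) :=
    tendsto_nhdsWithin_iff.2 ⟨tendsto_push x, hev.mono fun m hm => hi_subset_half s hm⟩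
  exact le_of_tendsto_of_tendsto ((hf x hx).tendsto.comp ht) ((hg x hx).tendsto.comp ht)
    (hev.mono fun m hm => h _ hm)

theorem hasDerivAt_line {f : EuclideanSpace ℝ (Fin (n + 1)) → V} {f' : V} {w e : EuclideanSpace ℝ (Fin (n + 1))}
    {t : ℝ} (h0 : HasLineDerivAt ℝ f f' (w + t • e) e) : HasDerivAt (fun u => f (w + u • e)) f' t := by
  unfold HasLineDerivAt at h0
  rw [show (0 : ℝ) = t + (-t) by ring] at h0
  refine (h0.comp_add_const t (-t)).congr_of_eventuallyEq (Eventually.of_forall fun u => ?_)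
  simp only [add_assoc, ← add_smul]
  congr 2; ring_nf

/-- A tangential mean value inequality up to the flat side. -/
theorem line_mvt {i : Fin n} {f f' : EuclideanSpace ℝ (Fin (n + 1)) → V} {z : EuclideanSpace ℝ (Fin (n + 1))}
    {s h L : ℝ} (hf : ContinuousOn f (half n s)) (hd : ∀ x ∈ hi n s, HasLineDerivAt ℝ f (f' x) x (tang i))
    (hz : z ∈ Hc n 0) (hzh : ‖z‖ + |h| < s) (hb : ∀ x ∈ hi n s, ‖f' x‖ ≤ L) :
    ‖f (z + h • tang i) - f z‖ ≤ |h| * L := by
  have hz' : z ∈ half n (s - |h|) := ⟨hz, mem_ball_zero_iff.2 (by linarith)⟩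
  have hm : MapsTo (fun w => w + h • tang i) (half n (s - |h|)) (half n s) := fun w hw =>
    (add_tang_mem i h (by linarith [mem_ball_zero_iff.1 hw.2])).1 hw.1
  have hs : half n (s - |h|) ⊆ half n s := half_mono (by linarith [abs_nonneg h])
  refine le_of_interior (s := s - |h|) (f := fun w => ‖f (w + h • tang i) - f w‖) (g := fun _ => |h| * L)
    (((hf.comp (by fun_prop) hm).sub (hf.mono hs)).norm) continuousOn_const (fun w hw => ?_) z hz'
  have hwb := mem_ball_zero_iff.1 hw.2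
  have hmem : ∀ t ∈ uIcc (0 : ℝ) h, w + t • tang i ∈ hi n s := fun t ht => by
    have : |t| ≤ |h| := by simpa using abs_sub_left_of_mem_uIcc ht
    exact (add_tang_mem i t (by linarith)).2 hw.1
  have hder : ∀ t ∈ uIcc (0 : ℝ) h,
      HasDerivWithinAt (fun t => f (w + t • tang i)) (f' (w + t • tang i)) (uIcc 0 h) t := fun t ht =>
    (hasDerivAt_line (hd _ (hmem t ht))).hasDerivWithinAt
  have := (convex_uIcc (0 : ℝ) h).norm_image_sub_le_of_norm_hasDerivWithin_le hder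
    (fun t ht => hb _ (hmem t ht)) left_mem_uIcc right_mem_uIcc
  simpa [Real.norm_eq_abs, mul_comm] using this

omit [NormedSpace ℝ V] in
/-- Extension of a Hölder function from the open half ball to its flat side. -/
theorem exists_ext [CompleteSpace V] (hα : 0 < α) {s K : ℝ} (hK : 0 ≤ K)
    {f : EuclideanSpace ℝ (Fin (n + 1)) → V}
    (hb : ∀ x ∈ hi n s, ‖f x‖ ≤ K) (hh : ∀ x ∈ hi n s, ∀ y ∈ hi n s, ‖f x - f y‖ ≤ K * dist x y ^ α) :
    ∃ F : EuclideanSpace ℝ (Fin (n + 1)) → V, (∀ x ∈ hi n s, F x = f x) ∧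
      (∀ x ∈ half n s, ‖F x‖ ≤ K) ∧ ∀ x ∈ half n s, ∀ y ∈ half n s, ‖F x - F y‖ ≤ K * dist x y ^ α := by
  obtain ⟨e, ee⟩ : ∃ e : ℕ → ℝ, e = fun m : ℕ => 1 / ((m : ℝ) + 1) := ⟨_, rfl⟩
  have he : ∀ m, 0 < e m := fun m => by rw [ee]; positivity
  have he0 : Tendsto e atTop (𝓝 0) := ee ▸ tendsto_one_div_add_atTop_nhds_zero_nat
  obtain ⟨p, ep⟩ : ∃ p : EuclideanSpace ℝ (Fin (n + 1)) → ℕ → EuclideanSpace ℝ (Fin (n + 1)),
      p = fun x m => x + e m • EuclideanSpace.single (Fin.last n) 1 := ⟨_, rfl⟩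
  have hpd : ∀ x m l, dist (p x m) (p x l) = |e m - e l| := fun x m l => by
    simp [ep, dist_eq_norm, ← sub_smul, norm_smul]
  have hmem : ∀ x ∈ half n s, ∀ᶠ m in atTop, p x m ∈ hi n s := fun x hx => by
    filter_upwards [he0.eventually (gt_mem_nhds (show (0:ℝ) < s - ‖x‖ by
      linarith [mem_ball_zero_iff.1 hx.2]))] with m hm
    rw [ep]; exact push_mem hx.1 (he m) (by linarith)
  have hexi : ∀ x ∈ half n s, ∃ v, Tendsto (fun m => f (p x m)) atTop (𝓝 v) := fun x hx => by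
    refine cauchySeq_tendsto_of_complete (Metric.cauchySeq_iff.2 fun ε hε => ?_)
    obtain ⟨N, hN⟩ := eventually_atTop.1 ((hmem x hx).and (((he0.rpow_const (Or.inr hα.le)).const_mul K).eventually
      (gt_mem_nhds (show K * (0:ℝ) ^ α < ε / 2 by rw [Real.zero_rpow hα.ne', mul_zero]; linarith))))
    refine ⟨N, fun m hm l hl => ?_⟩
    rw [dist_eq_norm]
    refine lt_of_le_of_lt (hh _ (hN m hm).1 _ (hN l hl).1) ?_
    rw [hpd]
    have hle : |e m - e l| ≤ max (e m) (e l) := abs_sub_le_of_nonneg_of_le (he m).le (le_max_left _ _) (he l).le (le_max_right _ _)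
    refine lt_of_le_of_lt (mul_le_mul_of_nonneg_left (Real.rpow_le_rpow (abs_nonneg _) hle hα.le) hK) ?_
    rcases max_choice (e m) (e l) with h | h <;> rw [h] <;> linarith [(hN m hm).2, (hN l hl).2]
  choose! v hv using hexi
  have hev : ∀ x ∈ hi n s, v x = f x := fun x hx => by
    refine tendsto_nhds_unique (hv x (hi_subset_half s hx)) (tendsto_iff_norm_sub_tendsto_zero.2 ?_)
    refine squeeze_zero' (Eventually.of_forall fun m => norm_nonneg _) ((hmem x (hi_subset_half s hx)).mono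
      fun m hm => hh _ hm x hx) ?_
    have : ∀ m, dist (p x m) x = e m := fun m => by
      simp [ep, norm_smul, (he m).le]
    simp only [this]
    simpa [Real.zero_rpow hα.ne'] using (he0.rpow_const (Or.inr hα.le)).const_mul K
  refine ⟨v, hev, fun x hx => ?_, fun x hx y hy => ?_⟩
  · exact le_of_tendsto (hv x hx).norm ((hmem x hx).mono fun m hm => hb _ hm)
  · refine le_of_tendsto ((hv x hx).sub (hv y hy)).norm (((hmem x hx).and (hmem y hy)).mono fun m hm => ?_)
    have := hh _ hm.1 _ hm.2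
    rwa [show dist (p x m) (p y m) = dist x y by simp [ep, dist_add_right]] at this

end Vale.Agent.P098.Reg.High
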