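import Vale.Agent.P098.Reg.High.Half

/-! First order jets with a Hölder derivative on half spaces; clamping and compactness. -/

noncomputable section

namespace Vale.Agent.P098.Reg.High

open MeasureTheory Set Filter Topology Metric
open scoped ContDiff InnerProductSpace NNReal

variable {n : ℕ}

/-- `(v, V)` is a first order jet on `S` with `α`-Hölder derivative of constant `M`. -/
structure Jet1 (α M : ℝ) (S : Set (EuclideanSpace ℝ (Fin (n + 1))))
    (v : EuclideanSpace ℝ (Fin (n + 1)) → ℝ)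
    (V : EuclideanSpace ℝ (Fin (n + 1)) → EuclideanSpace ℝ (Fin (n + 1))) : Prop where
  hol : ∀ x ∈ S, ∀ y ∈ S, ‖V x - V y‖ ≤ M * dist x y ^ α
  tay : ∀ x ∈ S, ∀ y ∈ S, |v y - v x - ⟪V x, y - x⟫_ℝ| ≤ M * dist x y ^ (1 + α)

variable {α M : ℝ} {S : Set (EuclideanSpace ℝ (Fin (n + 1)))} {v : EuclideanSpace ℝ (Fin (n + 1)) → ℝ}
  {V : EuclideanSpace ℝ (Fin (n + 1)) → EuclideanSpace ℝ (Fin (n + 1))}

theorem Jet1.continuousOn (h : Jet1 α M S v V) (hα : 0 < α) : ContinuousOn V S := by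
  intro x hx
  refine tendsto_iff_norm_sub_tendsto_zero.2 ?_
  refine squeeze_zero' (Eventually.of_forall fun y => norm_nonneg _)
    (eventually_nhdsWithin_of_forall fun y hy => h.hol y hy x hx) ?_
  have hd : Tendsto (fun y => dist y x) (𝓝[S] x) (𝓝 0) := by
    have := (continuous_id.dist (continuous_const (y := x))).tendsto x
    simp only [id_eq, dist_self] at this
    exact this.mono_left nhdsWithin_le_nhds
  simpa [Real.zero_rpow hα.ne'] using (hd.rpow_const (Or.inr hα.le)).const_mul M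

theorem Jet1.hasFDerivWithinAt (h : Jet1 α M S v V) (hα : 0 < α) {x : EuclideanSpace ℝ (Fin (n + 1))}
    (hx : x ∈ S) : HasFDerivWithinAt v (innerSL ℝ (V x)) S x := by
  refine .of_isLittleO ?_
  have h1 : (fun y => v y - v x - ⟪V x, y - x⟫_ℝ) =O[𝓝[S] x] fun y => ‖y - x‖ ^ (1 + α) := by
    refine Asymptotics.IsBigO.of_bound M (eventually_nhdsWithin_of_forall fun y hy => ?_)
    rw [Real.norm_eq_abs, Real.norm_of_nonneg (Real.rpow_nonneg (norm_nonneg _) _), ← dist_eq_norm, dist_comm]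
    exact h.tay x hx y hy
  refine h1.trans_isLittleO ?_
  rw [Asymptotics.isLittleO_iff]
  intro c hc
  have ht : Tendsto (fun y => ‖y - x‖ ^ α) (𝓝[S] x) (𝓝 0) := by
    have h0 : Tendsto (fun y : EuclideanSpace ℝ (Fin (n + 1)) => ‖y - x‖) (𝓝 x) (𝓝 0) := by
      have := ((continuous_id.sub (continuous_const (y := x))).norm).tendsto x
      simpa using this
    simpa [Real.zero_rpow hα.ne'] using (h0.mono_left nhdsWithin_le_nhds).rpow_const (Or.inr hα.le)
  filter_upwards [ht.eventually (gt_mem_nhds hc)] with y hy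
  rw [Real.norm_of_nonneg (Real.rpow_nonneg (norm_nonneg _) _)]
  rcases (norm_nonneg (y - x)).eq_or_lt with h0 | h0
  · rw [← h0, Real.zero_rpow (by linarith)]; positivity
  rw [add_comm 1 α, Real.rpow_add h0, Real.rpow_one]
  exact mul_le_mul_of_nonneg_right hy.le h0.le

/-- A better Hölder constant of the derivative improves the Taylor bound. -/
theorem Jet1.improve (h : Jet1 α M S v V) (hS : Convex ℝ S) (hα : 0 < α) {M' : ℝ} (hM' : 0 ≤ M')
    (hol' : ∀ x ∈ S, ∀ y ∈ S, ‖V x - V y‖ ≤ M' * dist x y ^ α) : Jet1 α M' S v V := by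
  refine ⟨hol', fun x hx y hy => ?_⟩
  have hseg : segment ℝ x y ⊆ S := hS.segment_subset hx hy
  have hb : ∀ q ∈ segment ℝ x y, ‖innerSL ℝ (V q) - innerSL ℝ (V x)‖ ≤ M' * dist x y ^ α := fun q hq => by
    rw [← map_sub, innerSL_apply_norm]
    refine (hol' q (hseg hq) x hx).trans (mul_le_mul_of_nonneg_left
      (Real.rpow_le_rpow dist_nonneg ?_ hα.le) hM')
    rw [← dist_add_dist_of_mem_segment hq, dist_comm q x]
    exact le_add_of_nonneg_right dist_nonneg
  have hd := Convex.norm_image_sub_le_of_norm_hasFDerivWithin_le' (φ := innerSL ℝ (V x))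
    (fun q hq => ((h.hasFDerivWithinAt hα (hseg hq)).mono hseg)) hb (convex_segment x y)
    (left_mem_segment ℝ x y) (right_mem_segment ℝ x y)
  rw [Real.norm_eq_abs, ← dist_eq_norm, dist_comm y x, innerSL_apply_apply] at hd
  refine hd.trans_eq ?_
  rcases (dist_nonneg (x := x) (y := y)).eq_or_lt with h0 | h0
  · rw [← h0, Real.zero_rpow hα.ne', Real.zero_rpow (by linarith)]; simp
  · rw [add_comm 1 α, Real.rpow_add h0, Real.rpow_one]; ring

/-- Push a point into the half space. -/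
def clamp (h : ℝ) (x : EuclideanSpace ℝ (Fin (n + 1))) : EuclideanSpace ℝ (Fin (n + 1)) :=
  x + (max (x (Fin.last n)) (-h) - x (Fin.last n)) • EuclideanSpace.single (Fin.last n) 1

theorem clamp_apply_last (h : ℝ) (x : EuclideanSpace ℝ (Fin (n + 1))) :
    clamp h x (Fin.last n) = max (x (Fin.last n)) (-h) := by
  simp [clamp]

theorem clamp_apply_ne (h : ℝ) (x : EuclideanSpace ℝ (Fin (n + 1))) {i : Fin (n + 1)} (hi : i ≠ Fin.last n) :
    clamp h x i = x i := by
  simp [clamp, hi]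

theorem clamp_mem (h : ℝ) (x : EuclideanSpace ℝ (Fin (n + 1))) : clamp h x ∈ Hc n h := by
  show -h ≤ clamp h x (Fin.last n)
  rw [clamp_apply_last]; exact le_max_right _ _

theorem clamp_of_mem {h : ℝ} {x : EuclideanSpace ℝ (Fin (n + 1))} (hx : x ∈ Hc n h) : clamp h x = x := by
  have hx' : -h ≤ x (Fin.last n) := hx
  simp [clamp, max_eq_left hx']

theorem clamp_dist (h : ℝ) (x y : EuclideanSpace ℝ (Fin (n + 1))) : dist (clamp h x) (clamp h y) ≤ dist x y := by
  rw [EuclideanSpace.dist_eq, EuclideanSpace.dist_eq]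
  refine Real.sqrt_le_sqrt (Finset.sum_le_sum fun i _ => ?_)
  rcases eq_or_ne i (Fin.last n) with rfl | hi
  · rw [clamp_apply_last, clamp_apply_last, Real.dist_eq, Real.dist_eq, sq_abs, sq_abs]
    exact sq_le_sq.2 (abs_max_sub_max_le_abs _ _ _)
  · rw [clamp_apply_ne h x hi, clamp_apply_ne h y hi]

theorem clamp_zero_eq {h : ℝ} (hh : 0 ≤ h) : clamp h (0 : EuclideanSpace ℝ (Fin (n + 1))) = 0 :=
  clamp_of_mem (show -h ≤ (0 : EuclideanSpace ℝ (Fin (n + 1))) (Fin.last n) by simpa using hh)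

theorem norm_clamp_le {h : ℝ} (hh : 0 ≤ h) (x : EuclideanSpace ℝ (Fin (n + 1))) : ‖clamp h x‖ ≤ ‖x‖ := by
  have := clamp_dist h x 0
  rwa [clamp_zero_eq hh, dist_zero_right, dist_zero_right] at this

/-- Pointwise bounded sequences with a common modulus of continuity have pointwise convergent
subsequences. -/
theorem exists_subseq {E F : Type*} [PseudoMetricSpace E] [TopologicalSpace.SeparableSpace E] [Nonempty E]
    [MetricSpace F] [ProperSpace F] (f : ℕ → E → F) (c : F) {B : E → ℝ} (hB : ∀ k x, dist (f k x) c ≤ B x)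
    (hmod : ∀ x, ∀ ε > 0, ∃ δ > 0, ∀ k y, dist y x < δ → dist (f k y) (f k x) ≤ ε) :
    ∃ (ψ : ℕ → ℕ) (g : E → F), StrictMono ψ ∧ ∀ x, Tendsto (fun k => f (ψ k) x) atTop (𝓝 (g x)) := by
  have hK : IsCompact (Set.pi univ fun i : ℕ => closedBall c (B (TopologicalSpace.denseSeq E i))) :=
    isCompact_univ_pi fun _ => isCompact_closedBall _ _
  obtain ⟨a, -, ψ, hψ, hlim⟩ := hK.tendsto_subseq (x := fun k i => f k (TopologicalSpace.denseSeq E i))
    fun k i _ => mem_closedBall.2 (hB k _)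
  have hcau : ∀ x, ∃ l, Tendsto (fun k => f (ψ k) x) atTop (𝓝 l) := fun x => by
    refine cauchySeq_tendsto_of_complete (Metric.cauchySeq_iff.2 fun ε hε => ?_)
    obtain ⟨δ, hδ, hd⟩ := hmod x (ε / 4) (by linarith)
    obtain ⟨i, hi⟩ := (TopologicalSpace.denseRange_denseSeq E).exists_dist_lt x hδ
    obtain ⟨N, hN⟩ := Metric.cauchySeq_iff.1 (tendsto_pi_nhds.1 hlim i).cauchySeq (ε / 4) (by linarith)
    refine ⟨N, fun p hp q hq => ?_⟩
    have h2 : dist (f (ψ p) (TopologicalSpace.denseSeq E i)) (f (ψ q) (TopologicalSpace.denseSeq E i)) < ε / 4 :=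
      hN p hp q hq
    rw [dist_comm] at hi
    have h1 := hd (ψ p) _ hi
    have h3 := hd (ψ q) _ hi
    rw [dist_comm] at h1
    linarith [dist_triangle4 (f (ψ p) x) (f (ψ p) (TopologicalSpace.denseSeq E i))
      (f (ψ q) (TopologicalSpace.denseSeq E i)) (f (ψ q) x)]
  choose g hg using hcau
  exact ⟨ψ, g, hψ, hg⟩

/-- A normalised jet is locally Lipschitz, uniformly. -/
theorem Jet1.abs_sub_le (h : Jet1 α 1 S v V) (hα : 0 < α) (h0S : (0 : EuclideanSpace ℝ (Fin (n + 1))) ∈ S)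
    (hV0 : V 0 = 0) {R : ℝ} {x y : EuclideanSpace ℝ (Fin (n + 1))} (hx : x ∈ S) (hy : y ∈ S)
    (hxR : ‖x‖ ≤ R) (hyR : ‖y‖ ≤ R) : |v x - v y| ≤ 3 * (2 * R) ^ α * dist x y := by
  have hR : 0 ≤ R := (norm_nonneg _).trans hxR
  have h1 := h.tay y hy x hx
  rw [one_mul] at h1
  have h2 : ‖V y‖ ≤ (2 * R) ^ α := by
    have := h.hol y hy 0 h0S
    rw [hV0, sub_zero, one_mul, dist_zero_right] at this
    exact this.trans (Real.rpow_le_rpow (norm_nonneg _) (by linarith) hα.le)
  have h3 : |⟪V y, x - y⟫_ℝ| ≤ (2 * R) ^ α * dist x y := by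
    refine (abs_real_inner_le_norm _ _).trans ?_
    rw [← dist_eq_norm]
    exact mul_le_mul_of_nonneg_right h2 dist_nonneg
  have h4 : dist y x ^ (1 + α) ≤ (2 * R) ^ α * dist x y := by
    rw [dist_comm y x]
    rcases (dist_nonneg (x := x) (y := y)).eq_or_lt with h0 | h0
    · rw [← h0, Real.zero_rpow (by linarith), mul_zero]
    rw [add_comm 1 α, Real.rpow_add h0, Real.rpow_one]
    refine mul_le_mul_of_nonneg_right (Real.rpow_le_rpow h0.le ?_ hα.le) h0.le
    rw [dist_eq_norm]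
    linarith [norm_sub_le x y]
  have h5 := abs_le.1 h1
  have h6 := abs_le.1 h3
  have h7 : (0 : ℝ) ≤ (2 * R) ^ α * dist x y :=
    mul_nonneg (Real.rpow_nonneg (by linarith) _) dist_nonneg
  rw [abs_le]
  constructor <;> nlinarith

end Vale.Agent.P098.Reg.High
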